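/-
R224 / S0346 : definitions of the TOPOLOGICAL HALF (helper36).
Mod 2 singular chains with supports.
-/
import Mathlib

set_option autoImplicit false

noncomputable section

open Topology Set Filter

namespace Crest.Agent.R224.T

/-- standard simplex -/
abbrev Dl (n : ℕ) : Type := stdSimplex ℝ (Fin (n + 1))

/-- Euclidean space -/
abbrev EE (n : ℕ) : Type := EuclideanSpace ℝ (Fin n)

/-- the i-th face inclusion -/
def face (n : ℕ) (i : Fin (n + 2)) : C(Dl n, Dl (n + 1)) :=
  ⟨stdSimplex.map i.succAbove, stdSimplex.continuous_map _⟩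

/-- mod 2 singular chains -/
abbrev Ch (n : ℕ) (X : Type) [TopologicalSpace X] : Type := C(Dl n, X) →₀ ZMod 2

section
variable {X : Type} [TopologicalSpace X] {Y : Type} [TopologicalSpace Y]

/-- boundary operator -/
def bd (n : ℕ) : Ch (n + 1) X →ₗ[ZMod 2] Ch n X :=
  Finsupp.linearCombination (ZMod 2) fun σ : C(Dl (n + 1), X) =>
    ∑ i : Fin (n + 2), Finsupp.single (σ.comp (face n i)) (1 : ZMod 2)

/-- push forward of chains -/
def push (f : C(X, Y)) (n : ℕ) : Ch n X →ₗ[ZMod 2] Ch n Y :=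
  Finsupp.lmapDomain (ZMod 2) (ZMod 2) fun σ : C(Dl n, X) => f.comp σ

/-- the chain `c` lies in `A` -/
def In (A : Set X) {n : ℕ} (c : Ch n X) : Prop := ∀ σ ∈ c.support, range σ ⊆ A

/-- relative cycle modulo `A` -/
def RC (A : Set X) {n : ℕ} (c : Ch (n + 1) X) : Prop := In A (bd n c)

/-- `c` is a boundary modulo `A` -/
def Nul (A : Set X) {n : ℕ} (c : Ch n X) : Prop :=
  ∃ (b : Ch (n + 1) X) (e : Ch n X), In A e ∧ c = bd n b + e

/-- every simplex of `c` lies in a member of `𝒰` -/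
def Small (𝒰 : Set (Set X)) {n : ℕ} (c : Ch n X) : Prop :=
  ∀ σ ∈ c.support, ∃ U ∈ 𝒰, range σ ⊆ U

/-- A subdivision operator with its homotopy to the identity. -/
structure SubOp (X : Type) [TopologicalSpace X] where
  s : ∀ n : ℕ, Ch n X →ₗ[ZMod 2] Ch n X
  h : ∀ n : ℕ, Ch n X →ₗ[ZMod 2] Ch (n + 1) X
  bd_s : ∀ n (c : Ch (n + 1) X), bd n (s (n + 1) c) = s n (bd n c)
  bd_h0 : ∀ c : Ch 0 X, bd 0 (h 0 c) = c + s 0 c
  bd_h : ∀ n (c : Ch (n + 1) X), bd (n + 1) (h (n + 1) c) = c + s (n + 1) c + h n (bd n c)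
  supp_s : ∀ n (σ : C(Dl n, X)), ∀ τ ∈ (s n (Finsupp.single σ 1)).support, range τ ⊆ range σ
  supp_h : ∀ n (σ : C(Dl n, X)), ∀ τ ∈ (h n (Finsupp.single σ 1)).support, range τ ⊆ range σ

/-! ### locally finite chains -/

/-- locally finite (infinite) chain -/
def LF {n : ℕ} (m : C(Dl n, X) → ZMod 2) : Prop :=
  ∀ K : Set X, IsCompact K → {σ : C(Dl n, X) | m σ ≠ 0 ∧ (range σ ∩ K).Nonempty}.Finite

open Classical in
/-- the part of `m` meeting `K`, as a finite chain (`0` if infinite) -/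
def cut {n : ℕ} (m : C(Dl n, X) → ZMod 2) (K : Set X) : Ch n X :=
  if h : {σ : C(Dl n, X) | m σ ≠ 0 ∧ (range σ ∩ K).Nonempty}.Finite then
    Finsupp.onFinset h.toFinset (fun σ => if (range σ ∩ K).Nonempty then m σ else 0)
      (by
        intro σ hσ
        simp only [Set.Finite.mem_toFinset, Set.mem_setOf_eq]
        by_cases h1 : (range σ ∩ K).Nonempty
        · simp only [h1, if_true] at hσ
          exact ⟨hσ, h1⟩
        · simp [h1] at hσ)
  else 0

/-- locally finite cycle: `m` is locally finite and has zero boundary -/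
structure LCyc {n : ℕ} (m : C(Dl (n + 1), X) → ZMod 2) : Prop where
  lf : LF m
  cyc : ∀ K : Set X, IsCompact K → RC Kᶜ (cut m K)

/-- `m` is a locally finite cycle of local degree one everywhere -/
structure IsFund {n : ℕ} (m : C(Dl (n + 1), X) → ZMod 2) : Prop extends LCyc m where
  deg : ∀ p : X, ¬ Nul {p}ᶜ (cut m {p})

end

/-! ### geometry of the group action -/

/-- `U` is a connected, relatively compact open set of `E` whose translates cover `E`; `S` is the set
of `g` with `g U ∩ U ≠ ∅`. -/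
structure Geo {G : Type} [Group G] {E : Type} [TopologicalSpace E] [MulAction G E]
    (S : Finset G) (U : Set E) : Prop where
  cont : ∀ g : G, Continuous fun z : E => g • z
  isOpen : IsOpen U
  conn : IsConnected U
  cpt : IsCompact (closure U)
  cover : ∀ p : E, ∃ g : G, ∃ u ∈ U, p = g • u
  mem : ∀ g : G, g ∈ S ↔ ∃ u ∈ U, g • u ∈ U
  proper : ∀ K : Set E, IsCompact K → {g : G | ∃ u ∈ U, g • u ∈ K}.Finite

/-- translate of `U` -/
def tr {G : Type} [Group G] {E : Type} [MulAction G E] (g : G) (U : Set E) : Set E :=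
  (fun z => g • z) '' U

/-- what the homology of a contractible manifold of dimension `d+1` gives (all the algebraic
topology needed for the group-theoretic conclusions) -/
structure ManHyp (d : ℕ) (E : Type) [TopologicalSpace E] : Prop where
  /-- absolute cycles bound -/
  fill : ∀ (n : ℕ) (c : Ch (n + 1) E), bd n c = 0 → ∃ b, bd (n + 1) b = c
  /-- local homology below the top degree vanishes -/
  low : ∀ (q : ℕ), q ≠ d → ∀ (p : E) (c : Ch (q + 1) E), RC {p}ᶜ c → Nul {p}ᶜ c
  /-- the top local homology has at most two elements -/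
  two : ∀ (p : E) (c c' : Ch (d + 1) E), RC {p}ᶜ c → RC {p}ᶜ c' → ¬ Nul {p}ᶜ c → ¬ Nul {p}ᶜ c' →
    Nul {p}ᶜ (c + c')
  /-- the local degree is locally constant -/
  loc : ∀ (c : Ch (d + 1) E) (p : E), RC {p}ᶜ c → ∀ᶠ q in 𝓝 p, RC {q}ᶜ c ∧
    (Nul {q}ᶜ c ↔ Nul {p}ᶜ c)

end Crest.Agent.R224.T
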