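/-
R224 / S0346 : INTERFACE of the topological half (helper36).  Every node is a `Prop`.
A module proves `theorem xxx (h1 : NodeA) ... : NodeB` (file names in the row note).
-/
import Crest.Agent.R224.T.Defs
import Crest.Agent.R224.Defs
import Crest.Prelude.Def_ClassifyingComplex

set_option autoImplicit false

noncomputable section

open Topology Set Filter
open Crest.Topology

namespace Crest.Agent.R224.T

/-! ## Part I : singular chains -/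

/-- A1 prism operator -/
def NPrism : Prop := ∀ (X Y : Type) [TopologicalSpace X] [TopologicalSpace Y] (H : C(X × unitInterval, Y)),
  ∃ P : ∀ n : ℕ, Ch n X →ₗ[ZMod 2] Ch (n + 1) Y,
    (∀ c : Ch 0 X, bd 0 (P 0 c) = push (H.comp ⟨fun x => (x, 1), by fun_prop⟩) 0 c +
      push (H.comp ⟨fun x => (x, 0), by fun_prop⟩) 0 c) ∧
    (∀ n (c : Ch (n + 1) X), bd (n + 1) (P (n + 1) c) =
      push (H.comp ⟨fun x => (x, 1), by fun_prop⟩) (n + 1) c +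
      push (H.comp ⟨fun x => (x, 0), by fun_prop⟩) (n + 1) c + P n (bd n c)) ∧
    ∀ n (σ : C(Dl n, X)), ∀ τ ∈ (P n (Finsupp.single σ 1)).support,
      range τ ⊆ H '' (range σ ×ˢ univ)

/-- A2 subdivision -/
def NSub : Prop := ∀ (X : Type) [TopologicalSpace X], ∃ O : ℕ → SubOp X,
  ∀ 𝒰 : Set (Set X), (∀ U ∈ 𝒰, IsOpen U) → ∀ n (c : Ch n X), In (⋃₀ 𝒰) c →
    ∀ᶠ k in atTop, Small 𝒰 ((O k).s n c)

/-- A3 cycles in a contractible space bound -/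
def NFill : Prop := ∀ (X : Type) [TopologicalSpace X] [ContractibleSpace X] (n : ℕ)
  (c : Ch (n + 1) X), bd n c = 0 → ∃ b, bd (n + 1) b = c

/-- A4 excision for an open embedding `f : X → Y` along a subset `L` with closed image -/
def NExc : Prop := ∀ (X Y : Type) [TopologicalSpace X] [TopologicalSpace Y] (f : C(X, Y)),
  IsOpenEmbedding f → ∀ L : Set X, IsClosed (f '' L) → ∀ q : ℕ,
    (∀ c : Ch (q + 1) Y, RC (f '' L)ᶜ c → ∃ c' : Ch (q + 1) X, RC Lᶜ c' ∧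
      Nul (f '' L)ᶜ (c + push f (q + 1) c')) ∧
    (∀ c' : Ch (q + 1) X, RC Lᶜ c' → (Nul (f '' L)ᶜ (push f (q + 1) c') ↔ Nul Lᶜ c'))

/-! ## Part II : local homology of `ℝ^(d+1)` -/

/-- B1 local homology at the origin -/
def NLoc (d : ℕ) : Prop :=
  (∀ q (c : Ch (q + 1) (EE (d + 1))), q ≠ d → RC {0}ᶜ c → Nul {0}ᶜ c) ∧
  (∃ c : Ch (d + 1) (EE (d + 1)), RC {0}ᶜ c ∧ ¬ Nul {0}ᶜ c) ∧
  (∀ c c' : Ch (d + 1) (EE (d + 1)), RC {0}ᶜ c → RC {0}ᶜ c' → ¬ Nul {0}ᶜ c → ¬ Nul {0}ᶜ c' →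
    Nul {0}ᶜ (c + c'))

/-- B1 in every dimension -/
def NLocAll : Prop := ∀ d, NLoc d

/-- B2 star-shaped compact sets -/
def NStar : Prop := ∀ (m q : ℕ) (K : Set (EE m)) (p : EE m), IsCompact K → p ∈ K →
  StarConvex ℝ p K → ∀ c : Ch (q + 1) (EE m), RC Kᶜ c → Nul {p}ᶜ c → Nul Kᶜ c

/-- B3 a class over a compact subset of `ℝ^(d+1)` is determined by its local values -/
def NUniq : Prop := ∀ (d : ℕ) (K : Set (EE (d + 1))), IsCompact K →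
  ∀ c : Ch (d + 1) (EE (d + 1)), RC Kᶜ c → (∀ p ∈ K, Nul {p}ᶜ c) → Nul Kᶜ c

/-! ## Part III : manifolds -/

/-- C1 local homology of a manifold -/
def NMan : Prop := ∀ (d : ℕ) (Y : Type) [TopologicalSpace Y] [T2Space Y]
  [ChartedSpace (EE (d + 1)) Y],
  (∀ (q : ℕ), q ≠ d → ∀ (p : Y) (c : Ch (q + 1) Y), RC {p}ᶜ c → Nul {p}ᶜ c) ∧
  (∀ (p : Y) (c c' : Ch (d + 1) Y), RC {p}ᶜ c → RC {p}ᶜ c' → ¬ Nul {p}ᶜ c → ¬ Nul {p}ᶜ c' →
    Nul {p}ᶜ (c + c')) ∧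
  (∀ (c : Ch (d + 1) Y) (p : Y), RC {p}ᶜ c → ∀ᶠ q in 𝓝 p, RC {q}ᶜ c ∧
    (Nul {q}ᶜ c ↔ Nul {p}ᶜ c))

/-- C2 local classes -/
def NClass : Prop := ∀ (d : ℕ) (Y : Type) [TopologicalSpace Y] [T2Space Y]
  [ChartedSpace (EE (d + 1)) Y] (p : Y), ∃ K ∈ 𝓝 p, IsCompact K ∧
    (∃ y : Y, K ⊆ (chartAt (EE (d + 1)) y).source) ∧
    ∃ c : Ch (d + 1) Y, RC Kᶜ c ∧ ∀ q ∈ K, ¬ Nul {q}ᶜ c

/-- C3 uniqueness over compact subsets of charts -/
def NUniqM : Prop := ∀ (d : ℕ) (Y : Type) [TopologicalSpace Y] [T2Space Y]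
  [ChartedSpace (EE (d + 1)) Y] (y : Y) (K : Set Y), IsCompact K →
  K ⊆ (chartAt (EE (d + 1)) y).source → ∀ c : Ch (d + 1) Y, RC Kᶜ c →
  (∀ p ∈ K, Nul {p}ᶜ c) → Nul Kᶜ c

/-- C4 the fundamental cycle of a compact manifold -/
def NFund : Prop := ∀ (d : ℕ) (M : Type) [TopologicalSpace M] [T2Space M] [CompactSpace M]
  [ChartedSpace (EE (d + 1)) M], ∀ 𝒰 : Set (Set M), (∀ U ∈ 𝒰, IsOpen U) → ⋃₀ 𝒰 = univ →
  ∃ α : Ch (d + 1) M, bd d α = 0 ∧ Small 𝒰 α ∧ ∀ p, ¬ Nul {p}ᶜ α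

/-- C5 its lift to a contractible cover -/
def NLift : Prop := ∀ (d : ℕ) (M E : Type) [TopologicalSpace M] [T2Space M] [CompactSpace M]
  [ChartedSpace (EE (d + 1)) M] [TopologicalSpace E] [ContractibleSpace E] (π : E → M),
  IsCoveringMap π → Function.Surjective π → ∀ 𝒰 : Set (Set E), (∀ U ∈ 𝒰, IsOpen U) → ⋃₀ 𝒰 = univ →
  (∀ U ∈ 𝒰, ∀ g : E ≃ₜ E, (∀ z, π (g z) = π z) → g '' U ∈ 𝒰) →
  ∃ μ : C(Dl (d + 1), E) → ZMod 2, IsFund μ ∧ ∀ σ, μ σ ≠ 0 → ∃ U ∈ 𝒰, range σ ⊆ U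

/-! ## Part IV : conclusions for a group acting on a contractible manifold -/

/-- D0 gluing of a small 1-cocycle on a contractible space -/
def NGlue : Prop := ∀ (E : Type) [TopologicalSpace E] [ContractibleSpace E] (𝒲 : Set (Set E)),
  (∀ W ∈ 𝒲, IsOpen W ∧ IsPreconnected W) → ⋃₀ 𝒲 = univ → ∀ e : E → E → ZMod 2,
  (∀ W ∈ 𝒲, ∀ p ∈ W, ∀ q ∈ W, ∀ r ∈ W, e p q + e q r = e p r) →
  ∃ f : E → ZMod 2, ∀ W ∈ 𝒲, ∀ p ∈ W, ∀ q ∈ W, e p q = f p + f q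

/-- D1 -/
def NH1 : Prop := ∀ (G : Type) [Group G] (E : Type) [TopologicalSpace E] [ContractibleSpace E]
  [MulAction G E] (S : Finset G) (U : Set E), Geo S U → ∀ ψ : G → G → ZMod 2,
    (∀ x y z, Adj S x y → Adj S y z → Adj S x z → ψ x y + ψ y z = ψ x z) →
    ∃ f : G → ZMod 2, ∀ x y, Adj S x y → ψ x y = f x + f y

/-- D2 one end -/
def NEnd : Prop := ∀ (d : ℕ) (G : Type) [Group G] (E : Type) [TopologicalSpace E] [T2Space E]
  [ContractibleSpace E] [LocallyCompactSpace E] [MulAction G E] (S : Finset G) (U : Set E),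
  1 ≤ d → Geo S U → ManHyp d E →
  (∃ μ : C(Dl (d + 1), E) → ZMod 2, IsFund μ ∧ ∀ σ, μ σ ≠ 0 → ∃ g : G, range σ ⊆ tr g U) →
  ∀ A : Set G, (Crest.Agent.R224.bd S A).Finite → A.Finite ∨ Aᶜ.Finite

/-- D3 -/
def NT2 : Prop := ∀ (d : ℕ) (G : Type) [Group G] (E : Type) [TopologicalSpace E] [T2Space E]
  [ContractibleSpace E] [LocallyCompactSpace E] [MulAction G E] (S : Finset G) (U : Set E),
  2 ≤ d → Geo S U → ManHyp d E →
  (∃ μ : C(Dl (d + 1), E) → ZMod 2, IsFund μ ∧ ∀ σ, μ σ ≠ 0 → ∃ g : G, range σ ⊆ tr g U) →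
  ∀ ψ : G → G → ZMod 2,
    {p : G × G × G | Adj S p.1 p.2.1 ∧ Adj S p.2.1 p.2.2 ∧ Adj S p.1 p.2.2 ∧
      ψ p.1 p.2.1 + ψ p.2.1 p.2.2 ≠ ψ p.1 p.2.2}.Finite →
    ∃ f : G → ZMod 2, {p : G × G | Adj S p.1 p.2 ∧ ψ p.1 p.2 ≠ f p.1 + f p.2}.Finite

/-- D4 the geometry of the deck group of a contractible cover of a compact manifold -/
def NGeo : Prop := ∀ (d : ℕ) (M : Type) [TopologicalSpace M] [T2Space M] [CompactSpace M]
  [ConnectedSpace M] [ChartedSpace (EE (d + 1)) M] (x : M), HasContractibleCover M →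
  ∃ (E : Type) (_ : TopologicalSpace E) (π : E → M) (_ : MulAction (FundamentalGroup M x) E)
    (S : Finset (FundamentalGroup M x)) (U : Set E),
    ContractibleSpace E ∧ IsCoveringMap π ∧ Function.Surjective π ∧ T2Space E ∧
    LocallyCompactSpace E ∧ Nonempty (ChartedSpace (EE (d + 1)) E) ∧
    (∀ (g : FundamentalGroup M x) (z : E), π (g • z) = π z) ∧
    (∀ f : E ≃ₜ E, (∀ z, π (f z) = π z) → ∃ g : FundamentalGroup M x, ∀ z, f z = g • z) ∧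
    Geo S U

/-- D5 torsion-freeness (helper792) -/
def NTorsFree : Prop := ∀ (d : ℕ) (M : Type) [TopologicalSpace M] [T2Space M] [CompactSpace M]
  [ConnectedSpace M] [ChartedSpace (EE (d + 1)) M] (x : M), HasContractibleCover M →
  ∀ g : FundamentalGroup M x, g ≠ 1 → ∀ n : ℕ, 0 < n → g ^ n ≠ 1

/-- THE RESULT of the topological half -/
def NTop : Prop := ∀ (M : Type) [TopologicalSpace M] [T2Space M] [SecondCountableTopology M]
  [CompactSpace M] [ConnectedSpace M] [ChartedSpace (EuclideanSpace ℝ (Fin 4)) M] (x : M),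
  HasContractibleCover M → ∃ S : Finset (FundamentalGroup M x), TopHyp S

end Crest.Agent.R224.T
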