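/-
R224 / S0346 : node D3 (helper792), part 1: elementary calculus of mod 2 singular chains.
-/
import Crest.Agent.R224.T.Iface

set_option autoImplicit false
set_option maxHeartbeats 400000

noncomputable section

open Topology Set Filter

namespace Crest.Agent.R224.T.N2

variable {X : Type} [TopologicalSpace X]

/-- all simplices of `c` satisfy `P` -/
def Sup {n : ℕ} (P : C(Dl n, X) → Prop) (c : Ch n X) : Prop := ∀ σ ∈ c.support, P σ

theorem Sup.zero {n : ℕ} (P : C(Dl n, X) → Prop) : Sup P (0 : Ch n X) := by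
  intro σ hσ; simp at hσ

theorem Sup.add {n : ℕ} {P : C(Dl n, X) → Prop} {c c' : Ch n X} (h : Sup P c) (h' : Sup P c') :
    Sup P (c + c') := by
  classical
  intro σ hσ
  rcases Finset.mem_union.mp (Finsupp.support_add hσ) with h1 | h1
  · exact h σ h1
  · exact h' σ h1

theorem Sup.sum {n : ℕ} {P : C(Dl n, X) → Prop} {ι : Type*} (s : Finset ι) (c : ι → Ch n X)
    (h : ∀ i ∈ s, Sup P (c i)) : Sup P (∑ i ∈ s, c i) := by
  classical
  induction s using Finset.induction_on with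
  | empty => simpa using Sup.zero P
  | insert i s hi ih =>
    rw [Finset.sum_insert hi]
    exact Sup.add (h i (Finset.mem_insert_self _ _))
      (ih fun j hj => h j (Finset.mem_insert_of_mem hj))

theorem Sup.smul {n : ℕ} {P : C(Dl n, X) → Prop} {c : Ch n X} (r : ZMod 2) (h : Sup P c) :
    Sup P (r • c) := fun σ hσ => h σ (Finsupp.support_smul hσ)

theorem Sup.single {n : ℕ} {P : C(Dl n, X) → Prop} {σ : C(Dl n, X)} (h : P σ) (r : ZMod 2) :
    Sup P (Finsupp.single σ r : Ch n X) := by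
  classical
  intro τ hτ
  have := Finsupp.support_single_subset hτ
  rw [Finset.mem_singleton] at this
  rw [this]; exact h

theorem Sup.mono {n : ℕ} {P Q : C(Dl n, X) → Prop} {c : Ch n X} (h : Sup P c)
    (hPQ : ∀ σ, P σ → Q σ) : Sup Q c := fun σ hσ => hPQ σ (h σ hσ)

theorem in_iff {A : Set X} {n : ℕ} {c : Ch n X} : In A c ↔ Sup (fun σ => range σ ⊆ A) c := Iff.rfl

theorem two_self {M : Type*} [AddCommGroup M] [Module (ZMod 2) M] (m : M) : m + m = 0 := by
  have : (2 : ZMod 2) • m = 0 := by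
    rw [show (2 : ZMod 2) = 0 from rfl, zero_smul]
  rw [two_smul] at this
  exact this

theorem add_eq_iff {M : Type*} [AddCommGroup M] [Module (ZMod 2) M] {a b c : M} :
    a + b = c ↔ a = b + c := by
  constructor
  · intro h; rw [← h, add_comm a b, ← add_assoc, two_self, zero_add]
  · intro h; rw [h, add_comm b c, add_assoc, two_self, add_zero]

/-- linear extension -/
abbrev lin {n : ℕ} {M : Type*} [AddCommGroup M] [Module (ZMod 2) M] (f : C(Dl n, X) → M) :
    Ch n X →ₗ[ZMod 2] M := Finsupp.linearCombination (ZMod 2) f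

@[simp] theorem lin_single {n : ℕ} {M : Type*} [AddCommGroup M] [Module (ZMod 2) M]
    (f : C(Dl n, X) → M) (σ : C(Dl n, X)) : lin f (Finsupp.single σ 1) = f σ := by
  simp [lin]

theorem lin_eq_sum {n : ℕ} {M : Type*} [AddCommGroup M] [Module (ZMod 2) M]
    (f : C(Dl n, X) → M) (c : Ch n X) : lin f c = ∑ σ ∈ c.support, c σ • f σ := rfl

theorem Sup.lin {n m : ℕ} {P : C(Dl m, X) → Prop} (f : C(Dl n, X) → Ch m X) {c : Ch n X}
    (h : ∀ σ ∈ c.support, Sup P (f σ)) : Sup P (N2.lin f c) := by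
  rw [lin_eq_sum]
  exact Sup.sum _ _ fun σ hσ => Sup.smul _ (h σ hσ)

theorem lin_congr {n : ℕ} {M : Type*} [AddCommGroup M] [Module (ZMod 2) M]
    (f g : C(Dl n, X) → M) (c : Ch n X) (h : ∀ σ ∈ c.support, f σ = g σ) : lin f c = lin g c := by
  rw [lin_eq_sum, lin_eq_sum]
  exact Finset.sum_congr rfl fun σ hσ => by rw [h σ hσ]

theorem lin_ext_apply {n : ℕ} {M : Type*} [AddCommGroup M] [Module (ZMod 2) M]
    {f g : Ch n X →ₗ[ZMod 2] M} (h : ∀ σ, f (Finsupp.single σ 1) = g (Finsupp.single σ 1))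
    (c : Ch n X) : f c = g c := by
  have : f = g := by
    apply Finsupp.lhom_ext'
    intro l
    apply LinearMap.ext_ring
    simpa using h l
  rw [this]

theorem comp_lin {n : ℕ} {M N : Type*} [AddCommGroup M] [Module (ZMod 2) M]
    [AddCommGroup N] [Module (ZMod 2) N] (φ : M →ₗ[ZMod 2] N) (f : C(Dl n, X) → M) (c : Ch n X) :
    φ (lin f c) = lin (fun σ => φ (f σ)) c := by
  rw [lin_eq_sum, map_sum, lin_eq_sum]
  exact Finset.sum_congr rfl fun σ _ => by rw [map_smul]

theorem lin_add {n : ℕ} {M : Type*} [AddCommGroup M] [Module (ZMod 2) M]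
    (f g : C(Dl n, X) → M) (c : Ch n X) : lin f c + lin g c = lin (fun σ => f σ + g σ) c := by
  rw [lin_eq_sum, lin_eq_sum, lin_eq_sum, ← Finset.sum_add_distrib]
  exact Finset.sum_congr rfl fun σ _ => by rw [smul_add]

/-- face operator with weights -/
def fac (n : ℕ) (w : C(Dl (n + 1), X) → Fin (n + 2) → ZMod 2) : Ch (n + 1) X →ₗ[ZMod 2] Ch n X :=
  lin fun σ => ∑ i : Fin (n + 2), w σ i • Finsupp.single (σ.comp (face n i)) (1 : ZMod 2)

@[simp] theorem fac_single (n : ℕ) (w : C(Dl (n + 1), X) → Fin (n + 2) → ZMod 2)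
    (σ : C(Dl (n + 1), X)) : fac n w (Finsupp.single σ 1) =
    ∑ i : Fin (n + 2), w σ i • Finsupp.single (σ.comp (face n i)) (1 : ZMod 2) := lin_single _ _

@[simp] theorem bd_single (n : ℕ) (σ : C(Dl (n + 1), X)) : bd n (Finsupp.single σ 1) =
    ∑ i : Fin (n + 2), Finsupp.single (σ.comp (face n i)) (1 : ZMod 2) := lin_single _ _

/-- multiplication by a function of simplices -/
def mul (n : ℕ) (v : C(Dl n, X) → ZMod 2) : Ch n X →ₗ[ZMod 2] Ch n X :=
  lin fun σ => v σ • Finsupp.single σ (1 : ZMod 2)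

@[simp] theorem mul_single (n : ℕ) (v : C(Dl n, X) → ZMod 2) (σ : C(Dl n, X)) :
    mul n v (Finsupp.single σ 1) = v σ • Finsupp.single σ (1 : ZMod 2) := lin_single _ _

theorem Sup.bd {n : ℕ} {P : C(Dl n, X) → Prop} {c : Ch (n + 1) X}
    (h : ∀ σ ∈ c.support, ∀ i, P (σ.comp (face n i))) : Sup P (T.bd n c) := by
  refine Sup.lin _ fun σ hσ => ?_
  exact Sup.sum _ _ fun i _ => Sup.single (h σ hσ i) _

theorem Sup.fac {n : ℕ} {P : C(Dl n, X) → Prop} {w : C(Dl (n + 1), X) → Fin (n + 2) → ZMod 2}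
    {c : Ch (n + 1) X}
    (h : ∀ σ ∈ c.support, ∀ i, w σ i ≠ 0 → P (σ.comp (face n i))) : Sup P (N2.fac n w c) := by
  refine Sup.lin _ fun σ hσ => ?_
  refine Sup.sum _ _ fun i _ => ?_
  by_cases h0 : w σ i = 0
  · rw [h0, zero_smul]; exact Sup.zero _
  · exact Sup.smul _ (Sup.single (h σ hσ i h0) _)

theorem Sup.mul {n : ℕ} {P : C(Dl n, X) → Prop} {v : C(Dl n, X) → ZMod 2} {c : Ch n X}
    (h : ∀ σ ∈ c.support, v σ ≠ 0 → P σ) : Sup P (N2.mul n v c) := by
  refine Sup.lin _ fun σ hσ => ?_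
  by_cases h0 : v σ = 0
  · rw [h0, zero_smul]; exact Sup.zero _
  · exact Sup.smul _ (Sup.single (h σ hσ h0) _)

theorem range_face {n : ℕ} (σ : C(Dl (n + 1), X)) (i : Fin (n + 2)) :
    range (σ.comp (face n i)) ⊆ range σ := by
  rintro _ ⟨x, rfl⟩
  exact ⟨_, rfl⟩

theorem face_face {n : ℕ} (i : Fin (n + 3)) (j : Fin (n + 2)) :
    (face (n + 1) (i.succAbove j)).comp (face n (j.predAbove i)) =
      (face (n + 1) i).comp (face n j) := by
  ext1 x
  show stdSimplex.map (i.succAbove j).succAbove (stdSimplex.map (j.predAbove i).succAbove x) =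
    stdSimplex.map i.succAbove (stdSimplex.map j.succAbove x)
  rw [stdSimplex.map_comp_apply, stdSimplex.map_comp_apply]
  congr 1
  funext k
  exact Fin.succAbove_succAbove_succAbove_predAbove i j k

theorem bd_bd (n : ℕ) (c : Ch (n + 2) X) : bd n (bd (n + 1) c) = 0 := by
  have h : ∀ σ : C(Dl (n + 2), X), (bd n ∘ₗ bd (n + 1)) (Finsupp.single σ 1) =
      (0 : Ch (n + 2) X →ₗ[ZMod 2] Ch n X) (Finsupp.single σ 1) := by
    intro σ
    rw [LinearMap.comp_apply, bd_single, map_sum, LinearMap.zero_apply]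
    simp only [bd_single]
    rw [← Finset.sum_product']
    refine Finset.sum_involution (fun p _ => (p.1.succAbove p.2, p.2.predAbove p.1)) ?_ ?_ ?_ ?_
    · rintro ⟨i, j⟩ _
      have : ((σ.comp (face (n + 1) (i.succAbove j))).comp (face n (j.predAbove i))) =
          (σ.comp (face (n + 1) i)).comp (face n j) := by
        rw [ContinuousMap.comp_assoc, face_face, ContinuousMap.comp_assoc]
      simp only
      rw [this]
      exact two_self _
    · rintro ⟨i, j⟩ _ _ h
      simp only [Prod.mk.injEq] at h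
      exact Fin.succAbove_ne i j h.1
    · intro p _; simp
    · rintro ⟨i, j⟩ _
      simp only [Prod.mk.injEq]
      exact ⟨Fin.succAbove_succAbove_predAbove i j, Fin.predAbove_predAbove_succAbove i j⟩
  have := lin_ext_apply h c
  simpa using this

/-! ### In, RC, Nul -/

theorem In.zero' (A : Set X) {n : ℕ} : In A (0 : Ch n X) := Sup.zero _
theorem In.add' {A : Set X} {n : ℕ} {c c' : Ch n X} (h : In A c) (h' : In A c') :
    In A (c + c') := Sup.add h h'
theorem In.mono' {A B : Set X} {n : ℕ} {c : Ch n X} (h : In A c) (hAB : A ⊆ B) : In B c :=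
  fun σ hσ => (h σ hσ).trans hAB
theorem In.smul' {A : Set X} {n : ℕ} {c : Ch n X} (r : ZMod 2) (h : In A c) : In A (r • c) :=
  Sup.smul r h
theorem In.bd' {A : Set X} {n : ℕ} {c : Ch (n + 1) X} (h : In A c) : In A (bd n c) :=
  Sup.bd fun σ hσ i => (range_face σ i).trans (h σ hσ)

theorem RC.add' {A : Set X} {n : ℕ} {c c' : Ch (n + 1) X} (h : RC A c) (h' : RC A c') :
    RC A (c + c') := by
  unfold RC; rw [map_add]; exact In.add' h h'

theorem RC.of_in {A : Set X} {n : ℕ} {c : Ch (n + 1) X} (h : In A c) : RC A c := In.bd' h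

theorem RC.mono' {A B : Set X} {n : ℕ} {c : Ch (n + 1) X} (h : RC A c) (hAB : A ⊆ B) : RC B c :=
  In.mono' h hAB

theorem Nul.of_in {A : Set X} {n : ℕ} {c : Ch n X} (h : In A c) : Nul A c :=
  ⟨0, c, h, by simp⟩

theorem Nul.add' {A : Set X} {n : ℕ} {c c' : Ch n X} (h : Nul A c) (h' : Nul A c') :
    Nul A (c + c') := by
  obtain ⟨b, e, he, hc⟩ := h
  obtain ⟨b', e', he', hc'⟩ := h'
  exact ⟨b + b', e + e', In.add' he he', by rw [hc, hc', map_add]; abel⟩

theorem Nul.mono' {A B : Set X} {n : ℕ} {c : Ch n X} (h : Nul A c) (hAB : A ⊆ B) : Nul B c := by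
  obtain ⟨b, e, he, hc⟩ := h
  exact ⟨b, e, In.mono' he hAB, hc⟩

theorem RC.smul' {A : Set X} {n : ℕ} {c : Ch (n + 1) X} (r : ZMod 2) (h : RC A c) :
    RC A (r • c) := by
  unfold RC; rw [map_smul]; exact In.smul' r h

open Classical in
/-- the local degree -/
def D {d : ℕ} (p : X) (w : Ch (d + 1) X) : ZMod 2 := if Nul {p}ᶜ w then 0 else 1

theorem D_eq_zero {d : ℕ} {p : X} {w : Ch (d + 1) X} : D p w = 0 ↔ Nul {p}ᶜ w := by
  unfold D; split_ifs with h <;> simp [h]

theorem D_add {d : ℕ} (hM : ManHyp d X) {p : X} {w w' : Ch (d + 1) X} (h : RC {p}ᶜ w)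
    (h' : RC {p}ᶜ w') : D p (w + w') = D p w + D p w' := by
  unfold D
  by_cases h1 : Nul {p}ᶜ w <;> by_cases h2 : Nul {p}ᶜ w'
  · rw [if_pos h1, if_pos h2, if_pos (Nul.add' h1 h2)]; rfl
  · rw [if_pos h1, if_neg h2, if_neg]
    · rfl
    · intro h3
      apply h2
      have := Nul.add' h1 h3
      rwa [← add_assoc, two_self, zero_add] at this
  · rw [if_neg h1, if_pos h2, if_neg]
    · rfl
    · intro h3
      apply h1
      have := Nul.add' h3 h2
      rwa [add_assoc, two_self, add_zero] at this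
  · rw [if_neg h1, if_neg h2, if_pos (hM.two p w w' h h' h1 h2)]; rfl

theorem D_of_in {d : ℕ} {p : X} {w : Ch (d + 1) X} (h : In {p}ᶜ w) : D p w = 0 :=
  D_eq_zero.2 (Nul.of_in h)

/-- adding a chain missing `p` does not change the degree -/
theorem D_congr {d : ℕ} {p : X} {w w' : Ch (d + 1) X} (h : In {p}ᶜ (w + w')) : D p w = D p w' := by
  have h1 : Nul {p}ᶜ w ↔ Nul {p}ᶜ w' := by
    constructor
    · intro h1
      have := Nul.add' h1 (Nul.of_in h)
      rwa [← add_assoc, two_self, zero_add] at this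
    · intro h1
      have := Nul.add' (Nul.of_in h) h1
      rwa [add_assoc, two_self, add_zero] at this
  unfold D
  by_cases h2 : Nul {p}ᶜ w
  · rw [if_pos h2, if_pos (h1.1 h2)]
  · rw [if_neg h2, if_neg (fun h3 => h2 (h1.2 h3))]

theorem D_loc {d : ℕ} (hM : ManHyp d X) {p : X} {w : Ch (d + 1) X} (h : RC {p}ᶜ w) :
    ∀ᶠ q in 𝓝 p, RC {q}ᶜ w ∧ D q w = D p w := by
  filter_upwards [hM.loc w p h] with q hq
  refine ⟨hq.1, ?_⟩
  unfold D
  by_cases h2 : Nul {p}ᶜ w
  · rw [if_pos h2, if_pos (hq.2.2 h2)]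
  · rw [if_neg h2, if_neg (fun h3 => h2 (hq.2.1 h3))]

/-! ### supports -/

/-- union of the ranges of the simplices -/
def carr {n : ℕ} (c : Ch n X) : Set X := ⋃ σ ∈ c.support, range (σ : C(Dl n, X))

theorem isCompact_range_sx {n : ℕ} (σ : C(Dl n, X)) : IsCompact (range σ) :=
  isCompact_range σ.continuous

theorem carr_compact {n : ℕ} (c : Ch n X) : IsCompact (carr c) :=
  c.support.isCompact_biUnion fun σ _ => isCompact_range_sx σ

theorem in_carr {n : ℕ} (c : Ch n X) : In (carr c) c := by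
  intro σ hσ
  exact subset_biUnion_of_mem (u := fun σ : C(Dl n, X) => range σ) hσ

theorem in_of_disjoint {n : ℕ} {c : Ch n X} {A : Set X} (h : Disjoint (carr c) A) : In Aᶜ c :=
  In.mono' (in_carr c) (disjoint_left.1 h)

theorem in_compl_iff {n : ℕ} {c : Ch n X} {p : X} : In {p}ᶜ c ↔ p ∉ carr c := by
  constructor
  · intro h hp
    obtain ⟨σ, hσ, hx⟩ := mem_iUnion₂.1 hp
    exact h σ hσ hx rfl
  · intro h
    exact In.mono' (in_carr c) fun x hx (hxp : x = p) => h (hxp ▸ hx)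

theorem eventually_in [T2Space X] {n : ℕ} {c : Ch n X} {p : X} (h : In {p}ᶜ c) :
    ∃ N : Set X, IsOpen N ∧ p ∈ N ∧ In Nᶜ c := by
  refine ⟨(carr c)ᶜ, (carr_compact c).isClosed.isOpen_compl, in_compl_iff.1 h, ?_⟩
  rw [compl_compl]; exact in_carr c

theorem nonempty_range_sx {n : ℕ} (σ : C(Dl n, X)) : (range σ).Nonempty := by
  have : Nonempty (Dl n) := inferInstance
  exact range_nonempty σ

/-- a chain lying in `A` and in the complement of `A` vanishes -/
theorem eq_zero_of_in {n : ℕ} {c : Ch n X} {A : Set X} (h : In A c) (h' : In Aᶜ c) : c = 0 := by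
  rw [← Finsupp.support_eq_empty, Finset.eq_empty_iff_forall_notMem]
  intro σ hσ
  obtain ⟨x, hx⟩ := nonempty_range_sx σ
  exact h' σ hσ hx (h σ hσ hx)

end Crest.Agent.R224.T.N2
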