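/-
R224 / S0346 : node D3 (helper792), part 2: cut calculus, labels, geometry.
-/
import Crest.Agent.R224.T.T2Base

set_option autoImplicit false
set_option maxHeartbeats 400000

noncomputable section

open Topology Set Filter

namespace Crest.Agent.R224.T.N2

section cutc
variable {X : Type} [TopologicalSpace X]

theorem cut_apply {n : ℕ} {m : C(Dl n, X) → ZMod 2} (hm : LF m) {K : Set X} (hK : IsCompact K)
    (σ : C(Dl n, X)) [Decidable (range σ ∩ K).Nonempty] :
    cut m K σ = if (range σ ∩ K).Nonempty then m σ else 0 := by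
  unfold cut
  rw [dif_pos (hm K hK)]
  simp only [Finsupp.onFinset_apply]
  congr

theorem mem_cut {n : ℕ} {m : C(Dl n, X) → ZMod 2} (hm : LF m) {K : Set X} (hK : IsCompact K)
    (σ : C(Dl n, X)) : σ ∈ (cut m K).support ↔ m σ ≠ 0 ∧ (range σ ∩ K).Nonempty := by
  classical
  rw [Finsupp.mem_support_iff, cut_apply hm hK]
  by_cases h : (range σ ∩ K).Nonempty
  · rw [if_pos h]; simp [h]
  · rw [if_neg h]; simp [h]

/-- a simplex of the difference of two cuts misses one of the two sets -/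
theorem cut_add_cut {n : ℕ} {m : C(Dl n, X) → ZMod 2} (hm : LF m) {K K' : Set X}
    (hK : IsCompact K) (hK' : IsCompact K') :
    Sup (fun σ => m σ ≠ 0 ∧ (range σ ⊆ Kᶜ ∨ range σ ⊆ K'ᶜ)) (cut m K + cut m K') := by
  classical
  intro σ hσ
  rw [Finsupp.mem_support_iff, Finsupp.add_apply, cut_apply hm hK, cut_apply hm hK'] at hσ
  by_cases h : (range σ ∩ K).Nonempty <;> by_cases h' : (range σ ∩ K').Nonempty
  · rw [if_pos h, if_pos h'] at hσ
    exact absurd (two_self (m σ)) hσ
  · rw [if_pos h, if_neg h', add_zero] at hσ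
    refine ⟨hσ, Or.inr ?_⟩
    intro x hx hxK
    exact h' ⟨x, hx, hxK⟩
  · rw [if_neg h, if_pos h', zero_add] at hσ
    refine ⟨hσ, Or.inl ?_⟩
    intro x hx hxK
    exact h ⟨x, hx, hxK⟩
  · rw [if_neg h, if_neg h', add_zero] at hσ
    exact absurd rfl hσ

end cutc

/-! ### labels -/

section lab
variable {G : Type} [Group G] {E : Type} [TopologicalSpace E] [MulAction G E]

open Classical in
/-- a label of a simplex -/
def lab (U : Set E) {n : ℕ} (σ : C(Dl n, E)) : G :=
  if h : ∃ g : G, range σ ⊆ tr g U then h.choose else 1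

theorem lab_spec {U : Set E} {n : ℕ} {σ : C(Dl n, E)} (h : ∃ g : G, range σ ⊆ tr g U) :
    range σ ⊆ tr (lab U σ : G) U := by
  unfold lab
  rw [dif_pos h]
  exact h.choose_spec

theorem mem_tr {U : Set E} {g : G} {p : E} : p ∈ tr g U ↔ g⁻¹ • p ∈ U := by
  constructor
  · rintro ⟨u, hu, rfl⟩
    simpa using hu
  · intro h
    exact ⟨g⁻¹ • p, h, by simp⟩

theorem adj_of_mem {S : Finset G} {U : Set E} (hG : Geo S U) {x y : G} {p : E}
    (hx : p ∈ tr x U) (hy : p ∈ tr y U) : Adj S x y := by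
  unfold Adj
  rw [hG.mem]
  obtain ⟨u, hu, rfl⟩ := hx
  obtain ⟨v, hv, hvu⟩ := hy
  refine ⟨v, hv, ?_⟩
  have hvu' : y • v = x • u := hvu
  rw [mul_smul, hvu', inv_smul_smul]
  exact hu

theorem exists_of_adj {S : Finset G} {U : Set E} (hG : Geo S U) {x y : G} (h : Adj S x y) :
    ∃ p : E, p ∈ tr x U ∧ p ∈ tr y U := by
  unfold Adj at h
  rw [hG.mem] at h
  obtain ⟨u, hu, h2⟩ := h
  refine ⟨y • u, ⟨(x⁻¹ * y) • u, h2, ?_⟩, ⟨u, hu, rfl⟩⟩
  show x • (x⁻¹ * y) • u = y • u
  rw [smul_smul, mul_inv_cancel_left]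

theorem tr_mono {U V : Set E} (h : U ⊆ V) (g : G) : tr g U ⊆ tr g V := image_mono h

theorem tr_compact {S : Finset G} {U : Set E} (hG : Geo S U) (g : G) :
    IsCompact (tr g (closure U)) := hG.cpt.image (hG.cont g)

theorem tr_open {S : Finset G} {U : Set E} (hG : Geo S U) (g : G) : IsOpen (tr g U) := by
  have : tr g U = (fun z => g⁻¹ • z) ⁻¹' U := by
    ext p; exact mem_tr
  rw [this]
  exact hG.isOpen.preimage (hG.cont g⁻¹)

theorem tr_preconn {S : Finset G} {U : Set E} (hG : Geo S U) (g : G) : IsPreconnected (tr g U) :=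
  hG.conn.isPreconnected.image _ (hG.cont g).continuousOn

end lab

end Crest.Agent.R224.T.N2
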