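/-
R224 / S0346 : node D3 (helper792), part 3: the chain `x_K`, local primitives.
-/
import Crest.Agent.R224.T.T2Cut

set_option autoImplicit false
set_option maxHeartbeats 400000
set_option linter.unusedSectionVars false

noncomputable section

open Topology Set Filter

namespace Crest.Agent.R224.T.N2

variable {G : Type} [Group G] {E : Type} [TopologicalSpace E] [MulAction G E]

/-- `Psi` : chains to faces, weights `ψ (lab σ) (lab d_i σ)` -/
def Psi (U : Set E) (ψ : G → G → ZMod 2) (n : ℕ) : Ch (n + 1) E →ₗ[ZMod 2] Ch n E :=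
  fac n fun σ i => ψ (lab U σ) (lab U (σ.comp (face n i)))

/-- `Phi` : chains to faces, weights `ψ (lab d_i σ) (lab σ)` -/
def Phi (U : Set E) (ψ : G → G → ZMod 2) (n : ℕ) : Ch (n + 1) E →ₗ[ZMod 2] Ch n E :=
  fac n fun σ i => ψ (lab U (σ.comp (face n i))) (lab U σ)

/-- multiplication by `ψ (a, lab σ)` -/
def Tm (U : Set E) (ψ : G → G → ZMod 2) (a : G) (n : ℕ) : Ch n E →ₗ[ZMod 2] Ch n E :=
  mul n fun σ => ψ a (lab U σ)

/-- bad triples -/
def Badt (S : Finset G) (ψ : G → G → ZMod 2) : Set (G × G × G) :=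
  {p : G × G × G | Adj S p.1 p.2.1 ∧ Adj S p.2.1 p.2.2 ∧ Adj S p.1 p.2.2 ∧
      ψ p.1 p.2.1 + ψ p.2.1 p.2.2 ≠ ψ p.1 p.2.2}

/-- first vertices of bad triples -/
def BadV (S : Finset G) (ψ : G → G → ZMod 2) : Set G := (fun p : G × G × G => p.1) '' Badt S ψ

theorem good {S : Finset G} {ψ : G → G → ZMod 2} {x y z : G} (hx : x ∉ BadV S ψ)
    (h1 : Adj S x y) (h2 : Adj S y z) (h3 : Adj S x z) : ψ x y + ψ y z = ψ x z := by
  by_contra h
  exact hx ⟨(x, y, z), ⟨h1, h2, h3, h⟩, rfl⟩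

/-- a labelled simplex -/
def Lb (G : Type) [Group G] {E : Type} [TopologicalSpace E] [MulAction G E] (U : Set E)
    {n : ℕ} (σ : C(Dl n, E)) : Prop := ∃ g : G, range σ ⊆ tr g U

theorem Lb.face {U : Set E} {n : ℕ} {σ : C(Dl (n + 1), E)} (h : Lb G U σ) (i : Fin (n + 2)) :
    Lb G U (σ.comp (face n i)) := by
  obtain ⟨g, hg⟩ := h
  exact ⟨g, (range_face σ i).trans hg⟩

/-- adjacency of labels of simplices with a common point -/
theorem adj_lab {S : Finset G} {U : Set E} (hG : Geo S U) {n m : ℕ} {σ : C(Dl n, E)}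
    {τ : C(Dl m, E)} (hσ : Lb G U σ) (hτ : Lb G U τ) {p : E} (h1 : p ∈ range σ)
    (h2 : p ∈ range τ) : Adj S (lab U σ : G) (lab U τ) :=
  adj_of_mem hG (lab_spec hσ h1) (lab_spec hτ h2)

/-- the defect vanishes on good simplices -/
theorem defect_single {S : Finset G} {U : Set E} (hG : Geo S U) (ψ : G → G → ZMod 2) {n : ℕ}
    {σ : C(Dl (n + 2), E)} (hσ : Lb G U σ) (hg : (lab U σ : G) ∉ BadV S ψ) :
    bd n (Psi U ψ (n + 1) (Finsupp.single σ 1)) + Phi U ψ n (bd (n + 1) (Finsupp.single σ 1)) = 0 := by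
  have key : Tm U ψ (lab U σ) n (bd n (bd (n + 1) (Finsupp.single σ 1))) = 0 := by
    rw [bd_bd, map_zero]
  rw [← key]
  unfold Psi Phi Tm
  rw [fac_single, bd_single, map_sum, map_sum, map_sum, map_sum, ← Finset.sum_add_distrib]
  refine Finset.sum_congr rfl fun i _ => ?_
  rw [map_smul, bd_single, fac_single, map_sum, Finset.smul_sum, ← Finset.sum_add_distrib]
  refine Finset.sum_congr rfl fun j _ => ?_
  rw [mul_single, ← add_smul]
  congr 1
  set τ := σ.comp (face (n + 1) i) with hτ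
  set ρ := τ.comp (face n j) with hρ
  obtain ⟨p, hp⟩ := nonempty_range_sx ρ
  have hpτ : p ∈ range τ := range_face τ j hp
  have hpσ : p ∈ range σ := range_face σ i hpτ
  have lτ : Lb G U τ := hσ.face i
  have lρ : Lb G U ρ := lτ.face j
  have h := good (ψ := ψ) hg (adj_lab hG hσ lρ hpσ hp) (adj_lab hG lρ lτ hp hpτ)
    (adj_lab hG hσ lτ hpσ hpτ)
  rw [← h, add_assoc, two_self, add_zero]

theorem defect_zero {S : Finset G} {U : Set E} (hG : Geo S U) (ψ : G → G → ZMod 2) {n : ℕ}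
    (c : Ch (n + 2) E) (hc : Sup (fun σ => Lb G U σ ∧ (lab U σ : G) ∉ BadV S ψ) c) :
    bd n (Psi U ψ (n + 1) c) + Phi U ψ n (bd (n + 1) c) = 0 := by
  have h : ∀ c : Ch (n + 2) E, bd n (Psi U ψ (n + 1) c) + Phi U ψ n (bd (n + 1) c) =
      lin (fun σ => bd n (Psi U ψ (n + 1) (Finsupp.single σ 1)) +
        Phi U ψ n (bd (n + 1) (Finsupp.single σ 1))) c := by
    intro c
    have := lin_ext_apply (f := (bd n ∘ₗ Psi U ψ (n + 1)) + (Phi U ψ n ∘ₗ bd (n + 1)))
      (g := lin (fun σ => bd n (Psi U ψ (n + 1) (Finsupp.single σ 1)) +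
        Phi U ψ n (bd (n + 1) (Finsupp.single σ 1)))) (fun σ => by
          rw [lin_single]; rfl) c
    exact this
  rw [h, lin_congr _ (fun _ => 0) c (fun σ hσ => defect_single hG ψ (hc σ hσ).1 (hc σ hσ).2)]
  rw [lin_eq_sum]; simp

theorem Psi_in {U : Set E} (ψ : G → G → ZMod 2) {n : ℕ} {c : Ch (n + 1) E} {A : Set E}
    (h : In A c) : In A (Psi U ψ n c) :=
  Sup.fac fun σ hσ i _ => (range_face σ i).trans (h σ hσ)

theorem Phi_in {U : Set E} (ψ : G → G → ZMod 2) {n : ℕ} {c : Ch (n + 1) E} {A : Set E}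
    (h : In A c) : In A (Phi U ψ n c) :=
  Sup.fac fun σ hσ i _ => (range_face σ i).trans (h σ hσ)

theorem Tm_in {U : Set E} (ψ : G → G → ZMod 2) (a : G) {n : ℕ} {c : Ch n E} {A : Set E}
    (h : In A c) : In A (Tm U ψ a n c) :=
  Sup.mul fun σ hσ _ => h σ hσ

/-- all the data of the node -/
structure Dat (k : ℕ) (S : Finset G) (U : Set E) (μ : C(Dl (k + 3), E) → ZMod 2)
    (ψ : G → G → ZMod 2) : Prop where
  geo : Geo S U
  man : ManHyp (k + 2) E
  fund : IsFund μ
  sm : ∀ σ, μ σ ≠ 0 → ∃ g : G, range σ ⊆ tr g U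
  fin : (Badt S ψ).Finite

namespace Dat

variable {k : ℕ} {S : Finset G} {U : Set E} {μ : C(Dl (k + 3), E) → ZMod 2} {ψ : G → G → ZMod 2}

/-- compact set containing all bad translates -/
def K0 (S : Finset G) (U : Set E) (ψ : G → G → ZMod 2) : Set E := ⋃ g ∈ BadV S ψ, tr g (closure U)

theorem finV (h : Dat k S U μ ψ) : (BadV S ψ).Finite := h.fin.image _

theorem K0_compact (h : Dat k S U μ ψ) : IsCompact (K0 S U ψ) :=
  h.finV.isCompact_biUnion fun g _ => tr_compact h.geo g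

theorem lf (h : Dat k S U μ ψ) : LF μ := h.fund.lf

theorem not_bad (h : Dat k S U μ ψ) {σ : C(Dl (k + 3), E)} (hσ : μ σ ≠ 0)
    (hr : range σ ⊆ (K0 S U ψ)ᶜ) : Lb G U σ ∧ (lab U σ : G) ∉ BadV S ψ := by
  refine ⟨h.sm σ hσ, fun hb => ?_⟩
  obtain ⟨p, hp⟩ := nonempty_range_sx σ
  refine hr hp (mem_iUnion₂.2 ⟨lab U σ, hb, ?_⟩)
  exact tr_mono subset_closure _ (lab_spec (h.sm σ hσ) hp)

/-- the finite cycle `z` -/
def zz (S : Finset G) (U : Set E) (μ : C(Dl (k + 3), E) → ZMod 2) (ψ : G → G → ZMod 2) :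
    Ch (k + 1) E :=
  bd (k + 1) (Psi U ψ (k + 2) (cut μ (K0 S U ψ))) +
    Phi U ψ (k + 1) (bd (k + 2) (cut μ (K0 S U ψ)))

theorem zz_eq (h : Dat k S U μ ψ) {K : Set E} (hK : IsCompact K) (hKK : K0 S U ψ ⊆ K) :
    bd (k + 1) (Psi U ψ (k + 2) (cut μ K)) + Phi U ψ (k + 1) (bd (k + 2) (cut μ K)) =
      zz S U μ ψ := by
  have h1 := defect_zero h.geo ψ (n := k + 1) (cut μ K + cut μ (K0 S U ψ)) (by
    refine (cut_add_cut h.lf hK h.K0_compact).mono fun σ hσ => h.not_bad hσ.1 ?_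
    rcases hσ.2 with h2 | h2
    · exact h2.trans (compl_subset_compl.2 hKK)
    · exact h2)
  simp only [map_add] at h1
  unfold zz
  have h2 : ∀ a b c d : Ch (k + 1) E, a + b + (c + d) = 0 → a + c = b + d := by
    intro a b c d h
    have : a + c = b + d + (a + b + (c + d)) := by
      have e : b + d + (a + b + (c + d)) = (b + b) + (d + d) + (a + c) := by abel
      rw [e, two_self, two_self, zero_add, zero_add]
    rw [this, h, add_zero]
  exact h2 _ _ _ _ h1

theorem zz_cycle (h : Dat k S U μ ψ) : bd k (zz S U μ ψ) = 0 := by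
  set K : Set E := K0 S U ψ ∪ carr (zz S U μ ψ) with hKdef
  have hK : IsCompact K := h.K0_compact.union (carr_compact _)
  have h1 := h.zz_eq hK subset_union_left
  have h2 : bd k (zz S U μ ψ) = bd k (Phi U ψ (k + 1) (bd (k + 2) (cut μ K))) := by
    rw [← h1, map_add, bd_bd, zero_add]
  have h3 : In Kᶜ (bd k (zz S U μ ψ)) := by
    rw [h2]
    exact In.bd' (Phi_in ψ (h.fund.cyc K hK))
  have h4 : In K (bd k (zz S U μ ψ)) := In.bd' (In.mono' (in_carr _) subset_union_right)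
  exact eq_zero_of_in h4 h3

theorem exists_b (h : Dat k S U μ ψ) : ∃ b : Ch (k + 2) E, bd (k + 1) b = zz S U μ ψ :=
  h.man.fill k _ h.zz_cycle

/-- the finite part of the locally finite cycle -/
def xx (U : Set E) (μ : C(Dl (k + 3), E) → ZMod 2) (ψ : G → G → ZMod 2) (b : Ch (k + 2) E)
    (K : Set E) : Ch (k + 2) E := Psi U ψ (k + 2) (cut μ K) + b

theorem xx_rc (h : Dat k S U μ ψ) {b : Ch (k + 2) E} (hb : bd (k + 1) b = zz S U μ ψ) {K : Set E}
    (hK : IsCompact K) (hKK : K0 S U ψ ⊆ K) : RC Kᶜ (xx U μ ψ b K) := by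
  unfold RC xx
  rw [map_add, hb, ← h.zz_eq hK hKK, ← add_assoc, two_self, zero_add]
  exact Phi_in ψ (h.fund.cyc K hK)

/-- `w` is a primitive of the cycle on `N` -/
structure Prim (S : Finset G) (U : Set E) (μ : C(Dl (k + 3), E) → ZMod 2) (ψ : G → G → ZMod 2)
    (b : Ch (k + 2) E) (N : Set E) (w : Ch (k + 3) E) : Prop where
  cpt : ∃ C : Set E, IsCompact C ∧ N ⊆ C
  prim : ∀ K : Set E, IsCompact K → K0 S U ψ ⊆ K → N ⊆ K → In Nᶜ (xx U μ ψ b K + bd (k + 2) w)

/-- difference of two `xx` -/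
theorem xx_diff (h : Dat k S U μ ψ) (b : Ch (k + 2) E) {K K' N : Set E} (hK : IsCompact K)
    (hK' : IsCompact K') (hN : N ⊆ K) (hN' : N ⊆ K') :
    In Nᶜ (xx U μ ψ b K + xx U μ ψ b K') := by
  have e : xx U μ ψ b K + xx U μ ψ b K' = Psi U ψ (k + 2) (cut μ K + cut μ K') := by
    unfold xx
    rw [map_add]
    have : ∀ a c : Ch (k + 2) E, a + b + (c + b) = a + c := by
      intro a c
      have : a + b + (c + b) = (b + b) + (a + c) := by abel
      rw [this, two_self, zero_add]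
    exact this _ _
  rw [e]
  refine Psi_in ψ ?_
  intro σ hσ
  rcases (cut_add_cut h.lf hK hK' σ hσ).2 with h2 | h2
  · exact h2.trans (compl_subset_compl.2 hN)
  · exact h2.trans (compl_subset_compl.2 hN')

/-- local primitives exist -/
theorem exists_prim [T2Space E] [LocallyCompactSpace E] (h : Dat k S U μ ψ) {b : Ch (k + 2) E}
    (hb : bd (k + 1) b = zz S U μ ψ) (p : E) :
    ∃ (N : Set E) (w : Ch (k + 3) E), IsOpen N ∧ p ∈ N ∧ Prim S U μ ψ b N w := by
  obtain ⟨C, hC, hCp⟩ := exists_compact_mem_nhds p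
  set K : Set E := K0 S U ψ ∪ C with hKdef
  have hK : IsCompact K := h.K0_compact.union hC
  have h1 := h.xx_rc hb hK subset_union_left
  have hpK : p ∈ K := Or.inr (mem_of_mem_nhds hCp)
  have h2 : RC {p}ᶜ (xx U μ ψ b K) :=
    RC.mono' h1 (by rintro x hx rfl; exact hx hpK)
  obtain ⟨w, e, he, hxe⟩ := h.man.low (k + 1) (by omega) p _ h2
  obtain ⟨N1, hN1, hpN1, heN1⟩ := eventually_in he
  refine ⟨interior C ∩ N1, w, isOpen_interior.inter hN1,
    ⟨mem_interior_iff_mem_nhds.2 hCp, hpN1⟩, ⟨⟨C, hC, inter_subset_left.trans interior_subset⟩, ?_⟩⟩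
  intro K' hK' hKK' hN
  have h3 : xx U μ ψ b K + bd (k + 2) w = e := by
    rw [hxe, add_comm (bd (k + 2) w) e, add_assoc, two_self, add_zero]
  have h4 : xx U μ ψ b K' + bd (k + 2) w =
      (xx U μ ψ b K' + xx U μ ψ b K) + (xx U μ ψ b K + bd (k + 2) w) := by
    have : (xx U μ ψ b K' + xx U μ ψ b K) + (xx U μ ψ b K + bd (k + 2) w) =
      (xx U μ ψ b K + xx U μ ψ b K) + (xx U μ ψ b K' + bd (k + 2) w) := by abel
    rw [this, two_self, zero_add]
  rw [h4, h3]
  refine In.add' (h.xx_diff b hK' hK hN ?_) (In.mono' heN1 ?_)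
  · exact (inter_subset_left.trans interior_subset).trans subset_union_right
  · exact compl_subset_compl.2 inter_subset_right

theorem Prim.rc (h : Dat k S U μ ψ) {b : Ch (k + 2) E} {N N' : Set E} {w w' : Ch (k + 3) E}
    (hN : Prim S U μ ψ b N w) (hN' : Prim S U μ ψ b N' w') {q : E} (hq : q ∈ N) (hq' : q ∈ N') :
    RC {q}ᶜ (w + w') := by
  obtain ⟨C, hC, hNC⟩ := hN.cpt
  obtain ⟨C', hC', hNC'⟩ := hN'.cpt
  set K : Set E := K0 S U ψ ∪ (C ∪ C') with hKdef
  have hK : IsCompact K := h.K0_compact.union (hC.union hC')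
  have h1 := hN.prim K hK subset_union_left
    (hNC.trans (subset_union_left.trans subset_union_right))
  have h2 := hN'.prim K hK subset_union_left
    (hNC'.trans (subset_union_right.trans subset_union_right))
  unfold RC
  have e : bd (k + 2) (w + w') =
      (xx U μ ψ b K + bd (k + 2) w) + (xx U μ ψ b K + bd (k + 2) w') := by
    rw [map_add]
    have : (xx U μ ψ b K + bd (k + 2) w) + (xx U μ ψ b K + bd (k + 2) w') =
      (xx U μ ψ b K + xx U μ ψ b K) + (bd (k + 2) w + bd (k + 2) w') := by abel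
    rw [this, two_self, zero_add]
  rw [e]
  refine In.add' (In.mono' h1 ?_) (In.mono' h2 ?_)
  · rintro x hx rfl; exact hx hq
  · rintro x hx rfl; exact hx hq'

/-- the explicit primitive near `tr a U` for a good `a` -/
def wa (U : Set E) (μ : C(Dl (k + 3), E) → ZMod 2) (ψ : G → G → ZMod 2) (a : G) : Ch (k + 3) E :=
  Tm U ψ a (k + 3) (cut μ (tr a (closure U)))

theorem wa_prim (h : Dat k S U μ ψ) {b : Ch (k + 2) E} {a : G} (ha : a ∉ BadV S ψ)
    (hab : In (tr a U)ᶜ b) : Prim S U μ ψ b (tr a U) (wa U μ ψ a) := by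
  refine ⟨⟨tr a (closure U), tr_compact h.geo a, tr_mono subset_closure a⟩, ?_⟩
  intro K hK hKK hN
  set Ka := tr a (closure U) with hKa
  have hKac : IsCompact Ka := tr_compact h.geo a
  set m := cut μ Ka with hm
  -- compare with the cut at `Ka`
  have h1 : In (tr a U)ᶜ (xx U μ ψ b K + xx U μ ψ b Ka) :=
    h.xx_diff b hK hKac hN (tr_mono subset_closure a)
  -- weights
  have h2 : In (tr a U)ᶜ (Psi U ψ (k + 2) m + bd (k + 2) (Tm U ψ a (k + 3) m) +
      Tm U ψ a (k + 2) (bd (k + 2) m)) := by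
    have e : ∀ c : Ch (k + 3) E, Psi U ψ (k + 2) c + bd (k + 2) (Tm U ψ a (k + 3) c) +
        Tm U ψ a (k + 2) (bd (k + 2) c) = fac (k + 2) (fun σ i =>
          ψ (lab U σ) (lab U (σ.comp (face (k + 2) i))) + ψ a (lab U σ) +
            ψ a (lab U (σ.comp (face (k + 2) i)))) c := by
      intro c
      have := lin_ext_apply (f := Psi U ψ (k + 2) + (bd (k + 2) ∘ₗ Tm U ψ a (k + 3)) +
        (Tm U ψ a (k + 2) ∘ₗ bd (k + 2))) (g := fac (k + 2) (fun σ i =>
          ψ (lab U σ) (lab U (σ.comp (face (k + 2) i))) + ψ a (lab U σ) +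
            ψ a (lab U (σ.comp (face (k + 2) i))))) (fun σ => by
          simp only [LinearMap.add_apply, LinearMap.comp_apply]
          unfold Psi Tm
          rw [fac_single, fac_single, mul_single, map_smul, bd_single, map_sum, Finset.smul_sum,
            ← Finset.sum_add_distrib, ← Finset.sum_add_distrib]
          refine Finset.sum_congr rfl fun i _ => ?_
          rw [mul_single, add_smul, add_smul]) c
      exact this
    rw [e]
    refine Sup.fac fun σ hσ i hne => ?_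
    rintro p hp hpa
    apply hne
    have hμ := ((mem_cut h.lf hKac σ).1 hσ).1
    have lσ : Lb G U σ := h.sm σ hμ
    have lτ : Lb G U (σ.comp (face (k + 2) i)) := lσ.face i
    have hpσ : p ∈ range σ := range_face σ i hp
    have g := good (ψ := ψ) ha (adj_of_mem h.geo hpa (lab_spec lσ hpσ))
      (adj_lab h.geo lσ lτ hpσ hp) (adj_of_mem h.geo hpa (lab_spec lτ hp))
    rw [← g]
    have : ∀ u v : ZMod 2, u + v + (v + u) = 0 := by decide
    exact this _ _
  have h3 : In (tr a U)ᶜ (Tm U ψ a (k + 2) (bd (k + 2) m)) := by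
    refine Tm_in ψ a (In.mono' (h.fund.cyc Ka hKac) ?_)
    exact compl_subset_compl.2 (tr_mono subset_closure a)
  have e : xx U μ ψ b K + bd (k + 2) (wa U μ ψ a) = (xx U μ ψ b K + xx U μ ψ b Ka) +
      (Psi U ψ (k + 2) m + bd (k + 2) (Tm U ψ a (k + 3) m) + Tm U ψ a (k + 2) (bd (k + 2) m)) +
      Tm U ψ a (k + 2) (bd (k + 2) m) + b := by
    have hx : xx U μ ψ b Ka = Psi U ψ (k + 2) m + b := rfl
    have hw : wa U μ ψ a = Tm U ψ a (k + 3) m := rfl
    rw [hx, hw]
    generalize Tm U ψ a (k + 2) (bd (k + 2) m) = t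
    generalize bd (k + 2) (Tm U ψ a (k + 3) m) = s
    generalize Psi U ψ (k + 2) m = r
    generalize xx U μ ψ b K = x
    have : x + (r + b) + (r + s + t) + t + b = (r + r) + (t + t) + (b + b) + (x + s) := by abel
    rw [this, two_self r, two_self t, two_self b]
    simp only [zero_add]
  rw [e]
  exact In.add' (In.add' (In.add' h1 h2) h3) hab

/-- the degree of the sum of two explicit primitives -/
theorem wa_add (h : Dat k S U μ ψ) {a a' : G} (ha : a ∉ BadV S ψ) {p : E}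
    (hp : p ∈ tr a U) (hp' : p ∈ tr a' U) : D p (wa U μ ψ a + wa U μ ψ a') = ψ a a' := by
  have hsc : IsCompact ({p} : Set E) := isCompact_singleton
  -- replace the cuts by the cut at `p`
  have h1 : ∀ c : G, p ∈ tr c U →
      In {p}ᶜ (wa U μ ψ c + Tm U ψ c (k + 3) (cut μ {p})) := by
    intro c hc
    unfold wa
    rw [← map_add]
    refine Tm_in ψ c ?_
    intro σ hσ
    rcases (cut_add_cut h.lf (tr_compact h.geo c) hsc σ hσ).2 with h2 | h2
    · intro x hx hxp
      have hxp' : x = p := hxp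
      exact h2 hx (hxp' ▸ tr_mono subset_closure c hc)
    · exact h2
  have h2 : Tm U ψ a (k + 3) (cut μ {p}) + Tm U ψ a' (k + 3) (cut μ {p}) =
      ψ a a' • cut μ {p} := by
    have e : ∀ c : Ch (k + 3) E, Tm U ψ a (k + 3) c + Tm U ψ a' (k + 3) c =
        lin (fun σ => (ψ a (lab U σ) + ψ a' (lab U σ)) • Finsupp.single σ (1 : ZMod 2)) c := by
      intro c
      unfold Tm mul
      rw [lin_add]
      congr 2
      funext σ
      rw [add_smul]
    have e2 : ∀ c : Ch (k + 3) E, ψ a a' • c =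
        lin (fun σ => ψ a a' • Finsupp.single σ (1 : ZMod 2)) c := by
      intro c
      have := lin_ext_apply (f := ψ a a' • LinearMap.id)
        (g := lin (fun σ : C(Dl (k + 3), E) => ψ a a' • Finsupp.single σ (1 : ZMod 2)))
        (fun σ => by rw [lin_single]; rfl) c
      exact this
    rw [e, e2]
    refine lin_congr _ _ _ fun σ hσ => ?_
    obtain ⟨hμ, x, hx, hxp⟩ := (mem_cut h.lf hsc σ).1 hσ
    have hxp' : x = p := hxp
    rw [hxp'] at hx
    have lσ : Lb G U σ := h.sm σ hμ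
    have g := good (ψ := ψ) ha (adj_of_mem h.geo hp hp')
      (adj_of_mem h.geo hp' (lab_spec lσ hx)) (adj_of_mem h.geo hp (lab_spec lσ hx))
    congr 1
    rw [← g, add_assoc, two_self, add_zero]
  have h3 : D p (wa U μ ψ a + wa U μ ψ a') = D p (ψ a a' • cut μ {p}) := by
    apply D_congr
    rw [← h2]
    have : wa U μ ψ a + wa U μ ψ a' + (Tm U ψ a (k + 3) (cut μ {p}) +
        Tm U ψ a' (k + 3) (cut μ {p})) = (wa U μ ψ a + Tm U ψ a (k + 3) (cut μ {p})) +
        (wa U μ ψ a' + Tm U ψ a' (k + 3) (cut μ {p})) := by abel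
    rw [this]
    exact In.add' (h1 a hp) (h1 a' hp')
  rw [h3]
  have h4 : ∀ r : ZMod 2, r = 0 ∨ r = 1 := by decide
  rcases h4 (ψ a a') with h5 | h5
  · rw [h5, zero_smul, D_eq_zero]
    exact Nul.of_in (In.zero' _)
  · rw [h5, one_smul]
    unfold D
    rw [if_neg (h.fund.deg p)]

end Dat

end Crest.Agent.R224.T.N2
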