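/-
R224 / S0346 : node D3 (helper792), part 4: labels, gluing and the final statement.
-/
import Crest.Agent.R224.T.T2Main

set_option autoImplicit false
set_option maxHeartbeats 400000
set_option linter.unusedSectionVars false

noncomputable section

open Topology Set Filter

namespace Crest.Agent.R224.T.N2

variable {G : Type} [Group G] {E : Type} [TopologicalSpace E] [MulAction G E]

/-- labels with finitely many values near every point -/
theorem exists_labels [T2Space E] [LocallyCompactSpace E] {S : Finset G} {U : Set E}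
    (hG : Geo S U) (N : E → Set E) (hN : ∀ j, IsOpen (N j) ∧ j ∈ N j) :
    ∃ lam : E → E, ∀ p0 : E, ∃ (F : Finset E) (O : Set E), O ∈ 𝓝 p0 ∧ p0 ∈ O ∧
      (∀ p ∈ O, lam p ∈ F) ∧ ∀ j ∈ F, O ⊆ N j := by
  classical
  -- compact neighbourhoods
  have h1 : ∀ j : E, ∃ C : Set E, IsCompact C ∧ C ∈ 𝓝 j ∧ C ⊆ N j := by
    intro j
    obtain ⟨C, hC1, hC2, hC3⟩ := local_compact_nhds ((hN j).1.mem_nhds (hN j).2)
    exact ⟨C, hC3, hC1, hC2⟩
  choose C hCc hCn hCN using h1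
  -- finite subcovers
  have h2 : ∀ a : G, ∃ I : Finset E, tr a (closure U) ⊆ ⋃ j ∈ I, C j := by
    intro a
    obtain ⟨I, hI⟩ := (tr_compact hG a).elim_nhds_subcover' (fun j _ => C j)
      (fun j _ => hCn j)
    refine ⟨I.image Subtype.val, ?_⟩
    intro x hx
    obtain ⟨j, hj, hxj⟩ := mem_iUnion₂.1 (hI hx)
    exact mem_iUnion₂.2 ⟨j, Finset.mem_image_of_mem _ hj, hxj⟩
  choose I hI using h2
  have h3 : ∀ p : E, ∃ (a : G) (j : E), p ∈ tr a U ∧ j ∈ I a ∧ p ∈ C j := by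
    intro p
    obtain ⟨a, u, hu, rfl⟩ := hG.cover p
    have hp : a • u ∈ tr a U := ⟨u, hu, rfl⟩
    obtain ⟨j, hj, hxj⟩ := mem_iUnion₂.1 (hI a (tr_mono subset_closure a hp))
    exact ⟨a, j, hp, hj, hxj⟩
  choose ga lam hga hlam hC using h3
  refine ⟨lam, fun p0 => ?_⟩
  obtain ⟨K, hK, hKp⟩ := exists_compact_mem_nhds p0
  have hfin := hG.proper K hK
  set F1 : Finset E := hfin.toFinset.biUnion I with hF1
  set F : Finset E := F1.filter fun j => p0 ∈ C j with hF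
  set O : Set E := K ∩ (⋂ j ∈ F, N j) ∩ ⋂ j ∈ F1.filter (fun j => p0 ∉ C j), (C j)ᶜ with hO
  have hOn : O ∈ 𝓝 p0 := by
    refine inter_mem (inter_mem hKp ?_) ?_
    · refine (Filter.biInter_finset_mem F).2 fun j hj => ?_
      exact (hN j).1.mem_nhds (hCN j (Finset.mem_filter.1 hj).2)
    · refine (Filter.biInter_finset_mem _).2 fun j hj => ?_
      exact (hCc j).isClosed.isOpen_compl.mem_nhds (Finset.mem_filter.1 hj).2
  refine ⟨F, O, hOn, mem_of_mem_nhds hOn, ?_, ?_⟩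
  · intro p hp
    have ha : ga p ∈ hfin.toFinset := by
      rw [Set.Finite.mem_toFinset]
      obtain ⟨u, hu, hup⟩ := hga p
      refine ⟨u, hu, ?_⟩
      have : ga p • u = p := hup
      rw [this]; exact hp.1.1
    have h4 : lam p ∈ F1 := Finset.mem_biUnion.2 ⟨ga p, ha, hlam p⟩
    refine Finset.mem_filter.2 ⟨h4, ?_⟩
    by_contra h5
    exact mem_iInter₂.1 hp.2 (lam p) (Finset.mem_filter.2 ⟨h4, h5⟩) (hC p)
  · intro j hj x hx
    exact mem_iInter₂.1 hx.1.2 j hj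

theorem D_tri {X : Type} [TopologicalSpace X] {d : ℕ} (hM : ManHyp d X) {p : X}
    {u v t : Ch (d + 1) X} (h1 : RC {p}ᶜ (u + t)) (h2 : RC {p}ᶜ (v + t)) :
    D p (u + t) + D p (v + t) = D p (u + v) := by
  rw [← D_add hM h1 h2]
  congr 1
  have : u + t + (v + t) = (t + t) + (u + v) := by abel
  rw [this, two_self, zero_add]

/-- the node D3 with a locally connected space -/
def NT2' : Prop := ∀ (d : ℕ) (G : Type) [Group G] (E : Type) [TopologicalSpace E] [T2Space E]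
  [ContractibleSpace E] [LocallyCompactSpace E] [LocallyConnectedSpace E] [MulAction G E]
  (S : Finset G) (U : Set E),
  2 ≤ d → Geo S U → ManHyp d E →
  (∃ μ : C(Dl (d + 1), E) → ZMod 2, IsFund μ ∧ ∀ σ, μ σ ≠ 0 → ∃ g : G, range σ ⊆ tr g U) →
  ∀ ψ : G → G → ZMod 2,
    {p : G × G × G | Adj S p.1 p.2.1 ∧ Adj S p.2.1 p.2.2 ∧ Adj S p.1 p.2.2 ∧
      ψ p.1 p.2.1 + ψ p.2.1 p.2.2 ≠ ψ p.1 p.2.2}.Finite →
    ∃ f : G → ZMod 2, {p : G × G | Adj S p.1 p.2 ∧ ψ p.1 p.2 ≠ f p.1 + f p.2}.Finite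

theorem nT2' (hGlue : NGlue) : NT2' := by
  classical
  intro d G _ E _ _ _ _ _ _ S U hd hG hM hμ ψ hψ
  obtain ⟨k, rfl⟩ : ∃ k, d = k + 2 := ⟨d - 2, by omega⟩
  obtain ⟨μ, hfund, hsm⟩ := hμ
  have h : Dat k S U μ ψ := ⟨hG, hM, hfund, hsm, hψ⟩
  obtain ⟨b, hb⟩ := h.exists_b
  choose N w hNo hpN hprim using fun p : E => h.exists_prim hb p
  obtain ⟨lam, hlam⟩ := exists_labels hG N (fun j => ⟨hNo j, hpN j⟩)
  -- the cover
  set W : Set (Set E) := {V | (IsOpen V ∧ IsPreconnected V) ∧ ∃ F : Finset E,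
    (∀ p ∈ V, lam p ∈ F) ∧ (∀ j ∈ F, V ⊆ N j) ∧
    ∀ i ∈ F, ∀ j ∈ F, ∀ q ∈ V, ∀ q' ∈ V, D q (w i + w j) = D q' (w i + w j)} with hW
  have hWcov : ∀ p0 : E, ∃ V ∈ W, p0 ∈ V := by
    intro p0
    obtain ⟨F, O, hO, hpO, hF1, hF2⟩ := hlam p0
    have h1 : ∀ᶠ q in 𝓝 p0, ∀ i ∈ F, ∀ j ∈ F, D q (w i + w j) = D p0 (w i + w j) := by
      rw [Finset.eventually_all]
      intro i hi
      rw [Finset.eventually_all]
      intro j hj
      have hrc := (hprim i).rc h (hprim j) (hF2 i hi hpO) (hF2 j hj hpO)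
      filter_upwards [D_loc hM hrc] with q hq
      exact hq.2
    have h2 : {q | ∀ i ∈ F, ∀ j ∈ F, D q (w i + w j) = D p0 (w i + w j)} ∩ O ∈ 𝓝 p0 :=
      inter_mem h1 hO
    obtain ⟨V, hV, hVo, hpV, hVc⟩ := locallyConnectedSpace_iff_subsets_isOpen_isConnected.1
      inferInstance p0 _ h2
    refine ⟨V, ⟨⟨hVo, hVc.isPreconnected⟩, F, fun p hp => hF1 p (hV hp).2,
      fun j hj => (hV.trans inter_subset_right).trans (hF2 j hj), ?_⟩, hpV⟩
    intro i hi j hj q hq q' hq'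
    rw [(hV hq).1 i hi j hj, (hV hq').1 i hi j hj]
  -- gluing
  set e : E → E → ZMod 2 := fun p q => D p (w (lam p) + w (lam q)) with he
  obtain ⟨f, hf⟩ := hGlue E W (fun V hV => hV.1)
    (eq_univ_of_forall fun p => by
      obtain ⟨V, hV, hp⟩ := hWcov p
      exact ⟨V, hV, hp⟩) e (by
    rintro V ⟨_, F, hF1, hF2, hF3⟩ p hp q hq r hr
    simp only [he]
    have hi := hF1 p hp
    have hj := hF1 q hq
    have hl := hF1 r hr
    rw [hF3 _ hj _ hl q hq p hp, add_comm (w (lam q)) (w (lam r))]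
    exact D_tri hM ((hprim _).rc h (hprim _) (hF2 _ hi hp) (hF2 _ hj hp))
      ((hprim _).rc h (hprim _) (hF2 _ hl hp) (hF2 _ hj hp)))
  have hfe : ∀ V ∈ W, ∀ p ∈ V, ∀ q ∈ V, D p (w (lam p) + w (lam q)) = f p + f q := hf
  -- the function on the group
  set bad : Set G := BadV S ψ ∪ {a | ¬ In (tr a U)ᶜ b} with hbad
  have hbadfin : bad.Finite := by
    refine h.finV.union ?_
    refine (hG.proper (carr b) (carr_compact b)).subset ?_
    intro a ha
    by_contra hcon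
    apply ha
    refine in_of_disjoint ?_
    rw [Set.disjoint_left]
    rintro x hx ⟨u, hu, rfl⟩
    exact hcon ⟨u, hu, hx⟩
  obtain ⟨u0, hu0⟩ := hG.conn.nonempty
  set ev : G → E → ZMod 2 := fun a p => f p + D p (w (lam p) + Dat.wa U μ ψ a) with hev
  -- constancy
  have hconst : ∀ a, a ∉ bad → ∀ p ∈ tr a U, ∀ q ∈ tr a U, ev a p = ev a q := by
    intro a ha p hp q hq
    have ha1 : a ∉ BadV S ψ := fun h' => ha (Or.inl h')
    have ha2 : In (tr a U)ᶜ b := by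
      by_contra h'
      exact ha (Or.inr h')
    have hpa := h.wa_prim ha1 ha2
    -- local constancy
    have hloc : ∀ p0 ∈ tr a U, ∀ᶠ q in 𝓝 p0, ev a q = ev a p0 := by
      intro p0 hp0
      obtain ⟨V, ⟨⟨hVo, _⟩, F, hF1, hF2, hF3⟩, hpV⟩ := hWcov p0
      have hVW : V ∈ W := ⟨⟨hVo, by assumption⟩, F, hF1, hF2, hF3⟩
      have h1 : ∀ᶠ q in 𝓝 p0, ∀ j ∈ F, D q (w j + Dat.wa U μ ψ a) = D p0 (w j + Dat.wa U μ ψ a) := by
        rw [Finset.eventually_all]
        intro j hj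
        have hrc := (hprim j).rc h hpa (hF2 j hj hpV) hp0
        filter_upwards [D_loc hM hrc] with q hq
        exact hq.2
      filter_upwards [h1, hVo.mem_nhds hpV] with q hq hqV
      simp only [hev]
      rw [hq _ (hF1 q hqV)]
      have h2 := hfe V hVW p0 hpV q hqV
      have h3 := D_tri hM ((hprim (lam p0)).rc h hpa (hF2 _ (hF1 p0 hpV) hpV) hp0)
        ((hprim (lam q)).rc h hpa (hF2 _ (hF1 q hqV) hpV) hp0)
      rw [← h3] at h2
      have key : ∀ x y s t : ZMod 2, s + t = x + y → y + t = x + s := by decide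
      exact key _ _ _ _ h2
    -- connectedness
    have hpre := tr_preconn hG a
    by_contra hne
    have hne' : ev a q ≠ ev a p := fun h' => hne h'.symm
    have hA : IsOpen {x | x ∈ tr a U ∧ ev a x = ev a p} := by
      rw [isOpen_iff_mem_nhds]
      rintro x ⟨hx, hxe⟩
      filter_upwards [hloc x hx, (tr_open hG a).mem_nhds hx] with y hy hya
      exact ⟨hya, hy.trans hxe⟩
    have hB : IsOpen {x | x ∈ tr a U ∧ ev a x ≠ ev a p} := by
      rw [isOpen_iff_mem_nhds]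
      rintro x ⟨hx, hxe⟩
      filter_upwards [hloc x hx, (tr_open hG a).mem_nhds hx] with y hy hya
      exact ⟨hya, by rw [hy]; exact hxe⟩
    obtain ⟨x, _, hx1, hx2⟩ := hpre _ _ hA hB
      (fun x hx => by
        by_cases h' : ev a x = ev a p
        · exact Or.inl ⟨hx, h'⟩
        · exact Or.inr ⟨hx, h'⟩) ⟨p, hp, hp, rfl⟩ ⟨q, hq, hq, hne'⟩
    exact hx2.2 hx1.2
  refine ⟨fun a => ev a (a • u0), ?_⟩
  -- bad pairs
  have hpairs : {p : G × G | Adj S p.1 p.2 ∧ (p.1 ∈ bad ∨ p.2 ∈ bad)}.Finite := by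
    refine (Finset.finite_toSet ((hbadfin.toFinset ×ˢ S).image
      (fun q : G × G => (q.1, q.1 * q.2)) ∪
      (hbadfin.toFinset ×ˢ S).image (fun q : G × G => (q.1 * q.2⁻¹, q.1)))).subset ?_
    rintro ⟨x, y⟩ ⟨hxy, hx | hy⟩
    · simp only [Finset.coe_union, Set.mem_union, Finset.mem_coe, Finset.mem_image,
        Finset.mem_product, Set.Finite.mem_toFinset]
      left
      exact ⟨(x, x⁻¹ * y), ⟨hx, hxy⟩, by simp⟩
    · simp only [Finset.coe_union, Set.mem_union, Finset.mem_coe, Finset.mem_image,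
        Finset.mem_product, Set.Finite.mem_toFinset]
      right
      exact ⟨(y, x⁻¹ * y), ⟨hy, hxy⟩, by simp⟩
  refine hpairs.subset ?_
  rintro ⟨x, y⟩ ⟨hxy, hne⟩
  refine ⟨hxy, ?_⟩
  by_contra hcon
  push Not at hcon
  obtain ⟨hx, hy⟩ := hcon
  apply hne
  obtain ⟨p, hpx, hpy⟩ := exists_of_adj hG hxy
  have hx1 : x ∉ BadV S ψ := fun h' => hx (Or.inl h')
  have hy1 : y ∉ BadV S ψ := fun h' => hy (Or.inl h')
  have hx2 : In (tr x U)ᶜ b := by
    by_contra h'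
    exact hx (Or.inr h')
  have hy2 : In (tr y U)ᶜ b := by
    by_contra h'
    exact hy (Or.inr h')
  have e1 : ev x (x • u0) = ev x p := hconst x hx _ ⟨u0, hu0, rfl⟩ _ hpx
  have e2 : ev y (y • u0) = ev y p := hconst y hy _ ⟨u0, hu0, rfl⟩ _ hpy
  show ψ x y = ev x (x • u0) + ev y (y • u0)
  rw [e1, e2]
  simp only [hev]
  obtain ⟨V, ⟨_, F, hF1, hF2, hF3⟩, hpV⟩ := hWcov p
  have h1 : D p (w (lam p) + Dat.wa U μ ψ x) + D p (w (lam p) + Dat.wa U μ ψ y) = ψ x y := by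
    have h2 := (hprim (lam p)).rc h (h.wa_prim hx1 hx2) (hF2 _ (hF1 p hpV) hpV) hpx
    have h3 := (hprim (lam p)).rc h (h.wa_prim hy1 hy2) (hF2 _ (hF1 p hpV) hpV) hpy
    rw [← h.wa_add hx1 hpx hpy, add_comm (w (lam p)) (Dat.wa U μ ψ x),
      add_comm (w (lam p)) (Dat.wa U μ ψ y)]
    rw [add_comm (w (lam p)) (Dat.wa U μ ψ x)] at h2
    rw [add_comm (w (lam p)) (Dat.wa U μ ψ y)] at h3
    exact D_tri hM h2 h3
  rw [← h1]
  have key : ∀ a s t : ZMod 2, s + t = a + s + (a + t) := by decide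
  exact key _ _ _

end Crest.Agent.R224.T.N2
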