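/-
R224 / S0346 : node C2 (helper475): local classes of a manifold.
-/
import Crest.Agent.R224.T.Iface
import Crest.Agent.R224.T.Basic

set_option autoImplicit false

noncomputable section

open Topology Set Filter

namespace Crest.Agent.R224.T

namespace Cls

theorem mapsTo_compl_image {A B : Type} {f : A → B} (hf : Function.Injective f) (L : Set A) :
    MapsTo f Lᶜ (f '' L)ᶜ := by
  rintro x hx ⟨y, hy, hyx⟩
  exact hx (hf hyx ▸ hy)

theorem mapsTo_compl_singleton {A B : Type} {f : A → B} (hf : Function.Injective f) (v : A) :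
    MapsTo f {v}ᶜ {f v}ᶜ := by
  rintro x hx h
  exact hx (hf h)

/-- a class over a small ball in Euclidean space -/
theorem ballClass (hLoc : NLocAll) (hStar : NStar) (d : ℕ) :
    ∃ r : ℝ, 0 < r ∧ ∃ c : Ch (d + 1) (EE (d + 1)), RC (Metric.closedBall 0 r)ᶜ c ∧
      ∀ q ∈ Metric.closedBall (0 : EE (d + 1)) r, ¬ Nul {q}ᶜ c := by
  obtain ⟨c0, h1, h2⟩ := (hLoc d).2.1
  obtain ⟨N, hN, hNc⟩ := In.exists_nhds h1
  obtain ⟨r, hr, hrN⟩ := Metric.nhds_basis_closedBall.mem_iff.1 hN
  have hRC : RC (Metric.closedBall 0 r)ᶜ c0 := hNc.mono (compl_subset_compl.2 hrN)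
  refine ⟨r, hr, c0, hRC, fun q hq hnul => h2 ?_⟩
  have h3 := hStar (d + 1) d (Metric.closedBall 0 r) q (isCompact_closedBall _ _) hq
    ((convex_closedBall (0 : EE (d + 1)) r).starConvex hq) c0 hRC hnul
  refine h3.mono (compl_subset_compl.2 (singleton_subset_iff.2 ?_))
  exact Metric.mem_closedBall_self hr.le

/-- a class over a small ball about a given point inside a given open set -/
theorem openClass (hLoc : NLocAll) (hStar : NStar) (d : ℕ) (V : Set (EE (d + 1))) (hV : IsOpen V)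
    (a : EE (d + 1)) (ha : a ∈ V) :
    ∃ K ∈ 𝓝 a, IsCompact K ∧ K ⊆ V ∧ ∃ c : Ch (d + 1) (EE (d + 1)), RC Kᶜ c ∧
      ∀ q ∈ K, ¬ Nul {q}ᶜ c := by
  obtain ⟨r, hr, c0, h1, h2⟩ := ballClass hLoc hStar d
  obtain ⟨ρ, hρ, hρV⟩ := Metric.nhds_basis_closedBall.mem_iff.1 (hV.mem_nhds ha)
  set s : ℝ := ρ / r with hs
  have hs0 : 0 < s := div_pos hρ hr
  let A : EE (d + 1) ≃ₜ EE (d + 1) :=
    (Homeomorph.smulOfNeZero s hs0.ne').trans (Homeomorph.addLeft a)
  have hA : ∀ x, A x = a + s • x := fun x => rfl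
  have hKA : Metric.closedBall a ρ = A '' Metric.closedBall 0 r := by
    ext y
    constructor
    · intro hy
      refine ⟨s⁻¹ • (y - a), ?_, ?_⟩
      · rw [mem_closedBall_zero_iff, norm_smul, Real.norm_of_nonneg (inv_nonneg.2 hs0.le)]
        rw [Metric.mem_closedBall, dist_eq_norm] at hy
        rw [inv_mul_le_iff₀ hs0, hs, div_mul_cancel₀ _ hr.ne']
        exact hy
      · rw [hA, smul_smul, mul_inv_cancel₀ hs0.ne', one_smul]; abel
    · rintro ⟨x, hx, rfl⟩
      rw [mem_closedBall_zero_iff] at hx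
      rw [Metric.mem_closedBall, dist_eq_norm, hA, add_sub_cancel_left, norm_smul,
        Real.norm_of_nonneg hs0.le, hs]
      calc ρ / r * ‖x‖ ≤ ρ / r * r := by gcongr
        _ = ρ := div_mul_cancel₀ _ hr.ne'
  let Ac : C(EE (d + 1), EE (d + 1)) := ⟨A, A.continuous⟩
  let Bc : C(EE (d + 1), EE (d + 1)) := ⟨A.symm, A.symm.continuous⟩
  have hBA : Bc.comp Ac = ContinuousMap.id _ := by
    ext1 x; exact A.symm_apply_apply x
  refine ⟨Metric.closedBall a ρ, Metric.closedBall_mem_nhds a hρ, isCompact_closedBall _ _, hρV,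
    push Ac (d + 1) c0, ?_, ?_⟩
  · rw [hKA]
    exact h1.push (mapsTo_compl_image A.injective _)
  · intro q hq hnul
    rw [hKA] at hq
    obtain ⟨x, hx, rfl⟩ := hq
    refine h2 x hx ?_
    have h3 : Nul {x}ᶜ (push Bc (d + 1) (push Ac (d + 1) c0)) := by
      refine hnul.push ?_
      have := mapsTo_compl_singleton A.symm.injective (A x)
      rw [A.symm_apply_apply] at this
      exact this
    rwa [push_push, hBA, push_id] at h3

end Cls

open Cls in
/-- node C2 -/
theorem nClass (hExc : NExc) (hLoc : NLocAll) (hStar : NStar) : NClass := by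
  intro d Y _ _ _ p
  set φ := chartAt (EE (d + 1)) p with hφ
  have hp : p ∈ φ.source := mem_chart_source (EE (d + 1)) p
  obtain ⟨K1, hK1, hK1c, hK1V, c1, hc1, hc1n⟩ := openClass hLoc hStar d φ.target φ.open_target
    (φ p) (φ.map_source hp)
  let V : Set (EE (d + 1)) := φ.target
  let f : C(V, EE (d + 1)) := incl V
  have hf : IsOpenEmbedding f := φ.open_target.isOpenEmbedding_subtypeVal
  let g : C(V, Y) := (incl φ.source).comp
    ⟨φ.toHomeomorphSourceTarget.symm, φ.toHomeomorphSourceTarget.symm.continuous⟩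
  have hg : IsOpenEmbedding g :=
    φ.open_source.isOpenEmbedding_subtypeVal.comp φ.toHomeomorphSourceTarget.symm.isOpenEmbedding
  have hgs : ∀ v, g v ∈ φ.source := fun v => (φ.toHomeomorphSourceTarget.symm v).2
  let L : Set V := f ⁻¹' K1
  have hfL : f '' L = K1 := by
    refine image_preimage_eq_of_subset ?_
    intro x hx
    exact ⟨⟨x, hK1V hx⟩, rfl⟩
  have hLc : IsCompact L := by
    rw [hf.isEmbedding.isCompact_iff, hfL]; exact hK1c
  obtain ⟨c', hc', hnc'⟩ := (hExc V (EE (d + 1)) f hf L (by rw [hfL]; exact hK1c.isClosed) d).1 c1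
    (by rw [hfL]; exact hc1)
  rw [hfL] at hnc'
  have hne : ∀ v ∈ L, ¬ Nul {v}ᶜ c' := by
    intro v hv hnul
    have e1 := (hExc V (EE (d + 1)) f hf {v} (by rw [image_singleton]; exact isClosed_singleton) d).2
      c' (hc'.mono (compl_subset_compl.2 (singleton_subset_iff.2 hv)))
    rw [image_singleton] at e1
    have e2 : Nul {f v}ᶜ (c1 + push f (d + 1) c') :=
      hnc'.mono (compl_subset_compl.2 (singleton_subset_iff.2 (show f v ∈ K1 from hv)))
    exact hc1n (f v) hv ((Nul_congr e2).2 (e1.2 hnul))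
  refine ⟨g '' L, ?_, hLc.image g.continuous, ⟨p, ?_⟩, push g (d + 1) c', ?_, ?_⟩
  · have h0 : g ⟨φ p, φ.map_source hp⟩ = p := φ.left_inv hp
    have h1 : L ∈ 𝓝 (⟨φ p, φ.map_source hp⟩ : V) := f.continuous.continuousAt.preimage_mem_nhds hK1
    have := hg.isOpenMap.image_mem_nhds h1
    rwa [h0] at this
  · rintro _ ⟨v, _, rfl⟩
    exact hgs v
  · exact hc'.push (mapsTo_compl_image hg.injective _)
  · rintro _ ⟨v, hv, rfl⟩ hnul
    have e1 := (hExc V Y g hg {v} (by rw [image_singleton]; exact isClosed_singleton) d).2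
      c' (hc'.mono (compl_subset_compl.2 (singleton_subset_iff.2 hv)))
    rw [image_singleton] at e1
    exact hne v hv (e1.1 hnul)

end Crest.Agent.R224.T
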