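/-
R224 / S0346 : node A4 (helper599): excision for open embeddings.
-/
import Crest.Agent.R224.T.Iface

set_option autoImplicit false

noncomputable section

open Topology Set Filter

namespace Crest.Agent.R224.T

namespace Exc

section
variable {X : Type} [TopologicalSpace X] {Y : Type} [TopologicalSpace Y]

theorem In.zero (A : Set X) {n : ℕ} : In A (0 : Ch n X) := by
  intro σ hσ; simp at hσ

theorem In.add {A : Set X} {n : ℕ} {c c' : Ch n X} (h : In A c) (h' : In A c') :
    In A (c + c') := by
  classical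
  intro σ hσ
  rcases Finset.mem_union.mp (Finsupp.support_add hσ) with h1 | h1
  · exact h σ h1
  · exact h' σ h1

theorem In.mono {A B : Set X} {n : ℕ} {c : Ch n X} (h : In A c) (hAB : A ⊆ B) : In B c :=
  fun σ hσ => (h σ hσ).trans hAB

theorem In.sum {A : Set X} {n : ℕ} {ι : Type*} (s : Finset ι) (c : ι → Ch n X)
    (h : ∀ i ∈ s, In A (c i)) : In A (∑ i ∈ s, c i) := by
  classical
  induction s using Finset.induction_on with
  | empty => simpa using In.zero A
  | insert i s hi ih =>
    rw [Finset.sum_insert hi]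
    exact In.add (h i (Finset.mem_insert_self _ _))
      (ih fun j hj => h j (Finset.mem_insert_of_mem hj))

theorem In.smul {A : Set X} {n : ℕ} {c : Ch n X} (r : ZMod 2) (h : In A c) : In A (r • c) :=
  fun σ hσ => h σ (Finsupp.support_smul hσ)

theorem In.single {A : Set X} {n : ℕ} {σ : C(Dl n, X)} (h : range σ ⊆ A) (r : ZMod 2) :
    In A (Finsupp.single σ r : Ch n X) := by
  classical
  intro τ hτ
  have := Finsupp.support_single_subset hτ
  rw [Finset.mem_singleton] at this
  rw [this]; exact h

/-- a linear map with support control on simplices preserves `In` -/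
theorem In.lin {A : Set X} {B : Set Y} {n m : ℕ} (φ : Ch n X →ₗ[ZMod 2] Ch m Y)
    (h : ∀ σ : C(Dl n, X), range σ ⊆ A → In B (φ (Finsupp.single σ 1))) {c : Ch n X}
    (hc : In A c) : In B (φ c) := by
  classical
  have : c = c.sum fun σ r => r • (Finsupp.single σ 1 : Ch n X) := by
    simp
  rw [this, Finsupp.sum, map_sum]
  refine In.sum _ _ fun σ hσ => ?_
  rw [map_smul]
  exact In.smul _ (h σ (hc σ hσ))

theorem In.bd {A : Set X} {n : ℕ} {c : Ch (n + 1) X} (h : In A c) : In A (bd n c) := by
  refine In.lin (T.bd n) (fun σ hσ => ?_) h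
  rw [T.bd, Finsupp.linearCombination_single, one_smul]
  refine In.sum _ _ fun i _ => In.single ?_ _
  rintro _ ⟨x, rfl⟩
  exact hσ ⟨_, rfl⟩

theorem In.s {A : Set X} (O : SubOp X) {n : ℕ} {c : Ch n X} (h : In A c) : In A (O.s n c) :=
  In.lin (O.s n) (fun σ hσ τ hτ => (O.supp_s n σ τ hτ).trans hσ) h

theorem In.h {A : Set X} (O : SubOp X) {n : ℕ} {c : Ch n X} (h : In A c) : In A (O.h n c) :=
  In.lin (O.h n) (fun σ hσ τ hτ => (O.supp_h n σ τ hτ).trans hσ) h

theorem push_single (f : C(X, Y)) (n : ℕ) (σ : C(Dl n, X)) (r : ZMod 2) :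
    push f n (Finsupp.single σ r) = Finsupp.single (f.comp σ) r := by
  simp [push, Finsupp.lmapDomain_apply, Finsupp.mapDomain_single]

theorem bd_single (n : ℕ) (σ : C(Dl (n + 1), X)) :
    bd n (Finsupp.single σ 1) = ∑ i : Fin (n + 2), Finsupp.single (σ.comp (face n i)) (1 : ZMod 2) := by
  rw [T.bd, Finsupp.linearCombination_single, one_smul]

theorem bd_push (f : C(X, Y)) (n : ℕ) (c : Ch (n + 1) X) :
    bd n (push f (n + 1) c) = push f n (bd n c) := by
  have : (T.bd n).comp (push f (n + 1)) = (push f n).comp (T.bd n) := by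
    apply Finsupp.lhom_ext'
    intro σ
    apply LinearMap.ext_ring
    simp only [LinearMap.comp_apply, Finsupp.lsingle_apply, push_single, bd_single, map_sum]
    rfl
  exact LinearMap.congr_fun this c

theorem In.push {A : Set X} {B : Set Y} (f : C(X, Y)) {n : ℕ} {c : Ch n X} (h : In A c)
    (hAB : MapsTo f A B) : In B (push f n c) := by
  refine In.lin (T.push f n) (fun σ hσ => ?_) h
  rw [push_single]
  refine In.single ?_ _
  rintro _ ⟨x, rfl⟩
  exact hAB (hσ ⟨x, rfl⟩)

theorem comp_injective {f : C(X, Y)} (hf : Function.Injective f) (n : ℕ) :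
    Function.Injective (fun σ : C(Dl n, X) => f.comp σ) := by
  intro σ τ h
  ext x
  exact hf (congrArg (fun ρ : C(Dl n, Y) => ρ x) h)

theorem push_injective {f : C(X, Y)} (hf : Function.Injective f) (n : ℕ) :
    Function.Injective (push f n) :=
  Finsupp.mapDomain_injective (comp_injective hf n)

theorem In.of_push {f : C(X, Y)} (hf : Function.Injective f) {n : ℕ} {c : Ch n X} {B : Set Y}
    (h : In B (T.push f n c)) : In (f ⁻¹' B) c := by
  classical
  intro σ hσ
  have h1 : f.comp σ ∈ (T.push f n c).support := by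
    have : (T.push f n c) (f.comp σ) = c σ := Finsupp.mapDomain_apply (comp_injective hf n) c σ
    rw [Finsupp.mem_support_iff, this]
    exact Finsupp.mem_support_iff.mp hσ
  have h2 := h _ h1
  rintro _ ⟨x, rfl⟩
  exact h2 ⟨x, rfl⟩

theorem exists_push {f : C(X, Y)} (hf : IsEmbedding f) {n : ℕ} {c : Ch n Y}
    (h : In (range f) c) : ∃ c' : Ch n X, push f n c' = c := by
  classical
  have hlift : ∀ σ : C(Dl n, Y), range σ ⊆ range f → ∃ τ : C(Dl n, X), f.comp τ = σ := by
    intro σ hσ
    choose g hg using fun x => hσ (mem_range_self x)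
    refine ⟨⟨g, ?_⟩, ?_⟩
    · rw [hf.continuous_iff]
      have : f ∘ g = σ := funext hg
      rw [this]; exact σ.continuous
    · ext x; exact hg x
  have : c = c.sum fun σ r => (Finsupp.single σ r : Ch n Y) := (Finsupp.sum_single c).symm
  choose τ hτ using hlift
  refine ⟨∑ σ ∈ c.support.attach, Finsupp.single (τ σ.1 (h σ.1 σ.2)) (c σ.1), ?_⟩
  rw [map_sum]
  conv_rhs => rw [this, Finsupp.sum, ← Finset.sum_attach]
  refine Finset.sum_congr rfl fun σ _ => ?_
  rw [push_single, hτ σ.1 (h σ.1 σ.2)]

theorem add_self' {n : ℕ} (c : Ch n X) : c + c = 0 := by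
  have : (2 : ZMod 2) • c = 0 := by
    have : (2 : ZMod 2) = 0 := rfl
    rw [this, zero_smul]
  rwa [two_smul] at this

theorem split {U V : Set X} {n : ℕ} {c : Ch n X} (h : Small {U, V} c) :
    ∃ a b : Ch n X, In U a ∧ In V b ∧ c = a + b := by
  classical
  refine ⟨c.filter (fun σ => range σ ⊆ U), c.filter (fun σ => ¬ range σ ⊆ U), ?_, ?_, ?_⟩
  · intro σ hσ
    rw [Finsupp.support_filter, Finset.mem_filter] at hσ
    exact hσ.2
  · intro σ hσ
    rw [Finsupp.support_filter, Finset.mem_filter] at hσ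
    obtain ⟨W, hW, hW'⟩ := h σ hσ.1
    rcases hW with rfl | hW
    · exact absurd hW' hσ.2
    · rw [mem_singleton_iff.mp hW] at hW'; exact hW'
  · exact (Finsupp.filter_add_filter_not c _).symm

/-- the homotopy formula, all degrees ≥ 1 -/
theorem eq_of_bd_h (O : SubOp X) {n : ℕ} (c : Ch (n + 1) X) :
    c = O.s (n + 1) c + (bd (n + 1) (O.h (n + 1) c) + O.h n (bd n c)) := by
  have h := O.bd_h n c
  rw [h]
  have h1 := add_self' (O.s (n + 1) c)
  have h2 := add_self' (O.h n (bd n c))
  calc c = c + (O.s (n + 1) c + O.s (n + 1) c) + (O.h n (bd n c) + O.h n (bd n c)) := by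
        rw [h1, h2, add_zero, add_zero]
    _ = _ := by abel

end

end Exc

open Exc in
/-- node A4 -/
theorem exc_holds (hSub : NSub) : NExc := by
  intro X Y _ _ f hf L hL q
  have hinj : Function.Injective f := hf.injective
  have hpre : f ⁻¹' (f '' L)ᶜ = Lᶜ := by
    rw [preimage_compl, preimage_image_eq L hinj]
  have hmaps : MapsTo f Lᶜ (f '' L)ᶜ := by
    intro x hx ⟨y, hy, hyx⟩
    exact hx (hinj hyx ▸ hy)
  obtain ⟨O, hO⟩ := hSub Y
  have hcov : ∀ n (c : Ch n Y), ∀ᶠ k in atTop, Small {range f, (f '' L)ᶜ} ((O k).s n c) := by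
    intro n c
    refine hO {range f, (f '' L)ᶜ} ?_ n c ?_
    · rintro U (rfl | hU)
      · exact hf.isOpen_range
      · rw [mem_singleton_iff.mp hU]; exact hL.isOpen_compl
    · have : ⋃₀ {range f, (f '' L)ᶜ} = (univ : Set Y) := by
        rw [sUnion_pair]
        apply eq_univ_of_forall
        intro y
        by_cases hy : y ∈ range f
        · exact Or.inl hy
        · exact Or.inr fun h => hy (image_subset_range _ _ h)
      rw [this]
      intro σ _
      exact subset_univ _
  refine ⟨?_, ?_⟩
  · intro c hc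
    obtain ⟨k, hk⟩ := (hcov (q + 1) c).exists
    obtain ⟨a, b, ha, hb, hab⟩ := split hk
    obtain ⟨c', hc'⟩ := exists_push hf.isEmbedding ha
    have hfor := eq_of_bd_h (O k) c
    have hbda : In (f '' L)ᶜ (bd q a) := by
      have h1 : a = (O k).s (q + 1) c + b := by
        rw [hab, add_assoc, add_self', add_zero]
      rw [h1, map_add, (O k).bd_s]
      exact In.add (In.s _ hc) (In.bd hb)
    refine ⟨c', ?_, ?_⟩
    · have h2 : In (f '' L)ᶜ (push f q (bd q c')) := by
        rw [← bd_push, hc']; exact hbda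
      have := In.of_push hinj h2
      rwa [hpre] at this
    · refine ⟨(O k).h (q + 1) c, (O k).h q (bd q c) + b, In.add (In.h _ hc) hb, ?_⟩
      rw [hc']
      conv_lhs => rw [hfor, hab]
      have h3 := add_self' a
      calc a + b + (bd (q + 1) ((O k).h (q + 1) c) + (O k).h q (bd q c)) + a
          = (a + a) + (bd (q + 1) ((O k).h (q + 1) c) + ((O k).h q (bd q c) + b)) := by abel
        _ = _ := by rw [h3, zero_add]
  · intro c' hc'
    constructor
    · rintro ⟨b, e, he, hbe⟩
      obtain ⟨k, hk⟩ := (hcov (q + 2) b).exists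
      obtain ⟨b1, b2, hb1, hb2, hb12⟩ := split hk
      obtain ⟨b1', hb1'⟩ := exists_push hf.isEmbedding hb1
      have hr : ∀ n (d : Ch n X), In (range f) (push f n d) := fun n d =>
        In.push (A := univ) f (fun σ _ => subset_univ _) (fun x _ => mem_range_self x)
      obtain ⟨c'', hc''⟩ := exists_push hf.isEmbedding (In.s (O k) (hr (q + 1) c'))
      obtain ⟨g1, hg1⟩ := exists_push hf.isEmbedding (In.h (O k) (hr (q + 1) c'))
      obtain ⟨g2, hg2⟩ := exists_push hf.isEmbedding (In.h (O k) (hr q (bd q c')))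
      have hfor := eq_of_bd_h (O k) (push f (q + 1) c')
      rw [bd_push, ← hc'', ← hg1, ← hg2, bd_push, ← map_add, ← map_add] at hfor
      have hfor' := push_injective hinj _ hfor
      -- `g2` lies in `Lᶜ`
      have hg2L : In Lᶜ g2 := by
        have h1 : In (f '' L)ᶜ (push f (q + 1) g2) := by
          rw [hg2]; exact In.h _ (In.push f hc' hmaps)
        have := In.of_push hinj h1
        rwa [hpre] at this
      -- `c'' + bd b1'` lies in `Lᶜ`
      have h4 : In Lᶜ (c'' + bd (q + 1) b1') := by
        have h5 : push f (q + 1) (c'' + bd (q + 1) b1') = bd (q + 1) b2 + (O k).s (q + 1) e := by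
          rw [map_add, hc'', ← bd_push, hb1', hbe, map_add, ← (O k).bd_s, hb12, map_add]
          have h6 := add_self' (bd (q + 1) b1)
          calc bd (q + 1) b1 + bd (q + 1) b2 + (O k).s (q + 1) e + bd (q + 1) b1
              = (bd (q + 1) b1 + bd (q + 1) b1) + (bd (q + 1) b2 + (O k).s (q + 1) e) := by abel
            _ = _ := by rw [h6, zero_add]
        have h7 : In (f '' L)ᶜ (push f (q + 1) (c'' + bd (q + 1) b1')) := by
          rw [h5]; exact In.add (In.bd hb2) (In.s _ he)
        have := In.of_push hinj h7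
        rwa [hpre] at this
      refine ⟨g1 + b1', g2 + (c'' + bd (q + 1) b1'), In.add hg2L h4, ?_⟩
      conv_lhs => rw [hfor']
      have h8 := add_self' (bd (q + 1) b1')
      rw [map_add]
      calc c'' + (bd (q + 1) g1 + g2)
          = c'' + (bd (q + 1) g1 + g2) + (bd (q + 1) b1' + bd (q + 1) b1') := by rw [h8, add_zero]
        _ = _ := by abel
    · rintro ⟨b, e, he, hbe⟩
      refine ⟨push f (q + 2) b, push f (q + 1) e, In.push f he hmaps, ?_⟩
      rw [hbe, map_add, bd_push]

end Crest.Agent.R224.T
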