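import Crest.Agent.R224.T.Iface

/-!
# R224 topological half, node A1 (NPrism): the prism operator (helper543)
-/

set_option autoImplicit false
set_option linter.unusedSectionVars false
set_option linter.unusedSimpArgs false

noncomputable section

open Topology Set Filter

namespace Crest.Agent.R224.T

namespace Prism

/-! ### combinatorics of the prism -/

lemma two_self {M : Type*} [AddCommGroup M] [Module (ZMod 2) M] (m : M) : m + m = 0 := by
  have : (2 : ZMod 2) • m = 0 := by
    rw [show (2 : ZMod 2) = 0 from rfl, zero_smul]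
  rwa [two_smul] at this

/-- abstract prism identity -/
lemma prism_sum {M : Type*} [AddCommGroup M] [Module (ZMod 2) M] (n : ℕ)
    (a : Fin (n + 2) → Fin (n + 3) → M) (b : Fin (n + 1) → Fin (n + 2) → M) (e : Fin (n + 3) → M)
    (h1 : ∀ i j, j ≤ Fin.castSucc i → a i.succ j.castSucc = b i j)
    (h2 : ∀ i j, Fin.castSucc i < j → a i.castSucc j.succ = b i j)
    (h3 : ∀ i, a i i.castSucc = e i.castSucc) (h4 : ∀ i, a i i.succ = e i.succ) :
    ∑ i, ∑ j, a i j = e 0 + e (Fin.last _) + ∑ i, ∑ j, b i j := by
  classical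
  have hsplit : ∀ i : Fin (n + 2), ∑ j, a i j = (∑ j, if j < i.castSucc then a i j else 0) +
      (e i.castSucc + e i.succ) + ∑ j, if i.succ < j then a i j else 0 := by
    intro i
    have h5 : e i.castSucc = ∑ j, if j = i.castSucc then a i j else 0 := by
      rw [Finset.sum_ite_eq' Finset.univ i.castSucc]; simp [h3]
    have h6 : e i.succ = ∑ j, if j = i.succ then a i j else 0 := by
      rw [Finset.sum_ite_eq' Finset.univ i.succ]; simp [h4]
    rw [h5, h6, ← Finset.sum_add_distrib, ← Finset.sum_add_distrib, ← Finset.sum_add_distrib]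
    refine Finset.sum_congr rfl fun j _ => ?_
    rcases lt_trichotomy j i.castSucc with h | h | h
    · have h7 : j ≠ i.castSucc := h.ne
      have h8 : j ≠ i.succ := (h.trans (Fin.castSucc_lt_succ)).ne
      have h9 : ¬ i.succ < j := not_lt.2 (h.trans (Fin.castSucc_lt_succ)).le
      simp [h, h7, h8, h9]
    · have h7 : ¬ j < i.castSucc := h.not_lt
      have h8 : j ≠ i.succ := by rw [h]; exact (Fin.castSucc_lt_succ).ne
      have h9 : ¬ i.succ < j := by rw [h]; exact not_lt.2 (Fin.castSucc_lt_succ).le
      rw [if_neg h7, if_pos h, if_neg h8, if_neg h9]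
      simp
    · have h7 : ¬ j < i.castSucc := not_lt.2 h.le
      have h8 : j ≠ i.castSucc := h.ne'
      rcases eq_or_lt_of_le (Fin.castSucc_lt_iff_succ_le.1 h) with h9 | h9
      · rw [if_neg h7, if_neg h8, if_pos h9.symm, if_neg (by rw [h9]; exact lt_irrefl _)]
        simp
      · rw [if_neg h7, if_neg h8, if_neg h9.ne', if_pos h9]
        simp
  rw [Finset.sum_congr rfl fun i _ => hsplit i, Finset.sum_add_distrib, Finset.sum_add_distrib]
  have hA : (∑ i : Fin (n + 2), ∑ j : Fin (n + 3), if j < i.castSucc then a i j else 0) =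
      ∑ i : Fin (n + 1), ∑ j : Fin (n + 2), if j ≤ i.castSucc then b i j else 0 := by
    rw [Fin.sum_univ_succ]
    have h0 : (∑ j : Fin (n + 3), if j < (0 : Fin (n + 2)).castSucc then a 0 j else 0) = 0 := by
      refine Finset.sum_eq_zero fun j _ => ?_
      rw [if_neg]
      simp
    rw [h0, zero_add]
    refine Finset.sum_congr rfl fun i _ => ?_
    rw [Fin.sum_univ_castSucc]
    have h0 : ¬ (Fin.last (n + 2) < i.succ.castSucc) := not_lt.2 (Fin.le_last _)
    rw [if_neg h0, add_zero]
    refine Finset.sum_congr rfl fun j _ => ?_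
    by_cases h : j ≤ i.castSucc
    · have h' : j.castSucc < i.succ.castSucc := by
        rw [Fin.le_def] at h; rw [Fin.lt_def]; simp at *; omega
      rw [if_pos h, if_pos h', h1 i j h]
    · have h' : ¬ j.castSucc < i.succ.castSucc := by
        rw [Fin.le_def] at h; rw [Fin.lt_def]; simp at *; omega
      rw [if_neg h, if_neg h']
  have hB : (∑ i : Fin (n + 2), ∑ j : Fin (n + 3), if i.succ < j then a i j else 0) =
      ∑ i : Fin (n + 1), ∑ j : Fin (n + 2), if i.castSucc < j then b i j else 0 := by
    rw [Fin.sum_univ_castSucc]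
    have h0 : (∑ j : Fin (n + 3), if (Fin.last (n + 1)).succ < j then a (Fin.last _) j else 0) =
        0 := by
      refine Finset.sum_eq_zero fun j _ => ?_
      rw [if_neg]
      exact not_lt.2 (Fin.le_last _)
    rw [h0, add_zero]
    refine Finset.sum_congr rfl fun i _ => ?_
    rw [Fin.sum_univ_succ]
    have h0 : ¬ ((i.castSucc).succ < (0 : Fin (n + 3))) := not_lt.2 (Fin.zero_le _)
    rw [if_neg h0, zero_add]
    refine Finset.sum_congr rfl fun j _ => ?_
    by_cases h : i.castSucc < j
    · have h' : (i.castSucc).succ < j.succ := Fin.succ_lt_succ_iff.2 h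
      rw [if_pos h, if_pos h', h2 i j h]
    · have h' : ¬ (i.castSucc).succ < j.succ := fun h'' => h (Fin.succ_lt_succ_iff.1 h'')
      rw [if_neg h, if_neg h']
  rw [hA, hB]
  have hC : (∑ i : Fin (n + 1), ∑ j : Fin (n + 2), if j ≤ i.castSucc then b i j else 0) +
      (∑ i : Fin (n + 1), ∑ j : Fin (n + 2), if i.castSucc < j then b i j else 0) =
      ∑ i, ∑ j, b i j := by
    rw [← Finset.sum_add_distrib]
    refine Finset.sum_congr rfl fun i _ => ?_
    rw [← Finset.sum_add_distrib]
    refine Finset.sum_congr rfl fun j _ => ?_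
    by_cases h : j ≤ i.castSucc
    · simp [h, not_lt.2 h]
    · simp [h, not_le.1 h]
  have hE : (∑ i : Fin (n + 2), (e i.castSucc + e i.succ)) = e 0 + e (Fin.last _) := by
    rw [Finset.sum_add_distrib]
    have e1 := Fin.sum_univ_castSucc e
    have e2 := Fin.sum_univ_succ e
    have e3 := two_self (∑ i : Fin (n + 2), e i.succ)
    have e4 := two_self (e (Fin.last (n + 2)))
    have e5 : ∑ i : Fin (n + 2), e i.castSucc = e 0 + ∑ i : Fin (n + 2), e i.succ +
        e (Fin.last (n + 2)) := by
      rw [← e2, e1, add_assoc, e4, add_zero]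
    rw [e5]
    calc e 0 + ∑ i : Fin (n + 2), e i.succ + e (Fin.last (n + 2)) + ∑ i : Fin (n + 2), e i.succ
        = e 0 + e (Fin.last (n + 2)) + (∑ i : Fin (n + 2), e i.succ + ∑ i : Fin (n + 2), e i.succ)
          := by abel
      _ = _ := by rw [e3, add_zero]
  rw [hE, ← hC]
  abel

/-! ### the prism simplices -/

/-- mass of a point of the simplex on the set `T` of vertices -/
def mass {m : ℕ} (T : Fin (m + 1) → Prop) [DecidablePred T] (x : Dl m) : unitInterval :=
  ⟨∑ k, if T k then x k else 0, Finset.sum_nonneg fun k _ => by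
      split_ifs
      · exact stdSimplex.zero_le x k
      · exact le_rfl, by
    calc (∑ k, if T k then x k else 0) ≤ ∑ k, x k := Finset.sum_le_sum fun k _ => by
          split_ifs
          · exact le_rfl
          · exact stdSimplex.zero_le x k
      _ = 1 := stdSimplex.sum_eq_one x⟩

lemma continuous_coord {m : ℕ} (k : Fin (m + 1)) : Continuous fun x : Dl m => x k :=
  (continuous_apply k).comp continuous_subtype_val

lemma continuous_mass {m : ℕ} (T : Fin (m + 1) → Prop) [DecidablePred T] :
    Continuous (mass T) := by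
  refine Continuous.subtype_mk (continuous_finsetSum _ fun k _ => ?_) _
  split_ifs
  · exact continuous_coord k
  · exact continuous_const

lemma map_apply {m k : ℕ} (f : Fin (m + 1) → Fin (k + 1)) (x : Dl m) (j : Fin (k + 1)) :
    stdSimplex.map f x j = ∑ l, if f l = j then x l else 0 := by
  rw [stdSimplex.map_coe, FunOnFinite.linearMap_apply_apply, Finset.sum_filter]

lemma mass_map {m k : ℕ} (f : Fin (m + 1) → Fin (k + 1)) (T : Fin (k + 1) → Prop) [DecidablePred T]
    (x : Dl m) : mass T (stdSimplex.map f x) = mass (fun l => T (f l)) x := by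
  apply Subtype.ext
  simp only [mass]
  have h : ∀ j : Fin (k + 1), (if T j then (stdSimplex.map f x) j else 0) =
      ∑ l, if f l = j then (if T (f l) then x l else 0) else 0 := by
    intro j
    rw [map_apply]
    split_ifs with hT
    · refine Finset.sum_congr rfl fun l _ => ?_
      split_ifs with h1 h2
      · rfl
      · exact absurd (h1 ▸ hT) h2
      · rfl
    · symm
      refine Finset.sum_eq_zero fun l _ => ?_
      split_ifs with h1 h2
      · exact absurd (h1 ▸ h2) hT
      · rfl
      · rfl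
  rw [Finset.sum_congr rfl fun j _ => h j, Finset.sum_comm]
  refine Finset.sum_congr rfl fun l _ => ?_
  simp

lemma mass_congr {m : ℕ} {T T' : Fin (m + 1) → Prop} [DecidablePred T] [DecidablePred T']
    (h : ∀ k, T k ↔ T' k) (x : Dl m) : mass T x = mass T' x := by
  apply Subtype.ext
  simp only [mass]
  exact Finset.sum_congr rfl fun k _ => by simp [h k]

variable {X Y : Type} [TopologicalSpace X] [TopologicalSpace Y]

/-- general simplex of the prism -/
def gs (H : C(X × unitInterval, Y)) {n m : ℕ} (σ : C(Dl n, X)) (f : Fin (m + 1) → Fin (n + 1))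
    (T : Fin (m + 1) → Prop) [DecidablePred T] : C(Dl m, Y) :=
  ⟨fun x => H (σ (stdSimplex.map f x), mass T x),
    H.continuous.comp ((σ.continuous.comp (stdSimplex.continuous_map f)).prodMk
      (continuous_mass T))⟩

lemma gs_face (H : C(X × unitInterval, Y)) {n m : ℕ} (σ : C(Dl n, X))
    (f : Fin (m + 2) → Fin (n + 1)) (T : Fin (m + 2) → Prop) [DecidablePred T] (j : Fin (m + 2)) :
    (gs H σ f T).comp (face m j) = gs H σ (f ∘ j.succAbove) (fun l => T (j.succAbove l)) := by
  ext x
  simp only [gs, face, ContinuousMap.comp_apply, ContinuousMap.coe_mk]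
  rw [stdSimplex.map_comp_apply, mass_map]

lemma gs_comp_face (H : C(X × unitInterval, Y)) {n m : ℕ} (σ : C(Dl (n + 1), X))
    (f : Fin (m + 1) → Fin (n + 1)) (T : Fin (m + 1) → Prop) [DecidablePred T] (j : Fin (n + 2)) :
    gs H (σ.comp (face n j)) f T = gs H σ (j.succAbove ∘ f) T := by
  ext x
  simp only [gs, face, ContinuousMap.comp_apply, ContinuousMap.coe_mk]
  rw [stdSimplex.map_comp_apply]

lemma gs_congr (H : C(X × unitInterval, Y)) {n m : ℕ} (σ : C(Dl n, X))
    {f f' : Fin (m + 1) → Fin (n + 1)} {T T' : Fin (m + 1) → Prop} [DecidablePred T]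
    [DecidablePred T'] (hf : ∀ k, f k = f' k) (hT : ∀ k, T k ↔ T' k) :
    gs H σ f T = gs H σ f' T' := by
  obtain rfl : f = f' := funext hf
  ext x
  simp only [gs, ContinuousMap.coe_mk]
  rw [mass_congr hT]

lemma gs_range (H : C(X × unitInterval, Y)) {n m : ℕ} (σ : C(Dl n, X))
    (f : Fin (m + 1) → Fin (n + 1)) (T : Fin (m + 1) → Prop) [DecidablePred T] :
    range (gs H σ f T) ⊆ H '' (range σ ×ˢ univ) := by
  rintro _ ⟨x, rfl⟩
  exact ⟨_, ⟨⟨_, rfl⟩, trivial⟩, rfl⟩

/-- the `i`-th prism simplex -/
def ps (H : C(X × unitInterval, Y)) {n : ℕ} (σ : C(Dl n, X)) (i : Fin (n + 1)) :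
    C(Dl (n + 1), Y) :=
  gs H σ i.predAbove fun k => i.castSucc < k

/-- the prism operator -/
def P (H : C(X × unitInterval, Y)) (n : ℕ) : Ch n X →ₗ[ZMod 2] Ch (n + 1) Y :=
  Finsupp.linearCombination (ZMod 2) fun σ : C(Dl n, X) =>
    ∑ i : Fin (n + 1), Finsupp.single (ps H σ i) (1 : ZMod 2)

lemma P_single (H : C(X × unitInterval, Y)) (n : ℕ) (σ : C(Dl n, X)) :
    P H n (Finsupp.single σ 1) = ∑ i : Fin (n + 1), Finsupp.single (ps H σ i) (1 : ZMod 2) := by
  simp [P]

lemma bd_single {n : ℕ} (σ : C(Dl (n + 1), X)) :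
    bd n (Finsupp.single σ 1) = ∑ i : Fin (n + 2), Finsupp.single (σ.comp (face n i)) (1 : ZMod 2) := by
  simp [bd]

lemma push_single (f : C(X, Y)) {n : ℕ} (σ : C(Dl n, X)) :
    push f n (Finsupp.single σ 1) = Finsupp.single (f.comp σ) (1 : ZMod 2) := by
  simp [push]

lemma val_succAbove {n : ℕ} (j : Fin (n + 1)) (k : Fin n) :
    (j.succAbove k).val = if k.val < j.val then k.val else k.val + 1 := by
  simp only [Fin.succAbove, Fin.lt_def, Fin.val_castSucc]
  split_ifs <;> simp

lemma val_predAbove {n : ℕ} (i : Fin n) (k : Fin (n + 1)) :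
    (i.predAbove k).val = if i.val < k.val then k.val - 1 else k.val := by
  simp only [Fin.predAbove, Fin.lt_def, Fin.val_castSucc]
  split_ifs <;> simp

lemma predAbove_succ_succAbove_castSucc {n : ℕ} (i : Fin (n + 1)) (j : Fin (n + 2))
    (h : j ≤ i.castSucc) (k : Fin (n + 2)) :
    i.succ.predAbove (j.castSucc.succAbove k) = j.succAbove (i.predAbove k) := by
  ext
  simp only [val_predAbove, val_succAbove, Fin.val_succ, Fin.val_castSucc, Fin.le_def] at *
  split_ifs <;> omega

lemma predAbove_castSucc_succAbove_succ {n : ℕ} (i : Fin (n + 1)) (j : Fin (n + 2))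
    (h : i.castSucc < j) (k : Fin (n + 2)) :
    i.castSucc.predAbove (j.succ.succAbove k) = j.succAbove (i.predAbove k) := by
  ext
  simp only [val_predAbove, val_succAbove, Fin.val_succ, Fin.val_castSucc, Fin.lt_def] at *
  split_ifs <;> omega

/-- the edge simplices `[v_0..v_{m-1}, w_m..w_n]` of the prism -/
def es (H : C(X × unitInterval, Y)) {n : ℕ} (σ : C(Dl n, X)) (m : Fin (n + 2)) : C(Dl n, Y) :=
  gs H σ id fun k => m ≤ k.castSucc

lemma ps_face_one (H : C(X × unitInterval, Y)) {n : ℕ} (σ : C(Dl (n + 1), X)) (i : Fin (n + 1))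
    (j : Fin (n + 2)) (h : j ≤ i.castSucc) :
    (ps H σ i.succ).comp (face (n + 1) j.castSucc) = ps H (σ.comp (face n j)) i := by
  rw [ps, ps, gs_face, gs_comp_face]
  refine gs_congr H σ (fun k => predAbove_succ_succAbove_castSucc i j h k) fun k => ?_
  simp only [val_succAbove, Fin.val_succ, Fin.val_castSucc, Fin.lt_def, Fin.le_def] at *
  split_ifs <;> omega

lemma ps_face_two (H : C(X × unitInterval, Y)) {n : ℕ} (σ : C(Dl (n + 1), X)) (i : Fin (n + 1))
    (j : Fin (n + 2)) (h : i.castSucc < j) :
    (ps H σ i.castSucc).comp (face (n + 1) j.succ) = ps H (σ.comp (face n j)) i := by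
  rw [ps, ps, gs_face, gs_comp_face]
  refine gs_congr H σ (fun k => predAbove_castSucc_succAbove_succ i j h k) fun k => ?_
  simp only [val_succAbove, Fin.val_succ, Fin.val_castSucc, Fin.lt_def, Fin.le_def] at *
  split_ifs <;> omega

lemma ps_face_three (H : C(X × unitInterval, Y)) {n : ℕ} (σ : C(Dl n, X)) (i : Fin (n + 1)) :
    (ps H σ i).comp (face n i.castSucc) = es H σ i.castSucc := by
  rw [ps, es, gs_face]
  refine gs_congr H σ (fun k => ?_) fun k => ?_
  · simp
  · simp only [val_succAbove, Fin.val_succ, Fin.val_castSucc, Fin.lt_def, Fin.le_def] at *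
    split_ifs <;> omega

lemma ps_face_four (H : C(X × unitInterval, Y)) {n : ℕ} (σ : C(Dl n, X)) (i : Fin (n + 1)) :
    (ps H σ i).comp (face n i.succ) = es H σ i.succ := by
  rw [ps, es, gs_face]
  refine gs_congr H σ (fun k => ?_) fun k => ?_
  · ext
    simp only [Function.comp_apply, val_predAbove, val_succAbove, Fin.val_succ, id]
    split_ifs <;> omega
  · simp only [val_succAbove, Fin.val_succ, Fin.val_castSucc, Fin.lt_def, Fin.le_def] at *
    split_ifs <;> omega

lemma es_zero (H : C(X × unitInterval, Y)) {n : ℕ} (σ : C(Dl n, X)) :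
    es H σ 0 = (H.comp ⟨fun x => (x, 1), by fun_prop⟩).comp σ := by
  ext x
  simp only [es, gs, ContinuousMap.comp_apply, ContinuousMap.coe_mk, stdSimplex.map_id_apply]
  congr 2
  apply Subtype.ext
  simp [mass]

lemma es_last (H : C(X × unitInterval, Y)) {n : ℕ} (σ : C(Dl n, X)) :
    es H σ (Fin.last _) = (H.comp ⟨fun x => (x, 0), by fun_prop⟩).comp σ := by
  ext x
  simp only [es, gs, ContinuousMap.comp_apply, ContinuousMap.coe_mk, stdSimplex.map_id_apply]
  congr 2
  apply Subtype.ext
  simp [mass]

theorem P_supp (H : C(X × unitInterval, Y)) (n : ℕ) (σ : C(Dl n, X)) :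
    ∀ τ ∈ (P H n (Finsupp.single σ 1)).support, range τ ⊆ H '' (range σ ×ˢ univ) := by
  classical
  intro τ hτ
  rw [P_single] at hτ
  obtain ⟨i, -, hi⟩ := Finset.mem_biUnion.1 (Finsupp.support_finsetSum hτ)
  have := Finsupp.support_single_subset hi
  simp only [Finset.mem_singleton] at this
  rw [this]
  exact gs_range H σ _ _

theorem bd_P (H : C(X × unitInterval, Y)) (n : ℕ) (c : Ch (n + 1) X) :
    bd (n + 1) (P H (n + 1) c) =
      push (H.comp ⟨fun x => (x, 1), by fun_prop⟩) (n + 1) c +
      push (H.comp ⟨fun x => (x, 0), by fun_prop⟩) (n + 1) c + P H n (bd n c) := by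
  induction c using Finsupp.induction_linear with
  | zero => simp
  | add f g hf hg =>
    simp only [map_add] at *
    rw [hf, hg]
    abel
  | single σ r =>
    have hr : Finsupp.single σ r = r • Finsupp.single σ (1 : ZMod 2) := by simp
    rw [hr]
    simp only [map_smul, ← smul_add]
    congr 1
    rw [P_single, map_sum, push_single, push_single, bd_single, map_sum]
    simp only [bd_single, P_single]
    rw [← es_zero, ← es_last]
    rw [prism_sum n (fun i j => Finsupp.single ((ps H σ i).comp (face (n + 1) j)) (1 : ZMod 2))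
      (fun i j => Finsupp.single (ps H (σ.comp (face n j)) i) (1 : ZMod 2))
      (fun m => Finsupp.single (es H σ m) (1 : ZMod 2))
      (fun i j h => by rw [ps_face_one H σ i j h]) (fun i j h => by rw [ps_face_two H σ i j h])
      (fun i => by rw [ps_face_three]) (fun i => by rw [ps_face_four])]
    rw [Finset.sum_comm]

theorem bd_P_zero (H : C(X × unitInterval, Y)) (c : Ch 0 X) :
    bd 0 (P H 0 c) = push (H.comp ⟨fun x => (x, 1), by fun_prop⟩) 0 c +
      push (H.comp ⟨fun x => (x, 0), by fun_prop⟩) 0 c := by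
  induction c using Finsupp.induction_linear with
  | zero => simp
  | add f g hf hg =>
    simp only [map_add] at *
    rw [hf, hg]
    abel
  | single σ r =>
    have hr : Finsupp.single σ r = r • Finsupp.single σ (1 : ZMod 2) := by simp
    rw [hr]
    simp only [map_smul, ← smul_add]
    congr 1
    rw [P_single, map_sum, push_single, push_single]
    simp only [bd_single]
    rw [← es_zero, ← es_last]
    have h0 := ps_face_three H σ 0
    have h1 := ps_face_four H σ 0
    have h0' : (ps H σ 0).comp (face 0 0) = es H σ 0 := h0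
    have h1' : (ps H σ 0).comp (face 0 (Fin.succ 0)) = es H σ (Fin.last 1) := h1
    simp only [Fin.sum_univ_succ, Fin.sum_univ_zero, add_zero]
    rw [h0', h1']

end Prism

/-- Node A1. -/
theorem nPrism : NPrism := fun _ _ _ _ H =>
  ⟨Prism.P H, Prism.bd_P_zero H, Prism.bd_P H, Prism.P_supp H⟩

end Crest.Agent.R224.T
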