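import Crest.Agent.R224.T.Basic
import Crest.Agent.R224.T.Prism

/-!
# R224 topological half, node A3 (NFill): cycles in a contractible space bound (helper543)
-/

set_option autoImplicit false

noncomputable section

open Topology Set Filter

namespace Crest.Agent.R224.T

namespace Fill

variable {X : Type} [TopologicalSpace X]

/-- constant simplex -/
def k (y : X) (m : ℕ) : C(Dl m, X) := ContinuousMap.const _ y

lemma push_const (y : X) (m : ℕ) (c : Ch m X) :
    push (ContinuousMap.const X y) m c =
      (Finsupp.linearCombination (ZMod 2) (fun _ : C(Dl m, X) => (1 : ZMod 2)) c) •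
        (Finsupp.single (k y m) (1 : ZMod 2) : Ch m X) := by
  refine chain_ind (P := fun c => push (ContinuousMap.const X y) m c =
      (Finsupp.linearCombination (ZMod 2) (fun _ : C(Dl m, X) => (1 : ZMod 2)) c) •
        (Finsupp.single (k y m) (1 : ZMod 2) : Ch m X)) c (by simp) ?_ ?_
  · intro a b ha hb
    simp only [map_add, ha, hb, add_smul]
  · intro σ
    rw [push_single]
    simp only [Finsupp.linearCombination_single, smul_eq_mul, mul_one, one_smul]
    rfl

lemma bd_k (y : X) (m : ℕ) : bd m (Finsupp.single (k y (m + 1)) (1 : ZMod 2)) =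
    ((m + 2 : ℕ) : ZMod 2) • (Finsupp.single (k y m) (1 : ZMod 2) : Ch m X) := by
  rw [bd_single]
  have h : ∀ i : Fin (m + 2), (k y (m + 1)).comp (face m i) = k y m := fun i => rfl
  simp only [h, Finset.sum_const, Finset.card_univ, Fintype.card_fin]
  rw [Nat.cast_smul_eq_nsmul]

end Fill

open Fill in
/-- Node A3. -/
theorem nFill (hP : NPrism) : NFill := by
  intro X _ _ n c hc
  obtain ⟨y, ⟨F⟩⟩ := id_nullhomotopic X
  let H : C(X × unitInterval, X) := F.toContinuousMap.comp ⟨fun p => (p.2, p.1), by fun_prop⟩
  obtain ⟨P, -, hP1, -⟩ := hP X X H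
  have h0 : (H.comp ⟨fun x => (x, 0), by fun_prop⟩ : C(X, X)) = ContinuousMap.id X := by
    ext x
    exact F.apply_zero x
  have h1 : (H.comp ⟨fun x => (x, 1), by fun_prop⟩ : C(X, X)) = ContinuousMap.const X y := by
    ext x
    exact F.apply_one x
  have h2 := hP1 n c
  rw [h0, h1, hc, map_zero, add_zero, push_id] at h2
  -- `h2 : bd (P c) = push const c + c`
  have h3 : ∃ b, bd (n + 1) b = push (ContinuousMap.const X y) (n + 1) c := by
    rcases Nat.even_or_odd n with he | ho
    · refine ⟨(Finsupp.linearCombination (ZMod 2) (fun _ : C(Dl (n + 1), X) => (1 : ZMod 2)) c) •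
        (Finsupp.single (k y (n + 2)) (1 : ZMod 2) : Ch (n + 2) X), ?_⟩
      rw [map_smul, bd_k, push_const]
      have : ((n + 1 + 2 : ℕ) : ZMod 2) = 1 := by
        rw [ZMod.natCast_eq_one_iff_odd]
        exact (he.add_one).add_even (by norm_num)
      rw [this, one_smul]
    · refine ⟨0, ?_⟩
      rw [map_zero, push_const]
      have h4 : bd n (push (ContinuousMap.const X y) (n + 1) c) = 0 := by
        rw [bd_push, hc, map_zero]
      rw [push_const, map_smul, bd_k] at h4
      have : ((n + 2 : ℕ) : ZMod 2) = 1 := by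
        rw [ZMod.natCast_eq_one_iff_odd]
        exact ho.add_even (by norm_num)
      rw [this, one_smul] at h4
      have h5 := DFunLike.congr_fun h4 (k y n)
      simp only [Finsupp.smul_apply, Finsupp.single_eq_same, smul_eq_mul, mul_one,
        Finsupp.coe_zero, Pi.zero_apply] at h5
      rw [h5, zero_smul]
  obtain ⟨b, hb⟩ := h3
  refine ⟨b + P (n + 1) c, ?_⟩
  rw [map_add, hb, h2, add_add_cancel]

end Crest.Agent.R224.T
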