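/-
R224 / S0346, topological half, node B1 (helper667): basic calculus of mod 2 singular chains used for the
local homology of Euclidean space.  Everything is in namespace `Crest.Agent.R224.T.Loc`.
-/
import Crest.Agent.R224.T.Iface
import Mathlib.Analysis.Convex.Contractible

set_option autoImplicit false

noncomputable section

open Topology Set Filter

namespace Crest.Agent.R224.T.Loc

variable {X : Type} [TopologicalSpace X] {Y : Type} [TopologicalSpace Y]
  {Z : Type} [TopologicalSpace Z]

/-- chains of characteristic two -/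
theorem add_self {n : ℕ} (c : Ch n X) : c + c = 0 := by
  ext σ
  simpa using CharTwo.add_self_eq_zero (c σ)

theorem add_cancel {n : ℕ} (a b : Ch n X) : a + b + b = a := by
  rw [add_assoc, add_self, add_zero]

theorem eq_of_add_eq_zero {n : ℕ} {a b : Ch n X} (h : a + b = 0) : a = b := by
  have := add_cancel a b
  rw [h, zero_add] at this
  exact this.symm

theorem bd_single (n : ℕ) (σ : C(Dl (n + 1), X)) :
    bd n (Finsupp.single σ 1) =
      ∑ i : Fin (n + 2), Finsupp.single (σ.comp (face n i)) (1 : ZMod 2) := by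
  simp [bd, Finsupp.linearCombination_single]

theorem push_single (f : C(X, Y)) (n : ℕ) (σ : C(Dl n, X)) (a : ZMod 2) :
    push f n (Finsupp.single σ a) = Finsupp.single (f.comp σ) a := by
  simp [push, Finsupp.lmapDomain_apply, Finsupp.mapDomain_single]

/-- induction principle: a property of linear operators -/
theorem lin_ext {n m : ℕ} {L L' : Ch n X →ₗ[ZMod 2] Ch m Y}
    (h : ∀ σ, L (Finsupp.single σ 1) = L' (Finsupp.single σ 1)) : L = L' := by
  refine Finsupp.lhom_ext' fun σ => LinearMap.ext_ring ?_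
  exact h σ

theorem bd_push (f : C(X, Y)) (n : ℕ) (c : Ch (n + 1) X) :
    bd n (push f (n + 1) c) = push f n (bd n c) := by
  have : (bd n).comp (push f (n + 1)) = (push f n).comp (bd n) := by
    refine lin_ext fun σ => ?_
    simp only [LinearMap.comp_apply, push_single, bd_single, map_sum]
    rfl
  exact congrArg (fun L : Ch (n + 1) X →ₗ[ZMod 2] Ch n Y => L c) this

theorem push_push (f : C(X, Y)) (g : C(Y, Z)) (n : ℕ) (c : Ch n X) :
    push g n (push f n c) = push (g.comp f) n c := by
  have : (push g n).comp (push f n) = push (g.comp f) n := by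
    refine lin_ext fun σ => ?_
    simp only [LinearMap.comp_apply, push_single]
    rfl
  exact congrArg (fun L : Ch n X →ₗ[ZMod 2] Ch n Z => L c) this

theorem push_id (n : ℕ) (c : Ch n X) : push (ContinuousMap.id X) n c = c := by
  have : push (ContinuousMap.id X) n = LinearMap.id := by
    refine lin_ext fun σ => ?_
    simp only [push_single, LinearMap.id_apply]
    rfl
  rw [this]; rfl

/-- two faces -/
theorem face_face (n : ℕ) (i : Fin (n + 3)) (j : Fin (n + 2)) :
    (face (n + 1) i).comp (face n j) =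
      (face (n + 1) (i.succAbove j)).comp (face n (j.predAbove i)) := by
  ext x : 1
  simp only [ContinuousMap.comp_apply, face, ContinuousMap.coe_mk, stdSimplex.map_comp_apply]
  congr 1
  funext k
  simp only [Function.comp_apply]
  exact (Fin.succAbove_succAbove_succAbove_predAbove i j k).symm

theorem bd_bd (n : ℕ) (c : Ch (n + 2) X) : bd n (bd (n + 1) c) = 0 := by
  have : (bd n).comp (bd (n + 1)) = (0 : Ch (n + 2) X →ₗ[ZMod 2] Ch n X) := by
    refine lin_ext fun σ => ?_
    simp only [LinearMap.comp_apply, bd_single, map_sum, LinearMap.zero_apply]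
    rw [← Finset.sum_product' (f := fun (i : Fin (n + 1 + 2)) (j : Fin (n + 2)) =>
      Finsupp.single ((σ.comp (face (n + 1) i)).comp (face n j)) (1 : ZMod 2))]
    refine Finset.sum_involution (fun p _ => (p.1.succAbove p.2, p.2.predAbove p.1)) ?_ ?_ ?_ ?_
    · rintro ⟨i, j⟩ -
      have : (σ.comp (face (n + 1) i)).comp (face n j) =
          (σ.comp (face (n + 1) (i.succAbove j))).comp (face n (j.predAbove i)) := by
        rw [ContinuousMap.comp_assoc, ContinuousMap.comp_assoc, face_face]
      simp only [this]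
      rw [← Finsupp.single_add]
      have h2 : (1 : ZMod 2) + 1 = 0 := by decide
      rw [h2, Finsupp.single_zero]
    · rintro ⟨i, j⟩ - - h
      exact Fin.succAbove_ne i j (congrArg Prod.fst h)
    · intro _ _; exact Finset.mem_univ _
    · rintro ⟨i, j⟩ -
      have h1 : (i.succAbove j).succAbove (j.predAbove i) = i :=
        Fin.succAbove_succAbove_predAbove i j
      have h2 : (j.predAbove i).predAbove (i.succAbove j) = j :=
        Fin.predAbove_predAbove_succAbove i j
      simp only [h1, h2]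
  exact congrArg (fun L : Ch (n + 2) X →ₗ[ZMod 2] Ch n X => L c) this

/-! ### chains in a subset -/

/-- the submodule of chains in `A` -/
abbrev sub (A : Set X) (n : ℕ) : Submodule (ZMod 2) (Ch n X) :=
  Finsupp.supported (ZMod 2) (ZMod 2) {σ : C(Dl n, X) | range σ ⊆ A}

theorem in_iff (A : Set X) {n : ℕ} (c : Ch n X) : In A c ↔ c ∈ sub A n := by
  rw [Finsupp.mem_supported]
  constructor
  · intro h σ hσ; exact h σ hσ
  · intro h σ hσ; exact h hσ

theorem in_zero (A : Set X) {n : ℕ} : In A (0 : Ch n X) := (in_iff _ _).2 (Submodule.zero_mem _)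

theorem in_add {A : Set X} {n : ℕ} {a b : Ch n X} (ha : In A a) (hb : In A b) : In A (a + b) :=
  (in_iff _ _).2 (Submodule.add_mem _ ((in_iff _ _).1 ha) ((in_iff _ _).1 hb))

theorem in_mono {A B : Set X} {n : ℕ} {a : Ch n X} (ha : In A a) (h : A ⊆ B) : In B a :=
  fun σ hσ => (ha σ hσ).trans h

theorem in_inter {A B : Set X} {n : ℕ} {a : Ch n X} (ha : In A a) (hb : In B a) :
    In (A ∩ B) a :=
  fun σ hσ => subset_inter (ha σ hσ) (hb σ hσ)

theorem in_single {A : Set X} {n : ℕ} {σ : C(Dl n, X)} (h : range σ ⊆ A) :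
    In A (Finsupp.single σ (1 : ZMod 2)) := by
  intro τ hτ
  have := Finsupp.support_single_subset hτ
  rw [Finset.mem_singleton] at this
  rw [this]; exact h

/-- a linear operator respects supports as soon as it does on simplices -/
theorem in_lin {A : Set X} {B : Set Y} {n m : ℕ} (L : Ch n X →ₗ[ZMod 2] Ch m Y)
    (h : ∀ σ : C(Dl n, X), range σ ⊆ A → In B (L (Finsupp.single σ 1))) {c : Ch n X}
    (hc : In A c) : In B (L c) := by
  rw [in_iff] at hc ⊢
  have hle : sub A n ≤ (sub B m).comap L := by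
    unfold sub
    rw [Finsupp.supported_eq_span_single, Submodule.span_le]
    rintro _ ⟨σ, hσ, rfl⟩
    exact (in_iff _ _).1 (h σ hσ)
  exact hle hc

theorem in_bd {A : Set X} {n : ℕ} {c : Ch (n + 1) X} (hc : In A c) : In A (T.bd n c) := by
  refine in_lin (T.bd n) (fun σ hσ => ?_) hc
  rw [bd_single, in_iff]
  refine Submodule.sum_mem _ fun i _ => ?_
  rw [← in_iff]
  refine in_single ?_
  rintro _ ⟨x, rfl⟩
  exact hσ ⟨_, rfl⟩

theorem in_push {A : Set X} {B : Set Y} {n : ℕ} {c : Ch n X} (hc : In A c) (f : C(X, Y))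
    (h : MapsTo f A B) : In B (T.push f n c) := by
  refine in_lin (T.push f n) (fun σ hσ => ?_) hc
  rw [push_single]
  refine in_single ?_
  rintro _ ⟨x, rfl⟩
  exact h (hσ ⟨x, rfl⟩)

/-- inclusion of a subset -/
abbrev inc (A : Set X) : C(A, X) := ⟨Subtype.val, continuous_subtype_val⟩

theorem in_lift {A : Set X} {n : ℕ} {c : Ch n X} (hc : In A c) :
    ∃ c' : Ch n A, T.push (inc A) n c' = c := by
  rw [in_iff] at hc
  have hle : sub A n ≤ LinearMap.range (T.push (inc A) n) := by
    unfold sub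
    rw [Finsupp.supported_eq_span_single, Submodule.span_le]
    rintro _ ⟨σ, hσ, rfl⟩
    refine ⟨Finsupp.single ⟨fun x => ⟨σ x, hσ ⟨x, rfl⟩⟩, by fun_prop⟩ 1, ?_⟩
    rw [push_single]
    rfl
  exact hle hc

theorem in_push_inc {A : Set X} {n : ℕ} (c' : Ch n A) : In A (T.push (inc A) n c') := by
  have h : In univ c' := fun σ _ => subset_univ _
  exact in_push h (inc A) (fun x _ => x.2)

theorem push_inc_injective (A : Set X) (n : ℕ) : Function.Injective (T.push (inc A) n) := by
  refine Finsupp.mapDomain_injective ?_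
  intro σ τ h
  ext x : 1
  have := congrArg (fun f : C(Dl n, X) => f x) h
  exact Subtype.ext this

/-- filling of cycles inside a contractible subset -/
theorem fill_in (hF : NFill) {A : Set X} (hA : ContractibleSpace A) {n : ℕ} {c : Ch (n + 1) X}
    (hc : In A c) (h0 : T.bd n c = 0) : ∃ b, In A b ∧ T.bd (n + 1) b = c := by
  obtain ⟨c', rfl⟩ := in_lift hc
  have h1 : T.bd n c' = 0 := by
    apply push_inc_injective A n
    rw [← bd_push, h0, map_zero]
  obtain ⟨b, hb⟩ := hF A n c' h1
  exact ⟨T.push (inc A) (n + 2) b, in_push_inc b, by rw [bd_push, hb]⟩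

/-- `c` is null modulo `A` iff its boundary bounds in `A` -/
theorem nul_iff (hF : NFill) [ContractibleSpace X] (A : Set X) {n : ℕ} (c : Ch (n + 1) X) :
    Nul A c ↔ ∃ e, In A e ∧ T.bd n e = T.bd n c := by
  constructor
  · rintro ⟨b, e, he, rfl⟩
    exact ⟨e, he, by rw [map_add, bd_bd, zero_add]⟩
  · rintro ⟨e, he, h⟩
    have h0 : T.bd n (c + e) = 0 := by rw [map_add, h, add_self]
    obtain ⟨b, hb⟩ := hF X n _ h0
    exact ⟨b, e, he, by rw [hb, add_cancel]⟩

theorem nul_add {A : Set X} {n : ℕ} {a b : Ch n X} (ha : Nul A a) (hb : Nul A b) :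
    Nul A (a + b) := by
  obtain ⟨x, e, he, rfl⟩ := ha
  obtain ⟨y, f, hf, rfl⟩ := hb
  exact ⟨x + y, e + f, in_add he hf, by rw [map_add]; abel⟩

theorem in_nul {A : Set X} {n : ℕ} {a : Ch n X} (ha : In A a) : Nul A a :=
  ⟨0, a, ha, by rw [map_zero, zero_add]⟩

theorem nul_add_in {A : Set X} {n : ℕ} {a b : Ch n X} (hb : In A b) : Nul A (a + b) ↔ Nul A a := by
  constructor
  · intro h
    have := nul_add h (in_nul hb)
    rwa [add_cancel] at this
  · intro h
    exact nul_add h (in_nul hb)

/-! ### prisms and subdivision of boundaries -/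

/-- prism package -/
theorem prism (hP : NPrism) (H : C(X × unitInterval, Y)) :
    ∃ P : ∀ n : ℕ, Ch n X →ₗ[ZMod 2] Ch (n + 1) Y,
    (∀ n (u : Ch (n + 1) X), T.bd n (P n (T.bd n u)) =
      T.push (H.comp ⟨fun x => (x, 1), by fun_prop⟩) n (T.bd n u) +
      T.push (H.comp ⟨fun x => (x, 0), by fun_prop⟩) n (T.bd n u)) ∧
    ∀ (A : Set X) (B : Set Y), (∀ x ∈ A, ∀ t, H (x, t) ∈ B) → ∀ n (c : Ch n X), In A c →
      In B (P n c) := by
  obtain ⟨P, h0, h1, h2⟩ := hP X Y H
  refine ⟨P, ?_, ?_⟩
  · intro n u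
    rcases n with _ | n
    · exact h0 _
    · rw [h1, bd_bd, map_zero, add_zero]
  · intro A B hAB n c hc
    refine in_lin (P n) (fun σ hσ => ?_) hc
    intro τ hτ
    refine (h2 n σ τ hτ).trans ?_
    rintro _ ⟨⟨x, t⟩, ⟨hx, -⟩, rfl⟩
    exact hAB x (hσ hx) t

theorem subOp_bdh (O : SubOp X) (n : ℕ) (u : Ch (n + 1) X) :
    T.bd n (O.h n (T.bd n u)) = T.bd n u + O.s n (T.bd n u) := by
  rcases n with _ | n
  · exact O.bd_h0 _
  · rw [O.bd_h, bd_bd, map_zero, add_zero]

theorem subOp_in_s (O : SubOp X) {A : Set X} {n : ℕ} {c : Ch n X} (hc : In A c) :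
    In A (O.s n c) := by
  refine in_lin (O.s n) (fun σ hσ => ?_) hc
  intro τ hτ
  exact (O.supp_s n σ τ hτ).trans hσ

theorem subOp_in_h (O : SubOp X) {A : Set X} {n : ℕ} {c : Ch n X} (hc : In A c) :
    In A (O.h n c) := by
  refine in_lin (O.h n) (fun σ hσ => ?_) hc
  intro τ hτ
  exact (O.supp_h n σ τ hτ).trans hσ

/-- splitting a small chain -/
theorem small_split {A B : Set X} {n : ℕ} {c : Ch n X} (hc : Small {A, B} c) :
    ∃ a b, In A a ∧ In B b ∧ c = a + b := by
  classical
  refine ⟨c.filter fun σ => range σ ⊆ A, c.filter fun σ => ¬ range σ ⊆ A, ?_, ?_, ?_⟩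
  · intro σ hσ
    rw [Finsupp.support_filter, Finset.mem_filter] at hσ
    exact hσ.2
  · intro σ hσ
    rw [Finsupp.support_filter, Finset.mem_filter] at hσ
    obtain ⟨U, hU, h⟩ := hc σ hσ.1
    rcases hU with rfl | rfl
    · exact absurd h hσ.2
    · exact h
  · exact (Finsupp.filter_add_filter_not c _).symm

/-- subdivision with respect to two open sets -/
theorem sub_two (hS : NSub) {A B : Set X} (hA : IsOpen A) (hB : IsOpen B) {n : ℕ} {c : Ch n X}
    (hc : In (A ∪ B) c) : ∃ O : SubOp X, ∃ a b, In A a ∧ In B b ∧ O.s n c = a + b := by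
  obtain ⟨O, hO⟩ := hS X
  have h := hO {A, B} (by rintro U (rfl | rfl) <;> assumption) n c (by rw [sUnion_pair]; exact hc)
  obtain ⟨k, hk⟩ := h.exists
  exact ⟨O k, small_split hk⟩

end Crest.Agent.R224.T.Loc
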