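/-
R224 / S0346, topological half, node B1 (helper667): the suspension step of the computation of the local
homology of Euclidean space at the origin.
-/
import Crest.Agent.R224.T.LocB

set_option autoImplicit false

noncomputable section

open Topology Set Filter

namespace Crest.Agent.R224.T.Loc

/-! ### coordinates -/

/-- first coordinate -/
def tt {n : ℕ} (x : EE (n + 1)) : ℝ := x 0

/-- the other coordinates -/
def pp {n : ℕ} (x : EE (n + 1)) : EE n := WithLp.toLp 2 fun i => x i.succ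

/-- the point with given coordinates -/
def mk {n : ℕ} (t : ℝ) (y : EE n) : EE (n + 1) := WithLp.toLp 2 (Fin.cons t fun i => y i)

@[simp] theorem tt_mk {n : ℕ} (t : ℝ) (y : EE n) : tt (mk t y) = t := rfl

@[simp] theorem pp_mk {n : ℕ} (t : ℝ) (y : EE n) : pp (mk t y) = y := rfl

@[simp] theorem mk_tt_pp {n : ℕ} (x : EE (n + 1)) : mk (tt x) (pp x) = x := by
  ext i
  refine Fin.cases ?_ (fun j => ?_) i
  · rfl
  · rfl

theorem continuous_tt {n : ℕ} : Continuous (tt : EE (n + 1) → ℝ) := by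
  unfold tt; fun_prop

theorem continuous_pp {n : ℕ} : Continuous (pp : EE (n + 1) → EE n) := by
  unfold pp; fun_prop

theorem continuous_mk {n : ℕ} : Continuous fun p : ℝ × EE n => mk p.1 p.2 := by
  unfold mk
  refine (PiLp.continuous_toLp 2 _).comp (continuous_pi fun i => ?_)
  refine Fin.cases ?_ (fun j => ?_) i
  · simpa using continuous_fst
  · simp only [Fin.cons_succ]
    fun_prop

theorem eq_zero_iff {n : ℕ} (x : EE (n + 1)) : x = 0 ↔ tt x = 0 ∧ pp x = 0 := by
  constructor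
  · rintro rfl
    exact ⟨rfl, rfl⟩
  · rintro ⟨h1, h2⟩
    rw [← mk_tt_pp x, h1, h2]
    ext i
    refine Fin.cases ?_ (fun j => ?_) i
    · rfl
    · rfl

@[simp] theorem tt_comb {n : ℕ} (a b : ℝ) (x y : EE (n + 1)) :
    tt (a • x + b • y) = a * tt x + b * tt y := rfl

@[simp] theorem pp_comb {n : ℕ} (a b : ℝ) (x y : EE (n + 1)) :
    pp (a • x + b • y) = a • pp x + b • pp y := rfl

/-- projection as a continuous map -/
def ppc (n : ℕ) : C(EE (n + 1), EE n) := ⟨pp, continuous_pp⟩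

/-- inclusion at height `t` -/
def mkc (n : ℕ) (t : ℝ) : C(EE n, EE (n + 1)) :=
  ⟨fun y => mk t y, continuous_mk.comp (continuous_const.prodMk continuous_id)⟩

/-- `x ≠ 0 or t > 0` -/
def Ap (n : ℕ) : Set (EE (n + 1)) := {x | pp x ≠ 0 ∨ 0 < tt x}

/-- `x ≠ 0 or t < 0` -/
def Am (n : ℕ) : Set (EE (n + 1)) := {x | pp x ≠ 0 ∨ tt x < 0}

/-- `x ≠ 0` -/
def Bz (n : ℕ) : Set (EE (n + 1)) := {x | pp x ≠ 0}

theorem isOpen_Bz (n : ℕ) : IsOpen (Bz n) := by
  have : Bz n = pp ⁻¹' {0}ᶜ := rfl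
  rw [this]
  exact isOpen_compl_singleton.preimage continuous_pp

theorem isOpen_Ap (n : ℕ) : IsOpen (Ap n) :=
  (isOpen_Bz n).union (isOpen_lt continuous_const continuous_tt)

theorem isOpen_Am (n : ℕ) : IsOpen (Am n) :=
  (isOpen_Bz n).union (isOpen_lt continuous_tt continuous_const)

theorem union_eq (n : ℕ) : Ap n ∪ Am n = {0}ᶜ := by
  ext x
  simp only [Ap, Am, mem_union, mem_ofPred_eq, mem_compl_iff, mem_singleton_iff, eq_zero_iff]
  constructor
  · rintro ((h | h) | (h | h)) ⟨h1, h2⟩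
    · exact h h2
    · exact absurd h1 h.ne'
    · exact h h2
    · exact absurd h1 h.ne
  · intro h
    by_cases h2 : pp x = 0
    · rcases lt_trichotomy (tt x) 0 with h3 | h3 | h3
      · exact Or.inr (Or.inr h3)
      · exact absurd ⟨h3, h2⟩ h
      · exact Or.inl (Or.inr h3)
    · exact Or.inl (Or.inl h2)

theorem inter_sub (n : ℕ) : Ap n ∩ Am n ⊆ Bz n := by
  rintro x ⟨h1 | h1, h2 | h2⟩
  · exact h1
  · exact h1
  · exact h2
  · exact absurd (h1.trans h2) (lt_irrefl _)

theorem Bz_sub_Ap (n : ℕ) : Bz n ⊆ Ap n := fun _ h => Or.inl h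
theorem Bz_sub_Am (n : ℕ) : Bz n ⊆ Am n := fun _ h => Or.inl h
theorem Ap_sub (n : ℕ) : Ap n ⊆ {0}ᶜ := by rw [← union_eq]; exact subset_union_left
theorem Am_sub (n : ℕ) : Am n ⊆ {0}ᶜ := by rw [← union_eq]; exact subset_union_right

theorem contr_Ap (n : ℕ) : ContractibleSpace (Ap n) := by
  refine StarConvex.contractibleSpace (x := mk 1 0) ?_ ⟨mk 1 0, Or.inr ?_⟩
  · intro y hy a b ha hb hab
    by_cases hb0 : b = 0
    · subst hb0
      have : a = 1 := by linarith
      subst this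
      right
      simp
    · have hb' : 0 < b := lt_of_le_of_ne hb (Ne.symm hb0)
      by_cases h2 : pp y = 0
      · right
        have h3 : 0 < tt y := by
          rcases hy with hy | hy
          · exact absurd h2 hy
          · exact hy
        simp only [tt_comb, tt_mk, mul_one]
        have := mul_pos hb' h3
        linarith
      · left
        simp only [pp_comb, pp_mk, smul_zero, zero_add]
        exact smul_ne_zero hb0 h2
  · simp

theorem contr_Am (n : ℕ) : ContractibleSpace (Am n) := by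
  refine StarConvex.contractibleSpace (x := mk (-1) 0) ?_ ⟨mk (-1) 0, Or.inr ?_⟩
  · intro y hy a b ha hb hab
    by_cases hb0 : b = 0
    · subst hb0
      have : a = 1 := by linarith
      subst this
      right
      simp
    · have hb' : 0 < b := lt_of_le_of_ne hb (Ne.symm hb0)
      by_cases h2 : pp y = 0
      · right
        have h3 : tt y < 0 := by
          rcases hy with hy | hy
          · exact absurd h2 hy
          · exact hy
        simp only [tt_comb, tt_mk, mul_neg, mul_one]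
        have := mul_neg_of_pos_of_neg hb' h3
        linarith
      · left
        simp only [pp_comb, pp_mk, smul_zero, zero_add]
        exact smul_ne_zero hb0 h2
  · simp

/-! ### the retraction of `{x ≠ 0}` -/

/-- `(x, s) ↦ (s * t, x)` -/
def HB (n : ℕ) : C(EE (n + 1) × unitInterval, EE (n + 1)) :=
  ⟨fun p => mk (p.2 * tt p.1) (pp p.1), continuous_mk.comp
    (((continuous_subtype_val.comp continuous_snd).mul (continuous_tt.comp continuous_fst)).prodMk
      (continuous_pp.comp continuous_fst))⟩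

/-- `(y, s) ↦ (2s - 1, y)` -/
def HC (n : ℕ) : C(EE n × unitInterval, EE (n + 1)) :=
  ⟨fun p => mk (2 * p.2 - 1) p.1, continuous_mk.comp
    (((continuous_const.mul (continuous_subtype_val.comp continuous_snd)).sub
      continuous_const).prodMk continuous_fst)⟩

/-- cycles of the form `bd u` in `{x ≠ 0}` are homologous to their projections -/
theorem retract (hP : NPrism) (n : ℕ) : ∃ P : ∀ q : ℕ, Ch q (EE (n + 1)) →ₗ[ZMod 2] Ch (q + 1) (EE (n + 1)),
    (∀ q (u : Ch (q + 1) (EE (n + 1))), T.bd q (P q (T.bd q u)) =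
      T.bd q u + T.push (mkc n 0) q (T.push (ppc n) q (T.bd q u))) ∧
    ∀ q (c : Ch q (EE (n + 1))), In (Bz n) c → In (Bz n) (P q c) := by
  obtain ⟨P, h1, h2⟩ := prism hP (HB n)
  refine ⟨P, ?_, fun q c hc => h2 (Bz n) (Bz n) (fun x hx t => hx) q c hc⟩
  intro q u
  rw [h1 q u]
  have e1 : ((HB n).comp ⟨fun x => (x, 1), by fun_prop⟩) = ContinuousMap.id _ := by
    ext1 x
    simp [HB]
  have e2 : ((HB n).comp ⟨fun x => (x, 0), by fun_prop⟩) = (mkc n 0).comp (ppc n) := by
    ext1 x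
    simp [HB, mkc, ppc]
  rw [e1, e2, push_id, push_push]

/-! ### suspension relation -/

/-- `c'` is a desuspension of `c` -/
def Susp (d : ℕ) {q : ℕ} (c : Ch (q + 2) (EE (d + 1))) (c' : Ch (q + 1) (EE d)) : Prop :=
  ∃ (u v : Ch (q + 1) (EE (d + 1))) (w : Ch (q + 2) (EE (d + 1))), In (Ap d) u ∧ In (Am d) v ∧
    In {0}ᶜ w ∧ T.bd (q + 1) c = u + v + T.bd (q + 1) w ∧ c' = T.push (ppc d) (q + 1) u

theorem Susp.add {d q : ℕ} {c1 c2 : Ch (q + 2) (EE (d + 1))} {c1' c2' : Ch (q + 1) (EE d)}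
    (h1 : Susp d c1 c1') (h2 : Susp d c2 c2') : Susp d (c1 + c2) (c1' + c2') := by
  obtain ⟨u1, v1, w1, hu1, hv1, hw1, e1, rfl⟩ := h1
  obtain ⟨u2, v2, w2, hu2, hv2, hw2, e2, rfl⟩ := h2
  refine ⟨u1 + u2, v1 + v2, w1 + w2, in_add hu1 hu2, in_add hv1 hv2, in_add hw1 hw2, ?_, ?_⟩
  · rw [map_add, map_add, e1, e2]; abel
  · rw [map_add]

instance contrEE (m : ℕ) : ContractibleSpace (EE m) := inferInstance

theorem mapsTo_ppc (d : ℕ) : MapsTo (ppc d) (Bz d) {0}ᶜ := fun _ h => h

/-- the boundary of the positive half lies in `{x ≠ 0}` -/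
theorem bd_half {d q : ℕ} {u v : Ch (q + 1) (EE (d + 1))} (hu : In (Ap d) u) (hv : In (Am d) v)
    (h : T.bd q u = T.bd q v) : In (Bz d) (T.bd q u) := by
  refine in_mono (in_inter (in_bd hu) ?_) (inter_sub d)
  rw [h]
  exact in_bd hv

theorem Susp.bd_eq {d q : ℕ} {c : Ch (q + 2) (EE (d + 1))} {u v : Ch (q + 1) (EE (d + 1))}
    {w : Ch (q + 2) (EE (d + 1))} (h : T.bd (q + 1) c = u + v + T.bd (q + 1) w) :
    T.bd q u = T.bd q v := by
  apply eq_of_add_eq_zero
  have h1 := congrArg (T.bd q) h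
  rw [bd_bd, map_add, map_add, bd_bd, add_zero] at h1
  exact h1.symm

theorem Susp.rc {d q : ℕ} {c : Ch (q + 2) (EE (d + 1))} {c' : Ch (q + 1) (EE d)}
    (h : Susp d c c') : RC {0}ᶜ c' := by
  obtain ⟨u, v, w, hu, hv, hw, e, rfl⟩ := h
  have h1 := bd_half hu hv (Susp.bd_eq e)
  rw [RC, bd_push]
  exact in_push h1 (ppc d) (mapsTo_ppc d)

theorem Susp.nul (hP : NPrism) (hS : NSub) (hF : NFill) {d q : ℕ} {c : Ch (q + 2) (EE (d + 1))}
    {c' : Ch (q + 1) (EE d)} (h : Susp d c c') : Nul {0}ᶜ c ↔ Nul {0}ᶜ c' := by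
  obtain ⟨u, v, w, hu, hv, hw, e, rfl⟩ := h
  have huv := Susp.bd_eq e
  have hB := bd_half hu hv huv
  obtain ⟨P, hP1, hP2⟩ := retract hP d
  have e' : T.bd (q + 1) (c + w) = u + v := by
    rw [map_add, e, add_cancel]
  rw [← nul_add_in hw, nul_iff hF, nul_iff hF, e']
  constructor
  · rintro ⟨g, hg, eg⟩
    -- subdivide
    rw [← union_eq] at hg
    obtain ⟨O, a, b, ha, hb, eab⟩ := sub_two hS (isOpen_Ap d) (isOpen_Am d) hg
    have h1 : T.bd (q + 1) a + T.bd (q + 1) b = O.s (q + 1) u + O.s (q + 1) v := by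
      rw [← map_add, ← eab, O.bd_s, eg, map_add]
    set y := O.s (q + 1) u + T.bd (q + 1) a with hy
    have hy' : y = O.s (q + 1) v + T.bd (q + 1) b := by
      apply eq_of_add_eq_zero
      rw [hy]
      have : O.s (q + 1) u + T.bd (q + 1) a + (O.s (q + 1) v + T.bd (q + 1) b) =
          (T.bd (q + 1) a + T.bd (q + 1) b) + (O.s (q + 1) u + O.s (q + 1) v) := by abel
      rw [this, h1, add_self]
    have hyB : In (Bz d) y := by
      refine in_mono (in_inter ?_ ?_) (inter_sub d)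
      · rw [hy]; exact in_add (subOp_in_s O hu) (in_bd ha)
      · rw [hy']; exact in_add (subOp_in_s O hv) (in_bd hb)
    have hyb : T.bd q y = O.s q (T.bd q u) := by
      rw [hy, map_add, bd_bd, add_zero, O.bd_s]
    have hfin : T.bd q (y + O.h q (T.bd q u)) = T.bd q u := by
      rw [map_add, hyb, subOp_bdh, add_comm (T.bd q u), ← add_assoc, add_self, zero_add]
    refine ⟨T.push (ppc d) (q + 1) (y + O.h q (T.bd q u)), ?_, ?_⟩
    · exact in_push (in_add hyB (subOp_in_h O hB)) (ppc d) (mapsTo_ppc d)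
    · rw [bd_push, hfin, bd_push]
  · rintro ⟨g, hg, eg⟩
    rw [bd_push] at eg
    set y := T.push (mkc d 0) (q + 1) g + P q (T.bd q u) with hy
    have hyB : In (Bz d) y := by
      refine in_add (in_push hg (mkc d 0) ?_) (hP2 q _ hB)
      intro x hx
      exact hx
    have hyb : T.bd q y = T.bd q u := by
      rw [hy, map_add, bd_push, eg, hP1, add_comm (T.bd q u), ← add_assoc, add_self, zero_add]
    obtain ⟨a, ha, ea⟩ := fill_in hF (contr_Ap d) (c := u + y) (in_add hu (in_mono hyB (Bz_sub_Ap d)))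
      (by rw [map_add, hyb, add_self])
    obtain ⟨b, hb, eb⟩ := fill_in hF (contr_Am d) (c := v + y) (in_add hv (in_mono hyB (Bz_sub_Am d)))
      (by rw [map_add, hyb, huv, add_self])
    refine ⟨a + b, in_add (in_mono ha (Ap_sub d)) (in_mono hb (Am_sub d)), ?_⟩
    rw [map_add, ea, eb]
    have : u + y + (v + y) = u + v + (y + y) := by abel
    rw [this, add_self, add_zero]

theorem Susp.exists (hS : NSub) {d q : ℕ} {c : Ch (q + 2) (EE (d + 1))} (hc : RC {0}ᶜ c) :
    ∃ c', Susp d c c' := by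
  have hc' : In (Ap d ∪ Am d) (T.bd (q + 1) c) := by rw [union_eq]; exact hc
  obtain ⟨O, a, b, ha, hb, eab⟩ := sub_two hS (isOpen_Ap d) (isOpen_Am d) hc'
  refine ⟨_, a, b, O.h (q + 1) (T.bd (q + 1) c), ha, hb, subOp_in_h O hc, ?_, rfl⟩
  rw [subOp_bdh, ← eab, add_comm (T.bd (q + 1) c), ← add_assoc, add_self, zero_add]

/-- suspension of a relative cycle -/
theorem Susp.of (hP : NPrism) (hF : NFill) {d q : ℕ} (c' : Ch (q + 1) (EE d))
    (hc' : RC {0}ᶜ c') : ∃ c : Ch (q + 2) (EE (d + 1)), RC {0}ᶜ c ∧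
      ∃ e, In {0}ᶜ e ∧ Susp d c (c' + e) := by
  obtain ⟨P, h1, h2⟩ := prism hP (HC d)
  have e1 : ((HC d).comp ⟨fun x => (x, 1), by fun_prop⟩) = mkc d 1 := by
    ext1 x
    simp only [HC, mkc, ContinuousMap.comp_apply, ContinuousMap.coe_mk, Set.Icc.coe_one]
    norm_num
  have e2 : ((HC d).comp ⟨fun x => (x, 0), by fun_prop⟩) = mkc d (-1) := by
    ext1 x
    simp only [HC, mkc, ContinuousMap.comp_apply, ContinuousMap.coe_mk, Set.Icc.coe_zero]
    norm_num
  have h3 := h1 q c'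
  rw [e1, e2] at h3
  have hPB : In (Bz d) (P q (T.bd q c')) :=
    h2 {0}ᶜ (Bz d) (fun x hx t => hx) q _ hc'
  set u := T.push (mkc d 1) (q + 1) c' + P q (T.bd q c') with hu
  set v := T.push (mkc d (-1)) (q + 1) c' with hv
  have huI : In (Ap d) u := by
    refine in_add ?_ (in_mono hPB (Bz_sub_Ap d))
    have : In univ c' := fun σ _ => subset_univ _
    refine in_push this (mkc d 1) (fun x _ => Or.inr ?_)
    show (0 : ℝ) < 1
    norm_num
  have hvI : In (Am d) v := by
    have : In univ c' := fun σ _ => subset_univ _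
    refine in_push this (mkc d (-1)) (fun x _ => Or.inr ?_)
    show (-1 : ℝ) < 0
    norm_num
  have huv : T.bd q (u + v) = 0 := by
    rw [map_add, hu, hv, map_add, bd_push, bd_push, h3]
    have : ∀ a b : Ch q (EE (d + 1)), a + (a + b) + b = 0 := by
      intro a b
      have : a + (a + b) + b = (a + a) + (b + b) := by abel
      rw [this, add_self, add_self, add_zero]
    exact this _ _
  obtain ⟨c, hc⟩ := hF (EE (d + 1)) q (u + v) huv
  refine ⟨c, ?_, T.push (ppc d) (q + 1) (P q (T.bd q c')), in_push hPB (ppc d) (mapsTo_ppc d),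
    u, v, 0, huI, hvI, in_zero _, ?_, ?_⟩
  · rw [RC, hc]
    exact in_add (in_mono huI (Ap_sub d)) (in_mono hvI (Am_sub d))
  · rw [hc, map_zero, add_zero]
  · rw [hu, map_add, push_push]
    have : (ppc d).comp (mkc d 1) = ContinuousMap.id _ := by
      ext1 x
      simp [ppc, mkc]
    rw [this, push_id]

/-- the suspension step -/
theorem nLoc_succ (hP : NPrism) (hS : NSub) (hF : NFill) (d : ℕ) (h : NLoc d)
    (h1 : ∀ c : Ch 1 (EE (d + 2)), RC {0}ᶜ c → Nul {0}ᶜ c) : NLoc (d + 1) := by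
  obtain ⟨hlow, ⟨g, hg, hg'⟩, htwo⟩ := h
  refine ⟨?_, ?_, ?_⟩
  · intro q c hq hc
    rcases q with _ | q
    · exact h1 c hc
    · obtain ⟨c', hc'⟩ := Susp.exists hS hc
      rw [hc'.nul hP hS hF]
      exact hlow q c' (fun e => hq (by rw [e])) hc'.rc
  · obtain ⟨c, hc, e, he, hs⟩ := Susp.of hP hF g hg
    refine ⟨c, hc, ?_⟩
    rw [hs.nul hP hS hF, nul_add_in he]
    exact hg'
  · intro c1 c2 hc1 hc2 hn1 hn2
    obtain ⟨c1', hs1⟩ := Susp.exists hS hc1
    obtain ⟨c2', hs2⟩ := Susp.exists hS hc2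
    rw [hs1.nul hP hS hF] at hn1
    rw [hs2.nul hP hS hF] at hn2
    rw [(hs1.add hs2).nul hP hS hF]
    exact htwo c1' c2' hs1.rc hs2.rc hn1 hn2

end Crest.Agent.R224.T.Loc
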