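/-
R224 / S0346, topological half, node B1 NLocAll (helper667, base case and degree one by helper551).
-/
import Crest.Agent.R224.T.LocSusp
import Crest.Agent.R224.T.LocBase

set_option autoImplicit false

namespace Crest.Agent.R224.T

/-- B1: local homology of Euclidean space at the origin, in every dimension -/
theorem nLocAll (hP : NPrism) (hS : NSub) (hF : NFill) : NLocAll := by
  intro d
  induction d with
  | zero => exact LB.nLoc_zero hF
  | succ d ih => exact Loc.nLoc_succ hP hS hF d ih (LB.loc_one hF d)

end Crest.Agent.R224.T
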