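/-
R224 / S0346 : node C1 (helper599): local homology of a manifold.
-/
import Crest.Agent.R224.T.Iface
import Crest.Agent.R224.T.Basic

set_option autoImplicit false

noncomputable section

open Topology Set Filter

namespace Crest.Agent.R224.T

namespace Man

theorem mapsTo_compl {X Y : Type} {f : X → Y} (hf : Function.Injective f) (L : Set X) :
    MapsTo f Lᶜ (f '' L)ᶜ := by
  intro x hx ⟨y, hy, hyx⟩
  exact hx (hf hyx ▸ hy)

/-- transfer of relative cycles between two spaces having a common open subspace -/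
theorem transfer (hExc : NExc) {X Y Z : Type} [TopologicalSpace X] [TopologicalSpace Y]
    [TopologicalSpace Z] (f : C(X, Y)) (g : C(X, Z)) (hf : IsOpenEmbedding f)
    (hg : IsOpenEmbedding g) (L : Set X) (hLf : IsClosed (f '' L)) (q : ℕ) (c : Ch (q + 1) Y)
    (hc : RC (f '' L)ᶜ c) :
    ∃ c' : Ch (q + 1) Z, RC (g '' L)ᶜ c' ∧
      ∀ M : Set X, M ⊆ L → IsClosed (f '' M) → IsClosed (g '' M) →
        (Nul (f '' M)ᶜ c ↔ Nul (g '' M)ᶜ c') := by
  obtain ⟨c₀, h0, h1⟩ := (hExc X Y f hf L hLf q).1 c hc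
  refine ⟨push g (q + 1) c₀, h0.push (mapsTo_compl hg.injective L), ?_⟩
  intro M hM hMf hMg
  have hrc : RC Mᶜ c₀ := h0.mono (compl_subset_compl.2 hM)
  have h2 : Nul (f '' M)ᶜ (c + push f (q + 1) c₀) :=
    h1.mono (compl_subset_compl.2 (image_mono hM))
  rw [Nul_congr h2, (hExc X Y f hf M hMf q).2 c₀ hrc, (hExc X Z g hg M hMg q).2 c₀ hrc]

/-- a homeomorphism preserves `Nul` -/
theorem Nul_homeo {X Y : Type} [TopologicalSpace X] [TopologicalSpace Y] (t : X ≃ₜ Y) (A : Set X)
    {n : ℕ} (c : Ch n X) : Nul (t '' A)ᶜ (push ⟨t, t.continuous⟩ n c) ↔ Nul Aᶜ c := by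
  constructor
  · intro h
    have h1 := h.push (f := ⟨t.symm, t.symm.continuous⟩) (B := Aᶜ) (by
      intro y hy hy'
      exact hy ⟨t.symm y, hy', by simp⟩)
    rw [push_push] at h1
    have h2 : (ContinuousMap.comp ⟨t.symm, t.symm.continuous⟩ ⟨t, t.continuous⟩ : C(X, X)) =
        ContinuousMap.id X := by
      ext x; simp
    rwa [h2, push_id] at h1
  · intro h
    exact h.push (mapsTo_compl t.injective A)

theorem RC_homeo {X Y : Type} [TopologicalSpace X] [TopologicalSpace Y] (t : X ≃ₜ Y) (A : Set X)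
    {n : ℕ} {c : Ch (n + 1) X} (h : RC Aᶜ c) : RC (t '' A)ᶜ (push ⟨t, t.continuous⟩ (n + 1) c) :=
  h.push (mapsTo_compl t.injective A)

/-- `NLoc` at an arbitrary point -/
theorem loc_at {d : ℕ} (hLoc : NLoc d) (p : EE (d + 1)) :
    (∀ q (c : Ch (q + 1) (EE (d + 1))), q ≠ d → RC {p}ᶜ c → Nul {p}ᶜ c) ∧
    (∀ c c' : Ch (d + 1) (EE (d + 1)), RC {p}ᶜ c → RC {p}ᶜ c' → ¬ Nul {p}ᶜ c → ¬ Nul {p}ᶜ c' →
      Nul {p}ᶜ (c + c')) := by
  set t : EE (d + 1) ≃ₜ EE (d + 1) := Homeomorph.addRight (-p) with ht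
  have htp : t '' {p} = {0} := by
    rw [image_singleton]; simp [ht]
  refine ⟨fun q c hq hc => ?_, fun c c' hc hc' hn hn' => ?_⟩
  · have h1 := RC_homeo t {p} hc
    rw [htp] at h1
    have h2 := hLoc.1 q _ hq h1
    rw [← htp, Nul_homeo] at h2
    exact h2
  · have h1 := RC_homeo t {p} hc
    have h1' := RC_homeo t {p} hc'
    rw [← Nul_homeo t] at hn hn'
    rw [htp] at h1 h1' hn hn'
    have h2 := hLoc.2.2 _ _ h1 h1' hn hn'
    rw [← map_add, ← htp, Nul_homeo] at h2
    exact h2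

section

variable {d : ℕ} {Y : Type} [TopologicalSpace Y] [ChartedSpace (EE (d + 1)) Y]

/-- chart domain -/
abbrev Dom (d : ℕ) {Y : Type} [TopologicalSpace Y] [ChartedSpace (EE (d + 1)) Y] (p : Y) : Type :=
  (chartAt (EE (d + 1)) p).source

/-- inclusion in the manifold -/
def fm (d : ℕ) {Y : Type} [TopologicalSpace Y] [ChartedSpace (EE (d + 1)) Y] (p : Y) :
    C(Dom d p, Y) := ⟨Subtype.val, continuous_subtype_val⟩

/-- the chart -/
def gm (d : ℕ) {Y : Type} [TopologicalSpace Y] [ChartedSpace (EE (d + 1)) Y] (p : Y) :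
    C(Dom d p, EE (d + 1)) :=
  ⟨fun x => chartAt (EE (d + 1)) p x, by
    exact (chartAt (EE (d + 1)) p).continuousOn.domRestrict⟩

theorem fm_open (p : Y) : IsOpenEmbedding (fm d p) :=
  (chartAt (EE (d + 1)) p).open_source.isOpenEmbedding_subtypeVal

theorem gm_open (p : Y) : IsOpenEmbedding (gm d p) :=
  (chartAt (EE (d + 1)) p).isOpenEmbedding_restrict

end

end Man

open Man in
/-- node C1 -/
theorem man_holds (hExc : NExc) (hStar : NStar) (hLoc : NLocAll) : NMan := by
  intro d Y _ _ _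
  have key : ∀ (q : ℕ) (p : Y) (c : Ch (q + 1) Y), RC {p}ᶜ c →
      ∃ c' : Ch (q + 1) (EE (d + 1)), RC {chartAt (EE (d + 1)) p p}ᶜ c' ∧
        (Nul {p}ᶜ c ↔ Nul {chartAt (EE (d + 1)) p p}ᶜ c') := by
    intro q p c hc
    have hx : p ∈ (chartAt (EE (d + 1)) p).source := mem_chart_source _ p
    have h1 : fm d p '' {⟨p, hx⟩} = {p} := by rw [image_singleton]; rfl
    have h2 : gm d p '' {⟨p, hx⟩} = {chartAt (EE (d + 1)) p p} := by rw [image_singleton]; rfl
    obtain ⟨c', h3, h4⟩ := transfer hExc (fm d p) (gm d p) (fm_open p) (gm_open p) {⟨p, hx⟩}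
      (by rw [h1]; exact isClosed_singleton) q c (by rw [h1]; exact hc)
    have h5 := h4 _ le_rfl (by rw [h1]; exact isClosed_singleton)
      (by rw [h2]; exact isClosed_singleton)
    rw [h1, h2] at h5
    rw [h2] at h3
    exact ⟨c', h3, h5⟩
  refine ⟨?_, ?_, ?_⟩
  · intro q hq p c hc
    obtain ⟨c', h1, h2⟩ := key q p c hc
    exact h2.2 ((loc_at (hLoc d) _).1 q c' hq h1)
  · intro p c c' hc hc' hn hn'
    have hx : p ∈ (chartAt (EE (d + 1)) p).source := mem_chart_source _ p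
    have h1 : fm d p '' {⟨p, hx⟩} = {p} := by rw [image_singleton]; rfl
    have h2 : gm d p '' {⟨p, hx⟩} = {chartAt (EE (d + 1)) p p} := by rw [image_singleton]; rfl
    have hcl1 : IsClosed (fm d p '' {⟨p, hx⟩}) := by rw [h1]; exact isClosed_singleton
    have hcl2 : IsClosed (gm d p '' {⟨p, hx⟩}) := by rw [h2]; exact isClosed_singleton
    obtain ⟨a, ha, ha'⟩ := (hExc _ Y (fm d p) (fm_open p) {⟨p, hx⟩} hcl1 d).1 c (by rwa [h1])
    obtain ⟨b, hb, hb'⟩ := (hExc _ Y (fm d p) (fm_open p) {⟨p, hx⟩} hcl1 d).1 c' (by rwa [h1])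
    rw [h1] at ha' hb'
    have e1 := (hExc _ Y (fm d p) (fm_open p) {⟨p, hx⟩} hcl1 d).2
    have e2 := (hExc _ _ (gm d p) (gm_open p) {⟨p, hx⟩} hcl2 d).2
    rw [h1] at e1
    rw [h2] at e2
    have hna : ¬ Nul {chartAt (EE (d + 1)) p p}ᶜ (push (gm d p) (d + 1) a) := by
      rw [e2 a ha, ← e1 a ha, ← Nul_congr ha']; exact hn
    have hnb : ¬ Nul {chartAt (EE (d + 1)) p p}ᶜ (push (gm d p) (d + 1) b) := by
      rw [e2 b hb, ← e1 b hb, ← Nul_congr hb']; exact hn'
    have hra := ha.push (B := {chartAt (EE (d + 1)) p p}ᶜ) (f := gm d p) (by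
      rw [← h2]; exact mapsTo_compl (gm_open p).injective _)
    have hrb := hb.push (B := {chartAt (EE (d + 1)) p p}ᶜ) (f := gm d p) (by
      rw [← h2]; exact mapsTo_compl (gm_open p).injective _)
    have h3 := (loc_at (hLoc d) _).2 _ _ hra hrb hna hnb
    rw [← map_add, e2 (a + b) (ha.add hb), ← e1 (a + b) (ha.add hb), map_add] at h3
    have h4 := (ha'.add hb').add h3
    have h5 : c + push (fm d p) (d + 1) a + (c' + push (fm d p) (d + 1) b) +
        (push (fm d p) (d + 1) a + push (fm d p) (d + 1) b) = c + c' := by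
      have e3 := add_self (push (fm d p) (d + 1) a)
      have e4 := add_self (push (fm d p) (d + 1) b)
      calc _ = c + c' + (push (fm d p) (d + 1) a + push (fm d p) (d + 1) a) +
            (push (fm d p) (d + 1) b + push (fm d p) (d + 1) b) := by abel
        _ = _ := by rw [e3, e4, add_zero, add_zero]
    rwa [h5] at h4
  · intro c p hc
    set φ := chartAt (EE (d + 1)) p with hφ
    obtain ⟨N, hN, hNc⟩ := In.exists_nhds hc
    have hx : p ∈ φ.source := mem_chart_source _ p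
    -- a closed ball in the chart
    have hT : φ.target ∩ φ.symm ⁻¹' N ∈ 𝓝 (φ p) := by
      refine inter_mem (φ.open_target.mem_nhds (φ.map_source hx)) ?_
      have h1 : ContinuousAt φ.symm (φ p) := φ.continuousAt_symm (φ.map_source hx)
      apply h1
      rw [φ.left_inv hx]; exact hN
    obtain ⟨r, hr, hB⟩ := Metric.nhds_basis_closedBall.mem_iff.1 hT
    set B := Metric.closedBall (φ p) r with hBdef
    have hBc : IsCompact B := isCompact_closedBall _ _
    set L : Set (Dom d p) := gm d p ⁻¹' B with hL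
    have hgL : gm d p '' L = B := by
      apply Subset.antisymm
      · rintro _ ⟨x, hx, rfl⟩; exact hx
      · intro z hz
        have hz' := hB hz
        refine ⟨⟨φ.symm z, φ.map_target hz'.1⟩, ?_, ?_⟩
        · show φ (φ.symm z) ∈ B
          rw [φ.right_inv hz'.1]; exact hz
        · show φ (φ.symm z) = z
          exact φ.right_inv hz'.1
    have hfL : fm d p '' L = φ.symm '' B := by
      apply Subset.antisymm
      · rintro _ ⟨x, hx, rfl⟩
        exact ⟨φ x, hx, φ.left_inv x.2⟩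
      · rintro _ ⟨z, hz, rfl⟩
        have hz' := hB hz
        refine ⟨⟨φ.symm z, φ.map_target hz'.1⟩, ?_, rfl⟩
        show φ (φ.symm z) ∈ B
        rw [φ.right_inv hz'.1]; exact hz
    have hfLc : IsClosed (fm d p '' L) := by
      rw [hfL]
      refine (hBc.image_of_continuousOn ?_).isClosed
      exact φ.continuousOn_symm.mono fun z hz => (hB hz).1
    have hLN : fm d p '' L ⊆ N := by
      rw [hfL]
      rintro _ ⟨z, hz, rfl⟩
      exact (hB hz).2
    obtain ⟨c', h3, h4⟩ := transfer hExc (fm d p) (gm d p) (fm_open p) (gm_open p) L hfLc d c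
      (hNc.mono (compl_subset_compl.2 hLN))
    rw [hgL] at h3
    have hpt : ∀ x ∈ L, (Nul {(x : Y)}ᶜ c ↔ Nul {φ x}ᶜ c') := by
      intro x hx
      have h1 : fm d p '' {x} = {(x : Y)} := by rw [image_singleton]; rfl
      have h2 : gm d p '' {x} = {φ x} := by rw [image_singleton]; rfl
      have h5 := h4 {x} (singleton_subset_iff.2 hx) (by rw [h1]; exact isClosed_singleton)
        (by rw [h2]; exact isClosed_singleton)
      rwa [h1, h2] at h5
    have hball : ∀ z ∈ B, ∀ z' ∈ B, Nul {z}ᶜ c' → Nul {z'}ᶜ c' := by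
      intro z hz z' hz' h
      have h6 := hStar (d + 1) d B z hBc hz ((convex_closedBall _ _).starConvex hz) c' h3 h
      exact h6.mono (compl_subset_compl.2 (singleton_subset_iff.2 hz'))
    have hpL : (⟨p, hx⟩ : Dom d p) ∈ L := Metric.mem_closedBall_self hr.le
    have hnb : fm d p '' L ∈ 𝓝 p := by
      have h7 : L ∈ 𝓝 (⟨p, hx⟩ : Dom d p) := by
        refine (gm d p).continuous.continuousAt.preimage_mem_nhds ?_
        exact Metric.closedBall_mem_nhds _ hr
      exact (fm_open p).isOpenMap.image_mem_nhds h7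
    filter_upwards [hnb] with q hq
    obtain ⟨x, hxL, rfl⟩ := hq
    refine ⟨hNc.mono (compl_subset_compl.2 ?_), ?_⟩
    · exact singleton_subset_iff.2 (hLN ⟨x, hxL, rfl⟩)
    · show Nul {(x : Y)}ᶜ c ↔ Nul {p}ᶜ c
      rw [hpt x hxL, hpt ⟨p, hx⟩ hpL]
      exact ⟨hball _ hxL _ hpL, hball _ hpL _ hxL⟩

end Crest.Agent.R224.T
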