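/-
R224 / S0346, topological half : elementary calculus of locally finite chains used by `End.lean`
(helper876).  Namespace `Crest.Agent.R224.T.EndAux`.
-/
import Crest.Agent.R224.T.Defs

set_option autoImplicit false

noncomputable section

open Topology Set Filter

namespace Crest.Agent.R224.T.EndAux

theorem z2 (a : ZMod 2) : a + a = 0 := CharTwo.add_self_eq_zero a

section
variable {X : Type} [TopologicalSpace X] {n : ℕ}

theorem ch2 (c : Ch n X) : c + c = 0 := by
  ext σ; exact z2 _

theorem eq_of_add {c c' : Ch n X} (h : c + c' = 0) : c = c' := by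
  have := congrArg (· + c') h
  simpa [add_assoc, ch2] using this

instance : Nonempty (Dl n) := inferInstance

theorem range_ne (σ : C(Dl n, X)) : (range σ).Nonempty := range_nonempty _

theorem range_cpt (σ : C(Dl n, X)) : IsCompact (range σ) := isCompact_range σ.continuous

theorem range_face (σ : C(Dl (n + 1), X)) (i : Fin (n + 2)) :
    range (σ.comp (face n i)) ⊆ range σ := by
  rintro _ ⟨y, rfl⟩
  exact ⟨_, rfl⟩

theorem bd_single (σ : C(Dl (n + 1), X)) :
    bd n (Finsupp.single σ 1) = ∑ i, Finsupp.single (σ.comp (face n i)) (1 : ZMod 2) := by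
  simp [bd]

theorem face_face (σ : C(Dl (n + 2), X)) (i : Fin (n + 3)) (j : Fin (n + 2)) :
    (σ.comp (face (n + 1) (i.succAbove j))).comp (face n (j.predAbove i)) =
      (σ.comp (face (n + 1) i)).comp (face n j) := by
  ext x
  simp only [ContinuousMap.comp_apply, face, ContinuousMap.coe_mk]
  rw [stdSimplex.map_comp_apply, stdSimplex.map_comp_apply]
  congr 2
  funext k
  exact Fin.succAbove_succAbove_succAbove_predAbove i j k

theorem bd_bd_single (σ : C(Dl (n + 2), X)) : bd n (bd (n + 1) (Finsupp.single σ 1)) = 0 := by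
  rw [bd_single, map_sum]
  simp only [bd_single]
  rw [← Finset.sum_product' (s := Finset.univ) (t := Finset.univ)
    (f := fun i j => Finsupp.single ((σ.comp (face (n + 1) i)).comp (face n j)) (1 : ZMod 2))]
  refine Finset.sum_involution (fun p _ => (p.1.succAbove p.2, p.2.predAbove p.1)) ?_ ?_ ?_ ?_
  · rintro ⟨i, j⟩ -
    simp only
    rw [face_face]
    exact ch2 _
  · rintro ⟨i, j⟩ - - h
    have := congrArg Prod.fst h
    exact Fin.succAbove_ne i j this
  · intros; simp
  · rintro ⟨i, j⟩ -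
    simp only [Fin.succAbove_succAbove_predAbove, Fin.predAbove_predAbove_succAbove]

theorem bd_bd (c : Ch (n + 2) X) : bd n (bd (n + 1) c) = 0 := by
  induction c using Finsupp.induction_linear with
  | zero => simp
  | add c c' h h' => rw [map_add, map_add, h, h', add_zero]
  | single σ a =>
    have : (Finsupp.single σ a : Ch (n + 2) X) = a • Finsupp.single σ 1 := by simp
    rw [this, map_smul, map_smul, bd_bd_single, smul_zero]

/-- a simplex of the boundary is a face of a simplex -/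
theorem exists_of_bd (c : Ch (n + 1) X) (τ : C(Dl n, X)) (h : bd n c τ ≠ 0) :
    ∃ σ, c σ ≠ 0 ∧ ∃ i, σ.comp (face n i) = τ := by
  classical
  by_contra hcon
  push Not at hcon
  apply h
  rw [bd, Finsupp.linearCombination_apply, Finsupp.sum, Finsupp.finsetSum_apply]
  refine Finset.sum_eq_zero fun σ hσ => ?_
  rw [Finsupp.smul_apply, Finsupp.finsetSum_apply, Finset.sum_eq_zero, smul_zero]
  intro i _
  rw [Finsupp.single_apply, if_neg (hcon σ (Finsupp.mem_support_iff.1 hσ) i)]

theorem bd_congr (c c' : Ch (n + 1) X) (τ : C(Dl n, X))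
    (h : ∀ σ, (∃ i, σ.comp (face n i) = τ) → c σ = c' σ) : bd n c τ = bd n c' τ := by
  have h0 : bd n (c + c') τ = 0 := by
    by_contra hne
    obtain ⟨σ, h1, h2⟩ := exists_of_bd _ _ hne
    apply h1
    rw [Finsupp.add_apply, h σ h2]
    exact z2 _
  rw [map_add, Finsupp.add_apply] at h0
  have := congrArg (· + bd n c' τ) h0
  simpa [add_assoc, z2] using this

/-! ### In, Nul -/

theorem In_iff {A : Set X} {c : Ch n X} : In A c ↔ ∀ σ, c σ ≠ 0 → range σ ⊆ A := by
  simp [In, Finsupp.mem_support_iff]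

theorem in_mono {A B : Set X} {c : Ch n X} (h : In A c) (hAB : A ⊆ B) : In B c :=
  fun σ hσ => (h σ hσ).trans hAB

theorem in_zero {A : Set X} : In A (0 : Ch n X) := by
  intro σ hσ; simp at hσ

theorem in_add {A : Set X} {c c' : Ch n X} (h : In A c) (h' : In A c') : In A (c + c') := by
  rw [In_iff] at *
  intro σ hσ
  by_cases h1 : c σ = 0
  · apply h' σ
    intro h2
    apply hσ
    rw [Finsupp.add_apply, h1, h2, add_zero]
  · exact h σ h1

theorem in_bd {A : Set X} {c : Ch (n + 1) X} (h : In A c) : In A (bd n c) := by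
  rw [In_iff] at *
  intro τ hτ
  obtain ⟨σ, h1, i, rfl⟩ := exists_of_bd _ _ hτ
  exact (range_face σ i).trans (h σ h1)

theorem nul_add_in {A : Set X} {c e : Ch n X} (h : Nul A c) (he : In A e) : Nul A (c + e) := by
  obtain ⟨b, e', h1, h2⟩ := h
  exact ⟨b, e' + e, in_add h1 he, by rw [h2, add_assoc]⟩

theorem nul_zero {A : Set X} : Nul A (0 : Ch n X) := ⟨0, 0, in_zero, by simp⟩

/-- changing a chain away from `p` does not change its class at `p` -/
theorem nul_congr {A : Set X} {c c' : Ch n X} (h : ∀ σ : C(Dl n, X), ¬ range σ ⊆ A → c σ = c' σ) :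
    Nul A c ↔ Nul A c' := by
  have key : ∀ c c' : Ch n X, (∀ σ : C(Dl n, X), ¬ range σ ⊆ A → c σ = c' σ) → Nul A c → Nul A c' := by
    intro c c' h hc
    have he : In A (c + c') := by
      rw [In_iff]
      intro σ hσ
      by_contra hcon
      apply hσ
      rw [Finsupp.add_apply, h σ hcon]
      exact z2 _
    have := nul_add_in hc he
    rwa [← add_assoc, ch2, zero_add] at this
  exact ⟨key c c' h, key c' c fun σ hσ => (h σ hσ).symm⟩

/-! ### locally finite chains -/

theorem LF.add_fin {m : C(Dl n, X) → ZMod 2} (h : LF m) (b : Ch n X) :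
    LF fun σ => m σ + b σ := by
  intro K hK
  refine ((h K hK).union b.support.finite_toSet).subset ?_
  rintro σ ⟨h1, h2⟩
  by_cases hm : m σ = 0
  · right
    simp only [Finset.mem_coe, Finsupp.mem_support_iff]
    intro hb
    apply h1
    simp [hm, hb]
  · exact Or.inl ⟨hm, h2⟩

theorem LF.of_supp {m m' : C(Dl n, X) → ZMod 2} (h : LF m) (h' : ∀ σ, m' σ ≠ 0 → m σ ≠ 0) :
    LF m' := fun K hK => (h K hK).subset fun σ hσ => ⟨h' σ hσ.1, hσ.2⟩

open Classical in
theorem cut_apply {m : C(Dl n, X) → ZMod 2} (h : LF m) {K : Set X} (hK : IsCompact K)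
    (σ : C(Dl n, X)) : cut m K σ = if (range σ ∩ K).Nonempty then m σ else 0 := by
  unfold cut
  rw [dif_pos (h K hK)]
  rfl

theorem cut_of_meet {m : C(Dl n, X) → ZMod 2} (h : LF m) {K : Set X} (hK : IsCompact K)
    {σ : C(Dl n, X)} (hσ : (range σ ∩ K).Nonempty) : cut m K σ = m σ := by
  classical
  rw [cut_apply h hK, if_pos hσ]

theorem cut_of_not {m : C(Dl n, X) → ZMod 2} (h : LF m) {K : Set X} (hK : IsCompact K)
    {σ : C(Dl n, X)} (hσ : ¬ (range σ ∩ K).Nonempty) : cut m K σ = 0 := by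
  classical
  rw [cut_apply h hK, if_neg hσ]

theorem meet_of_face {σ : C(Dl (n + 1), X)} {τ : C(Dl n, X)} {K : Set X}
    (h : ∃ i, σ.comp (face n i) = τ) (hτ : (range τ ∩ K).Nonempty) : (range σ ∩ K).Nonempty := by
  obtain ⟨i, rfl⟩ := h
  exact hτ.mono (inter_subset_inter_left _ (range_face σ i))

theorem self_meet (τ : C(Dl n, X)) : (range τ ∩ range τ).Nonempty := by
  rw [inter_self]; exact range_ne τ

/-- the true boundary coefficient -/
def tb (m : C(Dl (n + 1), X) → ZMod 2) (τ : C(Dl n, X)) : ZMod 2 := bd n (cut m (range τ)) τ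

theorem bd_cut {m : C(Dl (n + 1), X) → ZMod 2} (h : LF m) {K : Set X} (hK : IsCompact K)
    {τ : C(Dl n, X)} (hτ : (range τ ∩ K).Nonempty) : bd n (cut m K) τ = tb m τ := by
  refine bd_congr _ _ _ fun σ hσ => ?_
  rw [cut_of_meet h hK (meet_of_face hσ hτ),
    cut_of_meet h (range_cpt τ) (meet_of_face hσ (self_meet τ))]

theorem LCyc.of_tb {m : C(Dl (n + 1), X) → ZMod 2} (h : LF m) (h0 : ∀ τ, tb m τ = 0) : LCyc m := by
  refine ⟨h, fun K hK => ?_⟩
  rw [RC, In_iff]
  intro τ hτ z hz hzK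
  apply hτ
  rw [bd_cut h hK ⟨z, hz, hzK⟩, h0]

theorem LCyc.tb_eq {m : C(Dl (n + 1), X) → ZMod 2} (h : LCyc m) (τ : C(Dl n, X)) :
    tb m τ = 0 := by
  by_contra hne
  have := h.cyc _ (range_cpt τ)
  rw [RC, In_iff] at this
  obtain ⟨z, hz⟩ := range_ne τ
  exact this τ hne hz hz

theorem tb_congr {m m' : C(Dl (n + 1), X) → ZMod 2} (h : LF m) (h' : LF m') {τ : C(Dl n, X)}
    (hc : ∀ σ, (∃ i, σ.comp (face n i) = τ) → m σ = m' σ) : tb m τ = tb m' τ := by
  refine bd_congr _ _ _ fun σ hσ => ?_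
  rw [cut_of_meet h (range_cpt τ) (meet_of_face hσ (self_meet τ)),
    cut_of_meet h' (range_cpt τ) (meet_of_face hσ (self_meet τ)), hc σ hσ]

theorem tb_add {m m' : C(Dl (n + 1), X) → ZMod 2} (h : LF m) (h' : LF m')
    (h'' : LF fun σ => m σ + m' σ) (τ : C(Dl n, X)) :
    tb (fun σ => m σ + m' σ) τ = tb m τ + tb m' τ := by
  unfold tb
  rw [← Finsupp.add_apply, ← map_add]
  refine bd_congr _ _ _ fun σ hσ => ?_
  rw [Finsupp.add_apply, cut_of_meet h (range_cpt τ) (meet_of_face hσ (self_meet τ)),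
    cut_of_meet h' (range_cpt τ) (meet_of_face hσ (self_meet τ)),
    cut_of_meet h'' (range_cpt τ) (meet_of_face hσ (self_meet τ))]

theorem LF.fin (b : Ch n X) : LF fun σ => b σ := by
  intro K hK
  refine b.support.finite_toSet.subset ?_
  rintro σ ⟨h1, -⟩
  simpa using h1

theorem tb_fin (b : Ch (n + 1) X) (τ : C(Dl n, X)) : tb (fun σ => b σ) τ = bd n b τ := by
  refine bd_congr _ _ _ fun σ hσ => ?_
  rw [cut_of_meet (LF.fin b) (range_cpt τ) (meet_of_face hσ (self_meet τ))]

/-- a locally finite chain whose boundary is finite (given by the finite chain `β`): `β` is a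
cycle -/
theorem bd_eq_zero_of_tb {m : C(Dl (n + 2), X) → ZMod 2} (h : LF m) (β : Ch (n + 1) X)
    (hβ : ∀ τ, β τ = tb m τ) : bd n β = 0 := by
  classical
  ext ρ
  rw [Finsupp.zero_apply]
  by_contra hne
  -- a compact set containing everything
  set K : Set X := (⋃ τ ∈ β.support, range τ) ∪ range ρ with hK
  have hKc : IsCompact K :=
    (β.support.isCompact_biUnion fun τ _ => range_cpt τ).union (range_cpt ρ)
  have he : In Kᶜ (bd (n + 1) (cut m K) + β) := by
    rw [In_iff]
    intro τ hτ z hz hzK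
    apply hτ
    rw [Finsupp.add_apply, bd_cut h hKc ⟨z, hz, hzK⟩, hβ]
    exact z2 _
  have h2 := in_bd he
  rw [map_add, bd_bd, zero_add, In_iff] at h2
  obtain ⟨z, hz⟩ := range_ne ρ
  exact h2 ρ hne hz (Or.inr hz)

/-- the class at `p` of a locally finite chain can be computed with any compact set containing
`p` -/
theorem nul_cut {m : C(Dl n, X) → ZMod 2} (h : LF m) {K : Set X} (hK : IsCompact K) {p : X}
    (hp : p ∈ K) : Nul {p}ᶜ (cut m {p}) ↔ Nul {p}ᶜ (cut m K) := by
  refine nul_congr fun σ hσ => ?_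
  have h1 : p ∈ range σ := by
    by_contra hcon
    exact hσ fun z hz hzp => hcon (by rw [mem_singleton_iff] at hzp; rwa [← hzp])
  rw [cut_of_meet h isCompact_singleton ⟨p, h1, rfl⟩, cut_of_meet h hK ⟨p, h1, hp⟩]

/-- two locally finite chains which agree on the simplices through `p` -/
theorem nul_cut_congr {m m' : C(Dl n, X) → ZMod 2} (h : LF m) (h' : LF m') {p : X}
    (hc : ∀ σ : C(Dl n, X), p ∈ range σ → m σ = m' σ) :
    Nul {p}ᶜ (cut m {p}) ↔ Nul {p}ᶜ (cut m' {p}) := by
  refine nul_congr fun σ hσ => ?_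
  have h1 : p ∈ range σ := by
    by_contra hcon
    exact hσ fun z hz hzp => hcon (by rw [mem_singleton_iff] at hzp; rwa [← hzp])
  rw [cut_of_meet h isCompact_singleton ⟨p, h1, rfl⟩, cut_of_meet h' isCompact_singleton
    ⟨p, h1, rfl⟩, hc σ h1]

end

/-- the degree of a locally finite top dimensional cycle is constant -/
theorem deg_const {d : ℕ} {E : Type} [TopologicalSpace E] [T2Space E] [PreconnectedSpace E]
    [LocallyCompactSpace E] (hman : ManHyp d E) {m : C(Dl (d + 1), E) → ZMod 2} (h : LCyc m)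
    (p q : E) (hp : Nul {p}ᶜ (cut m {p})) : Nul {q}ᶜ (cut m {q}) := by
  have loc : ∀ p : E, ∀ᶠ q in 𝓝 p, (Nul {q}ᶜ (cut m {q}) ↔ Nul {p}ᶜ (cut m {p})) := by
    intro p
    obtain ⟨K, hK, hKp⟩ := exists_compact_mem_nhds p
    have hRC : RC {p}ᶜ (cut m K) :=
      in_mono (h.cyc K hK) (compl_subset_compl.2 (singleton_subset_iff.2 (mem_of_mem_nhds hKp)))
    filter_upwards [hman.loc (cut m K) p hRC, hKp] with q hq hqK
    rw [nul_cut h.lf hK hqK, nul_cut h.lf hK (mem_of_mem_nhds hKp)]
    exact hq.2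
  have hcl : IsClopen {q : E | Nul {q}ᶜ (cut m {q})} := by
    constructor
    · rw [← isOpen_compl_iff, isOpen_iff_mem_nhds]
      intro p hp
      filter_upwards [loc p] with q hq hq'
      exact hp (hq.1 hq')
    · rw [isOpen_iff_mem_nhds]
      intro p hp
      filter_upwards [loc p] with q hq
      exact hq.2 hp
  have h1 := hcl.eq_univ ⟨p, hp⟩
  have h2 : q ∈ {q : E | Nul {q}ᶜ (cut m {q})} := by rw [h1]; exact mem_univ q
  exact h2

end Crest.Agent.R224.T.EndAux
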