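/-
R224 / S0346, topological half : node D2 NEnd (helper876).
-/
import Crest.Agent.R224.T.Iface
import Crest.Agent.R224.T.EndAux

set_option autoImplicit false

noncomputable section

open Topology Set Filter

namespace Crest.Agent.R224.T

open EndAux

theorem nEnd : NEnd := by
  classical
  intro d G _ E _ _ _ _ _ S U hd hgeo hman ⟨μ, hμ, hsm⟩ A hA
  obtain ⟨n, rfl⟩ : ∃ n, d = n + 1 := ⟨d - 1, by omega⟩
  by_contra hcon
  push Not at hcon
  obtain ⟨hA1, hA2⟩ := hcon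
  -- labels
  choose! lab hlab using hsm
  have adj_of : ∀ (g h : G) (p : E), p ∈ tr g U → p ∈ tr h U → Adj S g h := by
    rintro g h p ⟨u, hu, rfl⟩ ⟨v, hv, hvu⟩
    have hvu' : h • v = g • u := hvu
    refine (hgeo.mem _).2 ⟨v, hv, ?_⟩
    rw [mul_smul, hvu', inv_smul_smul]
    exact hu
  set m : C(Dl (n + 1 + 1), E) → ZMod 2 := fun σ => if lab σ ∈ A then μ σ else 0 with hm
  have mA : ∀ σ, lab σ ∈ A → m σ = μ σ := fun σ h => by simp [hm, h]
  have mN : ∀ σ, lab σ ∉ A → m σ = 0 := fun σ h => by simp [hm, h]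
  have hLFm : LF m := LF.of_supp hμ.lf (by
    intro σ h1 h2
    apply h1
    by_cases h3 : lab σ ∈ A
    · rw [mA σ h3, h2]
    · exact mN σ h3)
  -- the finite set of elements of the boundary
  set P : Set G := Prod.fst '' (Crest.Agent.R224.bd S A) ∪ Prod.snd '' (Crest.Agent.R224.bd S A)
    with hP
  have hPf : P.Finite := (hA.image _).union (hA.image _)
  have hPadj : ∀ g h : G, Adj S g h → g ∉ P → (g ∈ A ↔ h ∈ A) := by
    intro g h hgh hg
    constructor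
    · intro h1
      by_contra h2
      exact hg (Or.inl ⟨(g, h), ⟨hgh, h1, h2⟩, rfl⟩)
    · intro h1
      by_contra h2
      refine hg (Or.inr ⟨(h, g), ⟨?_, h1, h2⟩, rfl⟩)
      obtain ⟨u, hu, hgu⟩ := (hgeo.mem _).1 hgh
      refine (hgeo.mem _).2 ⟨(g⁻¹ * h) • u, hgu, ?_⟩
      rw [← mul_smul]
      simpa using hu
  set K0 : Set E := ⋃ g ∈ P, (fun z => g • z) '' closure U with hK0
  have hK0c : IsCompact K0 :=
    hPf.isCompact_biUnion fun g _ => hgeo.cpt.image (hgeo.cont g)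
  -- the true boundary of m lives on K0
  have claim1 : ∀ τ, tb m τ ≠ 0 → (range τ ∩ K0).Nonempty := by
    intro τ hτ
    obtain ⟨σ, hσ, hσf⟩ := exists_of_bd _ _ hτ
    have hσm : m σ ≠ 0 := by
      rwa [cut_of_meet hLFm (range_cpt τ) (meet_of_face hσf (self_meet τ))] at hσ
    have hσA : lab σ ∈ A := by
      by_contra h; exact hσm (mN σ h)
    have hσμ : μ σ ≠ 0 := by rwa [mA σ hσA] at hσm
    have : ∃ σ', (∃ i, σ'.comp (face (n + 1) i) = τ) ∧ μ σ' ≠ 0 ∧ lab σ' ∉ A := by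
      by_contra hcon
      push Not at hcon
      apply hτ
      rw [tb_congr hLFm hμ.lf, LCyc.tb_eq hμ.toLCyc]
      intro σ' hσ'
      by_cases h1 : μ σ' = 0
      · by_cases h2 : lab σ' ∈ A
        · exact mA _ h2
        · rw [mN _ h2, h1]
      · exact mA _ (hcon σ' hσ' h1)
    obtain ⟨σ', hσ'f, hσ'μ, hσ'A⟩ := this
    obtain ⟨z, hz⟩ := range_ne τ
    have hz1 : z ∈ tr (lab σ) U := by
      obtain ⟨i, rfl⟩ := hσf
      exact hlab σ hσμ (range_face σ i hz)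
    have hz2 : z ∈ tr (lab σ') U := by
      obtain ⟨i, hi⟩ := hσ'f
      rw [← hi] at hz
      exact hlab σ' hσ'μ (range_face σ' i hz)
    have hlP : lab σ ∈ P := Or.inl ⟨(lab σ, lab σ'), ⟨adj_of _ _ z hz1 hz2, hσA, hσ'A⟩, rfl⟩
    refine ⟨z, hz, mem_biUnion hlP ?_⟩
    obtain ⟨u, hu, rfl⟩ := hz1
    exact ⟨u, subset_closure hu, rfl⟩
  -- the finite boundary chain
  obtain ⟨β, hβ⟩ : ∃ β : Ch (n + 1) E, ∀ τ, β τ = tb m τ := by
    refine ⟨(bd (n + 1) (cut m K0)).filter fun τ => (range τ ∩ K0).Nonempty, fun τ => ?_⟩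
    by_cases h : (range τ ∩ K0).Nonempty
    · rw [Finsupp.filter_apply, if_pos h, bd_cut hLFm hK0c h]
    · rw [Finsupp.filter_apply, if_neg h]
      by_contra hne
      exact h (claim1 τ (Ne.symm hne))
  have hβ0 : bd n β = 0 := bd_eq_zero_of_tb hLFm β hβ
  obtain ⟨b, hb⟩ := hman.fill n β hβ0
  -- the locally finite cycle m + b
  have hLF : LF fun σ => m σ + b σ := LF.add_fin hLFm b
  have hcyc : LCyc fun σ => m σ + b σ := by
    refine LCyc.of_tb hLF fun τ => ?_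
    rw [tb_add hLFm (LF.fin b) hLF, tb_fin, hb, ← hβ]
    exact z2 _
  -- far away points
  set K1 : Set E := ⋃ σ ∈ b.support, range σ with hK1
  have hK1c : IsCompact K1 := b.support.isCompact_biUnion fun σ _ => range_cpt σ
  have hfin : (P ∪ {g : G | ∃ u ∈ U, g • u ∈ K1}).Finite := hPf.union (hgeo.proper K1 hK1c)
  have far : ∀ g : G, g ∉ P → g ∉ {g : G | ∃ u ∈ U, g • u ∈ K1} → ∀ u ∈ U,
      ∀ σ : C(Dl (n + 1 + 1), E), g • u ∈ range σ → b σ = 0 ∧ (μ σ ≠ 0 → (g ∈ A ↔ lab σ ∈ A)) := by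
    intro g hgP hgK u hu σ hσ
    constructor
    · by_contra hne
      apply hgK
      exact ⟨u, hu, mem_biUnion (Finset.mem_coe.2 (Finsupp.mem_support_iff.2 hne)) hσ⟩
    · intro hne
      exact hPadj g (lab σ) (adj_of _ _ (g • u) ⟨u, hu, rfl⟩ (hlab σ hne hσ)) hgP
  obtain ⟨u, hu⟩ := hgeo.conn.nonempty
  obtain ⟨g1, hg1A, hg1⟩ := (hA1.sdiff hfin).nonempty
  obtain ⟨g2, hg2A, hg2⟩ := (hA2.sdiff hfin).nonempty
  have hg1' : g1 ∉ P ∧ g1 ∉ {g : G | ∃ u ∈ U, g • u ∈ K1} :=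
    ⟨fun h => hg1 (Or.inl h), fun h => hg1 (Or.inr h)⟩
  have hg2' : g2 ∉ P ∧ g2 ∉ {g : G | ∃ u ∈ U, g • u ∈ K1} :=
    ⟨fun h => hg2 (Or.inl h), fun h => hg2 (Or.inr h)⟩
  -- degree zero at g2 • u
  have hdeg2 : Nul {g2 • u}ᶜ (cut (fun σ => m σ + b σ) {g2 • u}) := by
    have h0 : LF fun σ : C(Dl (n + 1 + 1), E) => (0 : Ch (n + 1 + 1) E) σ := LF.fin 0
    rw [nul_cut_congr hLF h0]
    · rw [show cut (fun σ : C(Dl (n + 1 + 1), E) => (0 : Ch (n + 1 + 1) E) σ) {g2 • u} = 0 from ?_]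
      · exact nul_zero
      · ext σ
        rw [cut_apply h0 isCompact_singleton]
        simp
    · intro σ hσ
      obtain ⟨h1, h2⟩ := far g2 hg2'.1 hg2'.2 u hu σ hσ
      show m σ + b σ = 0
      rw [h1, add_zero]
      by_cases h3 : μ σ = 0
      · by_cases h4 : lab σ ∈ A
        · rw [mA _ h4, h3]
        · exact mN _ h4
      · exact mN _ fun h4 => hg2A ((h2 h3).2 h4)
  -- degree one at g1 • u
  have hdeg1 : ¬ Nul {g1 • u}ᶜ (cut (fun σ => m σ + b σ) {g1 • u}) := by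
    rw [nul_cut_congr hLF hμ.lf]
    · exact hμ.deg _
    · intro σ hσ
      obtain ⟨h1, h2⟩ := far g1 hg1'.1 hg1'.2 u hu σ hσ
      show m σ + b σ = μ σ
      rw [h1, add_zero]
      by_cases h3 : μ σ = 0
      · by_cases h4 : lab σ ∈ A
        · exact mA _ h4
        · rw [mN _ h4, h3]
      · exact mA _ ((h2 h3).1 hg1A)
  exact hdeg1 (deg_const hman hcyc _ _ hdeg2)

end Crest.Agent.R224.T
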