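/-
R224 / S0346 : node D4 `NGeo` of the topological half (helper707).
The deck group of a contractible cover of a compact manifold: free cocompact action of the
fundamental group.
-/
import Crest.Agent.R224.T.Iface
import Crest.Agent.R197.FDeck

set_option autoImplicit false
set_option linter.style.haveILetI false

noncomputable section

open Topology Set Filter
open Crest.Topology

namespace Crest.Agent.R224.T

open Crest.Agent.R197.F

section geo
variable {E M : Type} [TopologicalSpace E] [TopologicalSpace M] {π : E → M}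

theorem t2_of_cov [T2Space M] (cov : IsCoveringMap π) : T2Space E := by
  refine ⟨fun a b hab => ?_⟩
  by_cases h : π a = π b
  · exact cov.isSeparatedMap a b h hab
  · obtain ⟨u, v, hu, hv, hau, hbv, huv⟩ := t2_separation h
    exact ⟨π ⁻¹' u, π ⁻¹' v, hu.preimage cov.continuous, hv.preimage cov.continuous, hau, hbv,
      huv.preimage π⟩

/-- the charts of the total space of a covering -/
@[reducible] def chartedOfCov {H : Type} [TopologicalSpace H] [ChartedSpace H M] (cov : IsCoveringMap π) :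
    ChartedSpace H E where
  atlas := range fun e : E => (cov.isLocalHomeomorph e).choose.trans (chartAt H (π e))
  chartAt e := (cov.isLocalHomeomorph e).choose.trans (chartAt H (π e))
  mem_chart_source e := by
    have h1 := (cov.isLocalHomeomorph e).choose_spec.1
    have h2 : π = (cov.isLocalHomeomorph e).choose := (cov.isLocalHomeomorph e).choose_spec.2
    rw [OpenPartialHomeomorph.trans_source]
    refine ⟨h1, ?_⟩
    rw [mem_preimage, ← h2]
    exact mem_chart_source H (π e)
  chart_mem_atlas e := ⟨e, rfl⟩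

/-- compact subsets of a connected, locally connected, locally compact space lie in connected
relatively compact open sets -/
theorem exists_open_conn [PreconnectedSpace E] [LocallyConnectedSpace E] [LocallyCompactSpace E]
    [T2Space E] (K : Set E) (hK : IsCompact K) (a₀ : E) :
    ∃ U : Set E, IsOpen U ∧ IsConnected U ∧ IsCompact (closure U) ∧ K ⊆ U ∧ a₀ ∈ U := by
  classical
  -- small sets
  have hsm : ∀ x : E, ∃ V : Set E, IsOpen V ∧ IsConnected V ∧ IsCompact (closure V) ∧ x ∈ V := by
    intro x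
    obtain ⟨L, hL, hxL⟩ := exists_compact_mem_nhds x
    obtain ⟨V, hVL, hVo, hxV, hVc⟩ :=
      (locallyConnectedSpace_iff_subsets_isOpen_isConnected.1 ‹LocallyConnectedSpace E›) x L hxL
    exact ⟨V, hVo, hVc, hL.of_isClosed_subset isClosed_closure
      (closure_minimal hVL hL.isClosed), hxV⟩
  -- two points
  have h2 : ∀ x y : E, ∃ V : Set E, IsOpen V ∧ IsConnected V ∧ IsCompact (closure V) ∧ x ∈ V ∧
      y ∈ V := by
    refine PreconnectedSpace.induction₂' _ ?_ ?_
    · intro x
      obtain ⟨V, hVo, hVc, hVk, hxV⟩ := hsm x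
      filter_upwards [hVo.mem_nhds hxV] with y hy
      exact ⟨⟨V, hVo, hVc, hVk, hxV, hy⟩, ⟨V, hVo, hVc, hVk, hy, hxV⟩⟩
    · constructor
      rintro x y z ⟨V, hVo, hVc, hVk, hxV, hyV⟩ ⟨W, hWo, hWc, hWk, hyW, hzW⟩
      refine ⟨V ∪ W, hVo.union hWo, IsConnected.union ⟨y, hyV, hyW⟩ hVc hWc, ?_, Or.inl hxV,
        Or.inr hzW⟩
      rw [closure_union]
      exact hVk.union hWk
  refine hK.induction_on (p := fun K => ∃ U : Set E, IsOpen U ∧ IsConnected U ∧
    IsCompact (closure U) ∧ K ⊆ U ∧ a₀ ∈ U) ?_ ?_ ?_ ?_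
  · obtain ⟨V, hVo, hVc, hVk, hxV⟩ := hsm a₀
    exact ⟨V, hVo, hVc, hVk, empty_subset _, hxV⟩
  · rintro s t hst ⟨U, h1, h2, h3, h4, h5⟩
    exact ⟨U, h1, h2, h3, hst.trans h4, h5⟩
  · rintro s t ⟨U, h1, h2, h3, h4, h5⟩ ⟨V, k1, k2, k3, k4, k5⟩
    refine ⟨U ∪ V, h1.union k1, IsConnected.union ⟨a₀, h5, k5⟩ h2 k2, ?_,
      union_subset_union h4 k4, Or.inl h5⟩
    rw [closure_union]
    exact h3.union k3
  · intro x _
    obtain ⟨V, hVo, hVc, hVk, hxV, haV⟩ := h2 x a₀
    exact ⟨V, mem_nhdsWithin_of_mem_nhds (hVo.mem_nhds hxV), V, hVo, hVc, hVk, Subset.rfl, haV⟩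

/-- properness of the deck action -/
theorem deck_proper [T2Space M] [PreconnectedSpace E] (cov : IsCoveringMap π)
    (htr : ∀ x y : E, π x = π y → ∃ g : Deck π, g • x = y) (L K : Set E) (hL : IsCompact L)
    (hK : IsCompact K) : {g : Deck π | ∃ u ∈ L, g • u ∈ K}.Finite := by
  have key : ∀ s : Set (E × E), IsCompact s → {g : Deck π | ∃ q ∈ s, g • q.1 = q.2}.Finite := by
    intro s hs
    refine hs.induction_on (p := fun s => {g : Deck π | ∃ q ∈ s, g • q.1 = q.2}.Finite) ?_ ?_ ?_ ?_
    · simp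
    · intro s t hst ht
      exact ht.subset fun g ⟨q, hq, hg⟩ => ⟨q, hst hq, hg⟩
    · intro s t hs ht
      refine (hs.union ht).subset ?_
      rintro g ⟨q, hq | hq, hg⟩
      · exact Or.inl ⟨q, hq, hg⟩
      · exact Or.inr ⟨q, hq, hg⟩
    · rintro ⟨u, v⟩ _
      by_cases h : π u = π v
      · obtain ⟨g₀, hg₀⟩ := htr u v h
        obtain ⟨φ, huφ, hφ⟩ := cov.isLocalHomeomorph u
        have hinj : ∀ a ∈ φ.source, ∀ b ∈ φ.source, π a = π b → a = b := by
          intro a ha b hb hab
          rw [hφ] at hab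
          exact φ.injOn ha hb hab
        have hA : φ.source ∈ 𝓝 u := φ.open_source.mem_nhds huφ
        have hB : (fun z => g₀⁻¹ • z) ⁻¹' φ.source ∈ 𝓝 v := by
          refine (continuous_const_smul g₀⁻¹).continuousAt.preimage_mem_nhds ?_
          rw [← hg₀, inv_smul_smul]
          exact hA
        refine ⟨φ.source ×ˢ ((fun z => g₀⁻¹ • z) ⁻¹' φ.source),
          mem_nhdsWithin_of_mem_nhds (prod_mem_nhds hA hB), (finite_singleton g₀).subset ?_⟩
        rintro g ⟨⟨a, b⟩, ⟨ha, hb⟩, hg⟩
        simp only at ha hb hg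
        have hb' : g₀⁻¹ • b ∈ φ.source := hb
        have h1 : π a = π (g₀⁻¹ • b) := by
          rw [Deck.proj_smul (p := π), ← hg, Deck.proj_smul (p := π)]
        have h2 := hinj a ha _ hb' h1
        have h3 : g • a = g₀ • a := by
          rw [hg]
          conv_rhs => rw [h2, smul_inv_smul]
        exact Deck.ext_of_smul_eq cov a h3
      · obtain ⟨A, B, hA, hB, huA, hvB, hAB⟩ := t2_separation h
        refine ⟨(π ⁻¹' A) ×ˢ (π ⁻¹' B), mem_nhdsWithin_of_mem_nhds (prod_mem_nhds
          ((hA.preimage cov.continuous).mem_nhds huA) ((hB.preimage cov.continuous).mem_nhds hvB)),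
          finite_empty.subset ?_⟩
        rintro g ⟨⟨a, b⟩, ⟨ha, hb⟩, hg⟩
        simp only at ha hb hg
        have ha' : π a ∈ A := ha
        have hb' : π b ∈ B := hb
        rw [← hg, Deck.proj_smul (p := π)] at hb'
        exact (disjoint_left.1 hAB ha' hb').elim
  refine (key (L ×ˢ K) (hL.prod hK)).subset ?_
  rintro g ⟨u, hu, hg⟩
  exact ⟨(u, g • u), ⟨hu, hg⟩, rfl⟩

end geo

theorem nGeo : NGeo := by
  intro d M _ _ _ _ _ x hM
  obtain ⟨E, _, π, hE, cov, hs⟩ := hM
  haveI : T2Space E := t2_of_cov cov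
  letI : ChartedSpace (EE (d + 1)) E := chartedOfCov cov
  haveI : LocallyCompactSpace E := ChartedSpace.locallyCompactSpace (EE (d + 1)) E
  haveI : LocallyConnectedSpace E := ChartedSpace.locallyConnectedSpace (EE (d + 1)) E
  obtain ⟨e⟩ := nonempty_deck_equiv cov hs x (MulEquiv.refl (FundamentalGroup M x))
  obtain ⟨a₀, ha₀⟩ := hs x
  -- the action of the fundamental group
  letI act : MulAction (FundamentalGroup M x) E := MulAction.compHom E (e.symm : FundamentalGroup M x →* Deck π)
  have hact : ∀ (g : FundamentalGroup M x) (z : E), g • z = e.symm g • z := fun g z => rfl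
  -- the compact set
  obtain ⟨K, hK, hKM⟩ : ∃ K : Set E, IsCompact K ∧ π '' K = univ := by
    classical
    have h1 : ∀ y : M, ∃ L : Set E, IsCompact L ∧ π '' L ∈ 𝓝 y := by
      intro y
      obtain ⟨z, rfl⟩ := hs y
      obtain ⟨L, hL, hzL⟩ := exists_compact_mem_nhds z
      exact ⟨L, hL, cov.isOpenMap.image_mem_nhds hzL⟩
    have h2 := (isCompact_univ (X := M)).induction_on
      (p := fun s => ∃ L : Set E, IsCompact L ∧ s ⊆ π '' L) ⟨∅, isCompact_empty, by simp⟩
      (fun s t hst ⟨L, hL, hs⟩ => ⟨L, hL, hst.trans hs⟩)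
      (fun s t ⟨L, hL, hs⟩ ⟨L', hL', hs'⟩ => ⟨L ∪ L', hL.union hL', by
        rw [image_union]; exact union_subset_union hs hs'⟩)
      (fun y _ => by
        obtain ⟨L, hL, hy⟩ := h1 y
        exact ⟨_, mem_nhdsWithin_of_mem_nhds hy, L, hL, Subset.rfl⟩)
    obtain ⟨L, hL, h3⟩ := h2
    exact ⟨L, hL, univ_subset_iff.1 h3⟩
  obtain ⟨U, hUo, hUc, hUk, hKU, haU⟩ := exists_open_conn K hK a₀
  have hprop : ∀ L K : Set E, IsCompact L → IsCompact K →
      {g : FundamentalGroup M x | ∃ u ∈ L, g • u ∈ K}.Finite := by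
    intro L K hL hK
    have h1 := deck_proper cov (fun x y h => Deck.exists_smul_eq cov x y h) L K hL hK
    refine (h1.image e).subset ?_
    rintro g ⟨u, hu, hg⟩
    exact ⟨e.symm g, ⟨u, hu, hg⟩, e.apply_symm_apply g⟩
  have hpU : ∀ K : Set E, IsCompact K → {g : FundamentalGroup M x | ∃ u ∈ U, g • u ∈ K}.Finite := by
    intro K hK
    refine (hprop (closure U) K hUk hK).subset ?_
    rintro g ⟨u, hu, hg⟩
    exact ⟨u, subset_closure hu, hg⟩
  have hS : {g : FundamentalGroup M x | ∃ u ∈ U, g • u ∈ U}.Finite := by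
    refine (hpU (closure U) hUk).subset ?_
    rintro g ⟨u, hu, hg⟩
    exact ⟨u, hu, subset_closure hg⟩
  refine ⟨E, inferInstance, π, act, hS.toFinset, U, hE, cov, hs, inferInstance, inferInstance,
    ⟨inferInstance⟩, ?_, ?_, ?_⟩
  · intro g z
    rw [hact, Deck.proj_smul (p := π)]
  · intro f hf
    refine ⟨e ⟨f, hf⟩, fun z => ?_⟩
    rw [hact, e.symm_apply_apply]
    rfl
  · exact
      { cont := fun g => by
          simp only [hact]
          exact continuous_const_smul _
        isOpen := hUo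
        conn := hUc
        cpt := hUk
        cover := fun p => by
          have h1 : π p ∈ π '' K := by rw [hKM]; trivial
          obtain ⟨u, hu, hup⟩ := h1
          obtain ⟨g, hg⟩ := Deck.exists_smul_eq cov u p hup
          refine ⟨e g, u, hKU hu, ?_⟩
          rw [hact, e.symm_apply_apply, hg]
        mem := fun g => by simp
        proper := hpU }

end Crest.Agent.R224.T
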