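/-
R224 / S0346, topological half, node SC (helper183):
a closed Alexander-Spanier 1-cochain mod 2 on a contractible space is a coboundary.
-/
import Crest.Agent.R197.FDeck

set_option autoImplicit false

namespace Crest.Agent.R224.Tp

open Topology Set Filter

section SC
variable {E : Type} [TopologicalSpace E]

/-- `c` is a closed Alexander–Spanier 1-cochain (mod 2) -/
def Closed1 (c : E → E → ZMod 2) : Prop :=
  ∀ x, ∃ U ∈ 𝓝 x, ∀ a ∈ U, ∀ b ∈ U, ∀ d ∈ U, c a b + c b d = c a d

/-- `e` is a primitive of `c` near every point -/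
def Prim1 (c : E → E → ZMod 2) (e : E → ZMod 2) : Prop :=
  ∀ x, ∃ U ∈ 𝓝 x, ∀ a ∈ U, ∀ b ∈ U, c a b = e a + e b

theorem two_mul_z (a : ZMod 2) : a + a = 0 := CharTwo.add_self_eq_zero a

theorem eq_of_add_z {a b : ZMod 2} (h : a + b = 0) : a = b := by
  have : a = a + (b + b) := by rw [two_mul_z, add_zero]
  rw [this, ← add_assoc, h, zero_add]

/-- the double cover attached to a closed 1-cochain -/
noncomputable def dcore (c : E → E → ZMod 2) (U : E → Set E) (hUo : ∀ x, IsOpen (U x)) (hUx : ∀ x, x ∈ U x)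
    (hU : ∀ x, ∀ a ∈ U x, ∀ b ∈ U x, ∀ d ∈ U x, c a b + c b d = c a d) :
    FiberBundleCore E E (ZMod 2) where
  baseSet := U
  isOpen_baseSet := hUo
  indexAt := id
  mem_baseSet_at := hUx
  coordChange x x' y a := a + c x y + c x' y
  coordChange_self := by
    intro i x _ v
    rw [add_assoc, two_mul_z, add_zero]
  continuousOn_coordChange := by
    intro i j
    rintro ⟨y0, a0⟩ hy0
    simp only [mem_prod, mem_inter_iff, mem_univ, and_true] at hy0
    have hV : (U i ∩ U j) ×ˢ (univ : Set (ZMod 2)) ∈ 𝓝 ((y0, a0) : E × ZMod 2) :=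
      ((((hUo i).inter (hUo j)).prod isOpen_univ).mem_nhds ⟨hy0, mem_univ _⟩)
    apply ContinuousAt.continuousWithinAt
    have hcont : ContinuousAt (fun p : E × ZMod 2 => p.2 + (c i y0 + c j y0)) (y0, a0) :=
      (continuous_snd.add continuous_const).continuousAt
    refine hcont.congr ?_
    filter_upwards [hV] with p hp
    simp only [mem_prod, mem_inter_iff, mem_univ, and_true] at hp
    have h1 := hU i i (hUx i) y0 hy0.1 p.1 hp.1
    have h2 := hU j j (hUx j) y0 hy0.2 p.1 hp.2
    rw [← h1, ← h2]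
    have h3 : c y0 p.1 + c y0 p.1 = 0 := two_mul_z _
    linear_combination -h3
  coordChange_comp := by
    intro i j k x _ v
    have h3 : c j x + c j x = 0 := two_mul_z _
    linear_combination h3

theorem exists_prim1 [ContractibleSpace E] (c : E → E → ZMod 2) (hc : Closed1 c) :
    ∃ e : E → ZMod 2, Prim1 c e := by
  have hc' : ∀ x, ∃ U : Set E, IsOpen U ∧ x ∈ U ∧
      ∀ a ∈ U, ∀ b ∈ U, ∀ d ∈ U, c a b + c b d = c a d := by
    intro x
    obtain ⟨U, hU, h⟩ := hc x
    obtain ⟨V, hVU, hV, hxV⟩ := mem_nhds_iff.1 hU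
    exact ⟨V, hV, hxV, fun a ha b hb d hd => h a (hVU ha) b (hVU hb) d (hVU hd)⟩
  choose U hUo hUx hU using hc'
  let Z := dcore c U hUo hUx hU
  have cov : IsCoveringMap (Bundle.TotalSpace.proj : Z.TotalSpace → E) :=
    FiberBundle.isCoveringMap (F := ZMod 2) (E := Z.Fiber)
  obtain ⟨x0⟩ : Nonempty E := inferInstance
  obtain ⟨s, hs, -⟩ := R197.F.exists_lift cov (ContinuousMap.id E) x0
    (⟨x0, (0 : ZMod 2)⟩ : Z.TotalSpace) rfl
  simp only [ContinuousMap.id_apply] at hs
  let e : E → ZMod 2 := fun y => (show ZMod 2 from (s y).2) + c y y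
  refine ⟨e, fun x => ?_⟩
  have hval : ∀ y, (Z.localTriv x (s y)).2 = e y + c x y := by
    intro y
    show (show ZMod 2 from (s y).2) + c (s y).1 (s y).1 + c x (s y).1 = e y + c x y
    have : (s y).1 = y := hs y
    rw [this]
  have hcont : ContinuousAt (fun y => (Z.localTriv x (s y)).2) x := by
    have h1 : ContinuousAt (Z.localTriv x) (s x) := by
      apply (Z.localTriv x).continuousAt
      rw [Bundle.Trivialization.mem_source]
      show (s x).1 ∈ U x
      have : (s x).1 = x := hs x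
      rw [this]; exact hUx x
    exact (h1.comp s.continuous.continuousAt).snd
  have hev : ∀ᶠ y in 𝓝 x, e y + c x y = e x + c x x := by
    have h2 : ∀ᶠ y in 𝓝 x, (Z.localTriv x (s y)).2 ∈ ({(Z.localTriv x (s x)).2} : Set (ZMod 2)) :=
      hcont.eventually_mem (mem_nhds_discrete.2 rfl)
    filter_upwards [h2] with y hy
    rw [mem_singleton_iff, hval, hval] at hy
    exact hy
  refine ⟨{y | e y + c x y = e x + c x x} ∩ U x, inter_mem hev ((hUo x).mem_nhds (hUx x)), ?_⟩
  rintro a ⟨ha, ha'⟩ b ⟨hb, hb'⟩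
  have h1 := hU x x (hUx x) a ha' b hb'
  have h2 : e a + c x a = e b + c x b := by rw [show e a + c x a = _ from ha, show e b + c x b = _ from hb]
  have h4 : e b + e b = 0 := two_mul_z _
  linear_combination h1 - h2 - h4

end SC

end Crest.Agent.R224.Tp
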