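/-
R224 / S0346, topological half, node TRANSFER (helper183):
from a free (properly discontinuous, cocompact) action of `G` on a contractible space with vanishing
compactly supported Alexander-Spanier cohomology in degrees 1, 2 to `TopHyp` (without torsion-freeness).
-/
import Crest.Agent.R224.T.SC
import Crest.Agent.R224.Defs

set_option autoImplicit false

set_option linter.unusedSectionVars false

namespace Crest.Agent.R224.Tp

open Topology Set Filter Pointwise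

section defs
variable (E : Type) [TopologicalSpace E]

/-- compactly supported closed 1-cochains are coboundaries of compactly supported 0-cochains -/
def HC1 : Prop := ∀ c : E → E → ZMod 2, Closed1 c →
  (∃ K : Set E, IsCompact K ∧ ∀ x ∉ K, ∃ U ∈ 𝓝 x, ∀ a ∈ U, ∀ b ∈ U, c a b = 0) →
  ∃ e : E → ZMod 2, Prim1 c e ∧ ∃ K : Set E, IsCompact K ∧ ∀ x ∉ K, e x = 0

/-- `c` is a closed Alexander–Spanier 2-cochain (mod 2) -/
def Closed2 {E : Type} [TopologicalSpace E] (c : E → E → E → ZMod 2) : Prop :=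
  ∀ x, ∃ U ∈ 𝓝 x, ∀ p ∈ U, ∀ q ∈ U, ∀ r ∈ U, ∀ t ∈ U, c q r t + c p r t + c p q t + c p q r = 0

/-- compactly supported closed 2-cochains are coboundaries of compactly supported 1-cochains -/
def HC2 : Prop := ∀ c : E → E → E → ZMod 2, Closed2 c →
  (∃ K : Set E, IsCompact K ∧ ∀ x ∉ K, ∃ U ∈ 𝓝 x, ∀ p ∈ U, ∀ q ∈ U, ∀ r ∈ U, c p q r = 0) →
  ∃ b : E → E → ZMod 2,
    (∀ x, ∃ U ∈ 𝓝 x, ∀ p ∈ U, ∀ q ∈ U, ∀ r ∈ U, c p q r = b q r + b p r + b p q) ∧
    ∃ K : Set E, IsCompact K ∧ ∀ x ∉ K, ∃ U ∈ 𝓝 x, ∀ p ∈ U, ∀ q ∈ U, b p q = 0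

end defs

/-- The covering data: labels of the points of `E` by elements of `G`. -/
structure ActData (G : Type) [Group G] (E : Type) [TopologicalSpace E] [MulAction G E]
    (S : Finset G) where
  U : Set E
  K : Set E
  op : IsOpen U
  conn : IsPreconnected U
  ne : U.Nonempty
  sub : U ⊆ K
  cpt : IsCompact K
  mem_iff : ∀ s : G, s ∈ S ↔ (U ∩ s • U).Nonempty
  fin : ∀ C : Set E, IsCompact C → {h : G | (h • U ∩ C).Nonempty}.Finite
  lab : E → G
  hlab : ∀ x, ∃ V ∈ 𝓝 x, ∀ y ∈ V, V ⊆ lab y • U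

namespace ActData

variable {G : Type} [Group G] {E : Type} [TopologicalSpace E] [MulAction G E]
  [ContinuousConstSMul G E] {S : Finset G} (A : ActData G E S)

include A

theorem adj_iff (x y : G) : Adj S x y ↔ (x • A.U ∩ y • A.U).Nonempty := by
  unfold Adj
  rw [A.mem_iff]
  constructor
  · rintro ⟨p, hp, hq⟩
    refine ⟨x • p, smul_mem_smul_set hp, ?_⟩
    rw [mul_smul] at hq
    have := smul_mem_smul_set (a := x) hq
    rwa [smul_inv_smul] at this
  · rintro ⟨p, hp, hq⟩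
    refine ⟨x⁻¹ • p, ?_, ?_⟩
    · rwa [mem_smul_set_iff_inv_smul_mem] at hp
    · rw [mul_smul]
      exact smul_mem_smul_set hq

theorem adj_of_mem {x y : G} {p : E} (hx : p ∈ x • A.U) (hy : p ∈ y • A.U) : Adj S x y :=
  (A.adj_iff x y).2 ⟨p, hx, hy⟩

theorem mem_lab (y : E) : y ∈ A.lab y • A.U := by
  obtain ⟨V, hV, h⟩ := A.hlab y
  exact h y (mem_of_mem_nhds hV) (mem_of_mem_nhds hV)

theorem exists_open (x : E) : ∃ V : Set E, IsOpen V ∧ x ∈ V ∧ ∀ y ∈ V, V ⊆ A.lab y • A.U := by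
  obtain ⟨V, hV, h⟩ := A.hlab x
  obtain ⟨W, hWV, hW, hxW⟩ := mem_nhds_iff.1 hV
  exact ⟨W, hW, hxW, fun y hy => hWV.trans (h y (hWV hy))⟩

theorem one_mem : (1 : G) ∈ S := by
  rw [A.mem_iff, one_smul, inter_self]
  exact A.ne

theorem inv_mem (s : G) (hs : s ∈ S) : s⁻¹ ∈ S := by
  have h1 : Adj S 1 s := by unfold Adj; simpa using hs
  rw [A.adj_iff] at h1
  have h2 : Adj S s 1 := (A.adj_iff s 1).2 (by rwa [inter_comm] at h1)
  unfold Adj at h2
  simpa using h2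

theorem adj_symm {x y : G} (h : Adj S x y) : Adj S y x := by
  rw [A.adj_iff] at h ⊢
  rwa [inter_comm] at h

theorem isOpen_smul (g : G) : IsOpen (g • A.U) := A.op.smul g

theorem closure_eq [PreconnectedSpace E] : Subgroup.closure (S : Set G) = ⊤ := by
  set H := Subgroup.closure (S : Set G) with hH
  have hadj : ∀ g h : G, h ∈ H → Adj S h g → g ∈ H := by
    intro g h hh ha
    have : h⁻¹ * g ∈ H := Subgroup.subset_closure ha
    simpa using H.mul_mem hh this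
  let W : Set E := ⋃ h ∈ H, h • A.U
  have hWo : IsOpen W := isOpen_biUnion fun h _ => A.isOpen_smul h
  have hWc : IsOpen Wᶜ := by
    have : Wᶜ = ⋃ g ∈ {g : G | g ∉ H}, g • A.U := by
      ext y
      constructor
      · intro h
        refine mem_iUnion₂.2 ⟨A.lab y, fun hl => h (mem_iUnion₂.2 ⟨_, hl, A.mem_lab y⟩), A.mem_lab y⟩
      · intro h hyW
        obtain ⟨g, hg, hy⟩ := mem_iUnion₂.1 h
        obtain ⟨h', hh, hy'⟩ := mem_iUnion₂.1 hyW
        exact hg (hadj g h' hh (A.adj_of_mem hy' hy))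
    rw [this]
    exact isOpen_biUnion fun h _ => A.isOpen_smul h
  have hWne : W.Nonempty := by
    obtain ⟨p, hp⟩ := A.ne
    exact ⟨p, mem_iUnion₂.2 ⟨1, H.one_mem, by rwa [one_smul]⟩⟩
  have hW : W = univ := IsClopen.eq_univ ⟨isOpen_compl_iff.1 hWc, hWo⟩ hWne
  rw [eq_top_iff]
  intro g _
  obtain ⟨p, hp⟩ := A.ne
  have h1 : g • p ∈ W := by rw [hW]; trivial
  obtain ⟨h, hh, hp'⟩ := mem_iUnion₂.1 h1
  exact hadj g h hh (A.adj_of_mem hp' (smul_mem_smul_set hp))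

theorem std [PreconnectedSpace E] : Std S := ⟨A.one_mem, A.inv_mem, A.closure_eq⟩

/-- the local constancy argument: `e` is a primitive of `ψ ∘ lab` near the points of `h • U`,
`h ∉ X`, and no bad triangle has a vertex outside `X`. -/
theorem core (ψ : G → G → ZMod 2) (X : Set G) (e : E → ZMod 2)
    (he : ∀ h ∉ X, ∀ y ∈ h • A.U, ∃ V ∈ 𝓝 y, ∀ a ∈ V, ∀ b ∈ V, ψ (A.lab a) (A.lab b) = e a + e b)
    (hψ : ∀ x ∉ X, ∀ y z, Adj S x y → Adj S y z → Adj S x z → ψ x y + ψ y z = ψ x z) :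
    ∃ F : G → ZMod 2, ∀ x ∉ X, ∀ y ∉ X, Adj S x y → ψ x y = F x + F y := by
  classical
  obtain ⟨p0, hp0⟩ := A.ne
  refine ⟨fun h => e (h • p0) + ψ h (A.lab (h • p0)), ?_⟩
  have key : ∀ h ∉ X, ∀ y ∈ h • A.U, e y + ψ h (A.lab y) = e (h • p0) + ψ h (A.lab (h • p0)) := by
    intro h hh y hy
    have hpre : IsPreconnected (h • A.U) := by
      have : h • A.U = (fun z => h • z) '' A.U := rfl
      rw [this]
      exact A.conn.image _ (continuous_const_smul h).continuousOn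
    suffices hco : ContinuousOn (fun z => e z + ψ h (A.lab z)) (h • A.U) from
      hpre.constant hco hy (smul_mem_smul_set hp0)
    intro z hz
    apply ContinuousAt.continuousWithinAt
    obtain ⟨V, hV, hVe⟩ := he h hh z hz
    obtain ⟨W, hWo, hzW, hWl⟩ := A.exists_open z
    have hev : ∀ᶠ a in 𝓝 z, e a + ψ h (A.lab a) = e z + ψ h (A.lab z) := by
      filter_upwards [hV, hWo.mem_nhds hzW] with a haV haW
      have hz' : z ∈ V := mem_of_mem_nhds hV
      have h1 := hVe z hz' a haV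
      have h2 : Adj S h (A.lab z) := A.adj_of_mem hz (A.mem_lab z)
      have h3 : Adj S (A.lab z) (A.lab a) := A.adj_of_mem (A.mem_lab z) (hWl a haW hzW)
      have h4 : Adj S h (A.lab a) := A.adj_of_mem hz (hWl a haW hzW)
      have h5 := hψ h hh _ _ h2 h3 h4
      have h6 : e a + e a = 0 := two_mul_z _
      linear_combination -h5 + h1 + h6
    have hc0 : ContinuousAt (fun _ : E => e z + ψ h (A.lab z)) z := continuousAt_const
    exact hc0.congr (hev.mono fun a ha => ha.symm)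
  intro x hx y hy hxy
  obtain ⟨p, hpx, hpy⟩ := (A.adj_iff x y).1 hxy
  have h1 := key x hx p hpx
  have h2 := key y hy p hpy
  have h3 := hψ x hx y (A.lab p) hxy (A.adj_of_mem hpy (A.mem_lab p))
    (A.adj_of_mem hpx (A.mem_lab p))
  simp only
  rw [← h1, ← h2]
  have h4 : e p + e p = 0 := two_mul_z _
  have h5 : ψ y (A.lab p) + ψ y (A.lab p) = 0 := two_mul_z _
  linear_combination h3 - h4 - h5

theorem h1 [ContractibleSpace E] (ψ : G → G → ZMod 2)
    (hψ : ∀ x y z, Adj S x y → Adj S y z → Adj S x z → ψ x y + ψ y z = ψ x z) :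
    ∃ F : G → ZMod 2, ∀ x y, Adj S x y → ψ x y = F x + F y := by
  have hc : Closed1 (fun a b => ψ (A.lab a) (A.lab b)) := by
    intro x
    obtain ⟨W, hWo, hxW, hWl⟩ := A.exists_open x
    refine ⟨W, hWo.mem_nhds hxW, fun a ha b hb d hd => hψ _ _ _ ?_ ?_ ?_⟩
    · exact A.adj_of_mem (A.mem_lab a) (hWl b hb ha)
    · exact A.adj_of_mem (A.mem_lab b) (hWl d hd hb)
    · exact A.adj_of_mem (A.mem_lab a) (hWl d hd ha)
  obtain ⟨e, he⟩ := exists_prim1 _ hc
  obtain ⟨F, hF⟩ := A.core ψ ∅ e (fun h _ y _ => he y) (fun x _ => hψ x)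
  exact ⟨F, fun x y => hF x (by simp) y (by simp)⟩

theorem t2 [T2Space E] [ContractibleSpace E] (h2 : HC2 E) (ψ : G → G → ZMod 2)
    (hψ : {p : G × G × G | Adj S p.1 p.2.1 ∧ Adj S p.2.1 p.2.2 ∧ Adj S p.1 p.2.2 ∧
      ψ p.1 p.2.1 + ψ p.2.1 p.2.2 ≠ ψ p.1 p.2.2}.Finite) :
    ∃ F : G → ZMod 2, {p : G × G | Adj S p.1 p.2 ∧ ψ p.1 p.2 ≠ F p.1 + F p.2}.Finite := by
  classical
  set Bad := {p : G × G × G | Adj S p.1 p.2.1 ∧ Adj S p.2.1 p.2.2 ∧ Adj S p.1 p.2.2 ∧
      ψ p.1 p.2.1 + ψ p.2.1 p.2.2 ≠ ψ p.1 p.2.2} with hBad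
  let c : E → E → E → ZMod 2 := fun p q r =>
    ψ (A.lab q) (A.lab r) + ψ (A.lab p) (A.lab r) + ψ (A.lab p) (A.lab q)
  have hcl : Closed2 c := by
    intro x
    refine ⟨univ, univ_mem, fun p _ q _ r _ t _ => ?_⟩
    have e1 := two_mul_z (ψ (A.lab r) (A.lab t))
    have e2 := two_mul_z (ψ (A.lab q) (A.lab t))
    have e3 := two_mul_z (ψ (A.lab q) (A.lab r))
    have e4 := two_mul_z (ψ (A.lab p) (A.lab t))
    have e5 := two_mul_z (ψ (A.lab p) (A.lab r))
    have e6 := two_mul_z (ψ (A.lab p) (A.lab q))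
    simp only [c]
    linear_combination e1 + e2 + e3 + e4 + e5 + e6
  let X1 : Set G := (fun p : G × G × G => p.1) '' Bad
  have hX1 : X1.Finite := hψ.image _
  let K0 : Set E := ⋃ h ∈ X1, h • A.K
  have hK0 : IsCompact K0 := hX1.isCompact_biUnion fun h _ => A.cpt.smul h
  have hbad : ∀ x ∉ X1, ∀ y z, Adj S x y → Adj S y z → Adj S x z → ψ x y + ψ y z = ψ x z := by
    intro x hx y z h1 h2 h3
    by_contra hne
    exact hx ⟨(x, y, z), ⟨h1, h2, h3, hne⟩, rfl⟩
  have hcs : ∃ K : Set E, IsCompact K ∧ ∀ x ∉ K, ∃ U ∈ 𝓝 x, ∀ p ∈ U, ∀ q ∈ U, ∀ r ∈ U,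
      c p q r = 0 := by
    refine ⟨K0, hK0, fun x hx => ?_⟩
    obtain ⟨W, hWo, hxW, hWl⟩ := A.exists_open x
    refine ⟨W ∩ K0ᶜ, inter_mem (hWo.mem_nhds hxW) (hK0.isClosed.isOpen_compl.mem_nhds hx), ?_⟩
    rintro p ⟨hp, hp'⟩ q ⟨hq, -⟩ r ⟨hr, -⟩
    have hpX : A.lab p ∉ X1 := by
      intro h
      apply hp'
      refine mem_iUnion₂.2 ⟨A.lab p, h, ?_⟩
      exact smul_set_mono A.sub (A.mem_lab p)
    have h := hbad _ hpX (A.lab q) (A.lab r) (A.adj_of_mem (A.mem_lab p) (hWl q hq hp))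
      (A.adj_of_mem (A.mem_lab q) (hWl r hr hq)) (A.adj_of_mem (A.mem_lab p) (hWl r hr hp))
    have e1 := two_mul_z (ψ (A.lab p) (A.lab r))
    simp only [c]
    linear_combination h + e1
  obtain ⟨b, hb, K1, hK1, hbs⟩ := h2 c hcl hcs
  have hf : Closed1 (fun p q => ψ (A.lab p) (A.lab q) + b p q) := by
    intro x
    obtain ⟨U, hU, h⟩ := hb x
    refine ⟨U, hU, fun p hp q hq r hr => ?_⟩
    have h1 := h p hp q hq r hr
    simp only [c] at h1
    have e1 := two_mul_z (ψ (A.lab p) (A.lab r))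
    have e2 := two_mul_z (b p r)
    have e3 := two_mul_z (b q r)
    have e4 := two_mul_z (b p q)
    linear_combination h1 - e1 + e3 + e4
  obtain ⟨e, he⟩ := exists_prim1 _ hf
  let X : Set G := X1 ∪ {h : G | (h • A.U ∩ K1).Nonempty}
  have hX : X.Finite := hX1.union (A.fin K1 hK1)
  obtain ⟨F, hF⟩ := A.core ψ X e (fun h hh y hy => by
      have hy1 : y ∉ K1 := fun hyK => hh (Or.inr ⟨y, hy, hyK⟩)
      obtain ⟨U, hU, hU0⟩ := hbs y hy1
      obtain ⟨V, hV, hVe⟩ := he y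
      refine ⟨U ∩ V, inter_mem hU hV, fun p hp q hq => ?_⟩
      have h1 := hU0 p hp.1 q hq.1
      have h2 := hVe p hp.2 q hq.2
      simp only at h2
      rw [h1, add_zero] at h2
      exact h2) (fun x hx => hbad x (fun h => hx (Or.inl h)))
  refine ⟨F, ?_⟩
  have hsub : {p : G × G | Adj S p.1 p.2 ∧ ψ p.1 p.2 ≠ F p.1 + F p.2} ⊆
      ((fun p : G × G => (p.1, p.1 * p.2)) '' (X ×ˢ (S : Set G))) ∪
      ((fun p : G × G => (p.1 * p.2, p.1)) '' (X ×ˢ (S : Set G))) := by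
    rintro ⟨x, y⟩ ⟨hxy, hne⟩
    simp only at hxy hne
    by_cases hx : x ∈ X
    · left
      exact ⟨(x, x⁻¹ * y), ⟨hx, hxy⟩, by simp⟩
    · by_cases hy : y ∈ X
      · right
        exact ⟨(y, y⁻¹ * x), ⟨hy, A.adj_symm hxy⟩, by simp⟩
      · exact absurd (hF x hx y hy hxy) hne
  refine Set.Finite.subset (Set.Finite.union ?_ ?_) hsub
  · exact (hX.prod S.finite_toSet).image _
  · exact (hX.prod S.finite_toSet).image _

theorem oneEnd [T2Space E] [PreconnectedSpace E] (h1 : HC1 E) (B : Set G) (hB : (bd S B).Finite) :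
    B.Finite ∨ Bᶜ.Finite := by
  classical
  let χ : G → ZMod 2 := fun g => if g ∈ B then 1 else 0
  let X1 : Set G := (fun p : G × G => p.1) '' bd S B ∪ (fun p : G × G => p.2) '' bd S B
  have hX1 : X1.Finite := (hB.image _).union (hB.image _)
  have hχ : ∀ x ∉ X1, ∀ y, Adj S x y → χ x = χ y := by
    intro x hx y hxy
    by_cases hxB : x ∈ B <;> by_cases hyB : y ∈ B
    · simp [χ, hxB, hyB]
    · exact absurd (Or.inl ⟨(x, y), ⟨hxy, hxB, hyB⟩, rfl⟩) hx
    · exact absurd (Or.inr ⟨(y, x), ⟨A.adj_symm hxy, hyB, hxB⟩, rfl⟩) hx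
    · simp [χ, hxB, hyB]
  let K0 : Set E := ⋃ h ∈ X1, h • A.K
  have hK0 : IsCompact K0 := hX1.isCompact_biUnion fun h _ => A.cpt.smul h
  let c : E → E → ZMod 2 := fun p q => χ (A.lab p) + χ (A.lab q)
  have hcl : Closed1 c := by
    intro x
    refine ⟨univ, univ_mem, fun p _ q _ r _ => ?_⟩
    have e1 := two_mul_z (χ (A.lab q))
    simp only [c]
    linear_combination e1
  have hcs : ∃ K : Set E, IsCompact K ∧ ∀ x ∉ K, ∃ U ∈ 𝓝 x, ∀ a ∈ U, ∀ b ∈ U, c a b = 0 := by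
    refine ⟨K0, hK0, fun x hx => ?_⟩
    obtain ⟨W, hWo, hxW, hWl⟩ := A.exists_open x
    refine ⟨W ∩ K0ᶜ, inter_mem (hWo.mem_nhds hxW) (hK0.isClosed.isOpen_compl.mem_nhds hx), ?_⟩
    rintro p ⟨hp, hp'⟩ q ⟨hq, -⟩
    have hpX : A.lab p ∉ X1 := by
      intro h
      apply hp'
      refine mem_iUnion₂.2 ⟨A.lab p, h, ?_⟩
      exact smul_set_mono A.sub (A.mem_lab p)
    have h := hχ _ hpX (A.lab q) (A.adj_of_mem (A.mem_lab p) (hWl q hq hp))
    simp only [c]
    rw [h]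
    exact two_mul_z _
  obtain ⟨e, he, K1, hK1, hes⟩ := h1 c hcl hcs
  -- `χ ∘ lab + e` is locally constant, hence constant
  have hconst : ∀ x y : E, χ (A.lab x) + e x = χ (A.lab y) + e y := by
    have hl : IsLocallyConstant (fun x : E => χ (A.lab x) + e x) := by
      rw [IsLocallyConstant.iff_exists_open]
      intro x
      obtain ⟨U, hU, h⟩ := he x
      obtain ⟨V, hVU, hV, hxV⟩ := mem_nhds_iff.1 hU
      refine ⟨V, hV, hxV, fun y hy => ?_⟩
      have h1 := h y (hVU hy) x (hVU hxV)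
      simp only [c] at h1
      have e1 := two_mul_z (χ (A.lab x))
      have e2 := two_mul_z (e y)
      linear_combination h1 - e1 + e2
    exact fun x y => hl.apply_eq_of_preconnectedSpace x y
  let X : Set G := X1 ∪ {h : G | (h • A.U ∩ K1).Nonempty}
  have hX : X.Finite := hX1.union (A.fin K1 hK1)
  obtain ⟨p0, hp0⟩ := A.ne
  have hval : ∀ h ∉ X, χ h = χ (A.lab p0) + e p0 := by
    intro h hh
    have hp : h • p0 ∈ h • A.U := smul_mem_smul_set hp0
    have h1 : h • p0 ∉ K1 := fun hK => hh (Or.inr ⟨_, hp, hK⟩)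
    have h2 := hes _ h1
    have h3 := hconst (h • p0) p0
    rw [h2, add_zero] at h3
    rw [← h3]
    exact hχ h (fun hx => hh (Or.inl hx)) _ (A.adj_of_mem hp (A.mem_lab _))
  by_cases hz : χ (A.lab p0) + e p0 = 0
  · left
    refine hX.subset fun h hh => ?_
    by_contra hn
    have := hval h hn
    rw [hz] at this
    simp [χ, hh] at this
  · right
    refine hX.subset fun h hh => ?_
    by_contra hn
    have := hval h hn
    have h0 : χ h = 0 := by
      simp only [χ]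
      rw [if_neg hh]
    exact hz (by rw [← this, h0])

/-- the topological hypotheses, from the covering data, `HC1`, `HC2` and torsion-freeness -/
theorem topHyp [T2Space E] [ContractibleSpace E] (h1 : HC1 E) (h2 : HC2 E)
    (tf : ∀ g : G, g ≠ 1 → ∀ n : ℕ, 0 < n → g ^ n ≠ 1) : TopHyp S where
  toStd := A.std
  h1 := A.h1
  oneEnd := A.oneEnd h1
  t2 := A.t2 h2
  tf := tf

end ActData

end Crest.Agent.R224.Tp
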