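/-
R224 / S0346, topological half (helper183): from `Geo S U` (node D4) to the covering data `ActData`
of Transfer.lean; countability; assembly of plan B: `NTop` from `NGeo`, `NTorsFree` and the vanishing of
compactly supported Alexander-Spanier cohomology in degrees 1, 2 of contractible 4-manifolds.
-/
import Crest.Agent.R224.T.Transfer
import Crest.Agent.R224.T.Iface

set_option autoImplicit false
set_option linter.unusedSectionVars false

namespace Crest.Agent.R224.Tp

open _root_.Topology Set Filter Pointwise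

section geo
variable {G : Type} [Group G] {E : Type} [TopologicalSpace E] [MulAction G E]
  {S : Finset G} {U : Set E}

theorem geo_cont (h : T.Geo S U) : ContinuousConstSMul G E := ⟨h.cont⟩

theorem geo_cover (h : T.Geo S U) (p : E) : ∃ g : G, p ∈ g • U := by
  obtain ⟨g, u, hu, rfl⟩ := h.cover p
  exact ⟨g, smul_mem_smul_set hu⟩

theorem geo_mem (h : T.Geo S U) (s : G) : s ∈ S ↔ (U ∩ s • U).Nonempty := by
  rw [h.mem]
  constructor
  · rintro ⟨u, hu, hg⟩
    exact ⟨s • u, hg, smul_mem_smul_set hu⟩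
  · rintro ⟨p, hp, ⟨u, hu, rfl⟩⟩
    exact ⟨u, hu, hp⟩

theorem geo_fin (h : T.Geo S U) (C : Set E) (hC : IsCompact C) :
    {g : G | (g • U ∩ C).Nonempty}.Finite := by
  refine (h.proper C hC).subset ?_
  rintro g ⟨p, ⟨u, hu, rfl⟩, hp⟩
  exact ⟨u, hu, hp⟩

/-- the covering data of Transfer.lean -/
theorem exists_actData (h : T.Geo S U) [T2Space E] [LocallyCompactSpace E] :
    ∃ A : ActData G E S, A.U = U := by
  classical
  have := geo_cont h
  -- a compact subset of `U` whose translates cover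
  have h1 : ∀ x ∈ closure U, ∃ (g : G) (N : Set E), IsCompact N ∧ N ∈ 𝓝 x ∧ N ⊆ g • U := by
    intro x _
    obtain ⟨g, hg⟩ := geo_cover h x
    have hn : g • U ∈ 𝓝 x := (h.isOpen.smul g).mem_nhds hg
    obtain ⟨N, hN, hNU, hNc⟩ := local_compact_nhds hn
    exact ⟨g, N, hNc, hN, hNU⟩
  choose! γ N hNc hN hNU using h1
  obtain ⟨t, htc⟩ := h.cpt.elim_nhds_subcover' (fun x _ => N x) (fun x hx => hN x hx)
  let K0 : Set E := ⋃ x ∈ t, (γ x)⁻¹ • N x
  have hK0 : IsCompact K0 := t.isCompact_biUnion fun x _ => (hNc x x.2).smul _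
  have hK0U : K0 ⊆ U := by
    intro y hy
    obtain ⟨x, hx, hy⟩ := mem_iUnion₂.1 hy
    rw [mem_inv_smul_set_iff] at hy
    have := hNU x x.2 hy
    rwa [smul_mem_smul_set_iff] at this
  have hcov : ∀ y : E, ∃ g : G, y ∈ g • K0 := by
    intro y
    obtain ⟨g, u, hu, rfl⟩ := h.cover y
    obtain ⟨x, hx, hux⟩ := mem_iUnion₂.1 (htc (subset_closure hu))
    refine ⟨g * γ x, ?_⟩
    rw [mul_smul, smul_mem_smul_set_iff, mem_smul_set_iff_inv_smul_mem]
    exact mem_iUnion₂.2 ⟨x, hx, smul_mem_smul_set hux⟩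
  choose lab hlab using hcov
  have hne : U.Nonempty := h.conn.nonempty
  refine ⟨⟨U, closure U, h.isOpen, h.conn.isPreconnected, hne, subset_closure, h.cpt, geo_mem h,
    geo_fin h, lab, ?_⟩, rfl⟩
  intro x
  obtain ⟨g0, hg0⟩ := geo_cover h x
  have hF : {g : G | (g • U ∩ g0 • closure U).Nonempty}.Finite :=
    geo_fin h _ (h.cpt.smul g0)
  let F := hF.toFinset
  let V1 : Set E := ⋂ g ∈ F.filter (fun g => x ∈ g • K0), g • U
  let V2 : Set E := ⋂ g ∈ F.filter (fun g => x ∉ g • K0), (g • K0)ᶜ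
  have hV1 : V1 ∈ 𝓝 x := by
    rw [Finset.iInter_mem_sets]
    intro g hg
    have := (Finset.mem_filter.1 hg).2
    exact (h.isOpen.smul g).mem_nhds (smul_set_mono hK0U this)
  have hV2 : V2 ∈ 𝓝 x := by
    rw [Finset.iInter_mem_sets]
    intro g hg
    have := (Finset.mem_filter.1 hg).2
    exact (hK0.smul g).isClosed.isOpen_compl.mem_nhds this
  refine ⟨g0 • U ∩ (V1 ∩ V2), inter_mem ((h.isOpen.smul g0).mem_nhds hg0) (inter_mem hV1 hV2), ?_⟩
  rintro y ⟨hy0, hy1, hy2⟩
  have hyF : lab y ∈ F := by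
    rw [Set.Finite.mem_toFinset]
    exact ⟨y, smul_set_mono hK0U (hlab y), smul_set_mono subset_closure hy0⟩
  have hx : x ∈ lab y • K0 := by
    by_contra hx
    have := mem_iInter₂.1 hy2 (lab y) (Finset.mem_filter.2 ⟨hyF, hx⟩)
    exact this (hlab y)
  rintro z ⟨hz0, hz1, hz2⟩
  exact mem_iInter₂.1 hz1 (lab y) (Finset.mem_filter.2 ⟨hyF, hx⟩)

theorem countable_of_closure_eq_top (hS : Subgroup.closure (S : Set G) = ⊤) : Countable G := by
  have hs : Function.Surjective
      (fun l : List ({u : G // u ∈ S} × Bool) =>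
        (l.map fun p => if p.2 then (p.1 : G) else (p.1 : G)⁻¹).prod) := by
    intro g
    have hg : g ∈ Subgroup.closure (S : Set G) := by rw [hS]; trivial
    induction hg using Subgroup.closure_induction with
    | mem x hx => exact ⟨[(⟨x, hx⟩, true)], by simp⟩
    | one => exact ⟨[], rfl⟩
    | mul x y _ _ hx hy =>
      obtain ⟨l, hl⟩ := hx
      obtain ⟨l', hl'⟩ := hy
      exact ⟨l ++ l', by simp only at hl hl' ⊢; rw [List.map_append, List.prod_append, hl, hl']⟩
    | inv x _ hx =>
      obtain ⟨l, hl⟩ := hx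
      refine ⟨(l.map fun p => (p.1, !p.2)).reverse, ?_⟩
      simp only at hl ⊢
      rw [← hl, List.prod_inv_reverse, List.map_reverse, List.map_map, List.map_map]
      congr 2
      apply List.map_congr_left
      rintro ⟨a, b⟩ _
      cases b <;> simp
  exact hs.countable

theorem geo_sigmaCompact (h : T.Geo S U) [T2Space E] [LocallyCompactSpace E] [PreconnectedSpace E] :
    SigmaCompactSpace E := by
  have := geo_cont h
  obtain ⟨A, hA⟩ := exists_actData h
  have hc : Countable G := countable_of_closure_eq_top A.closure_eq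
  refine SigmaCompactSpace.of_countable (range fun g : G => g • closure U) (countable_range _) ?_ ?_
  · rintro _ ⟨g, rfl⟩
    exact h.cpt.smul g
  · rw [eq_univ_iff_forall]
    intro x
    obtain ⟨g, hg⟩ := geo_cover h x
    exact ⟨_, ⟨g, rfl⟩, smul_set_mono subset_closure hg⟩

theorem geo_secondCountable (h : T.Geo S U) [T2Space E] [LocallyCompactSpace E]
    [PreconnectedSpace E] (d : ℕ) [ChartedSpace (T.EE d) E] : SecondCountableTopology E := by
  have := geo_sigmaCompact h
  exact ChartedSpace.secondCountable_of_sigmaCompact (T.EE d) E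

end geo

/-- vanishing of the compactly supported Alexander–Spanier cohomology in degrees 1 and 2 of the
contractible `4`-manifolds (node of plan B) -/
def NHC : Prop := ∀ (E : Type) [TopologicalSpace E] [T2Space E] [LocallyCompactSpace E]
  [SecondCountableTopology E] [ContractibleSpace E] [ChartedSpace (T.EE 4) E], HC1 E ∧ HC2 E

theorem nTop_of (hG : T.NGeo) (hT : T.NTorsFree) (hH : NHC) : T.NTop := by
  intro M _ _ _ _ _ _ x hM
  obtain ⟨E, _, π, _, S, U, hE, -, -, hE2, hEl, ⟨hE4⟩, -, -, hgeo⟩ := hG 3 M x hM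
  have := geo_cont hgeo
  have h2 : SecondCountableTopology E := geo_secondCountable hgeo 4
  obtain ⟨h1, h2⟩ := hH E
  obtain ⟨A, -⟩ := exists_actData hgeo
  exact ⟨S, A.topHyp h1 h2 (hT 3 M x hM)⟩

end Crest.Agent.R224.Tp
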