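/-
R224 / S0346, topological half, node D0 (NGlue) (helper789).
A 1-cocycle on small connected sets of a contractible space is a coboundary:
the associated double cover has a section by homotopy lifting.
-/
import Crest.Agent.R224.T.Iface

set_option autoImplicit false

noncomputable section

open Topology Set Filter

namespace Crest.Agent.R224.T

namespace Glue

lemma e_self {E : Type} {𝒲 : Set (Set E)} {e : E → E → ZMod 2}
    (he : ∀ W ∈ 𝒲, ∀ p ∈ W, ∀ q ∈ W, ∀ r ∈ W, e p q + e q r = e p r)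
    {V : Set E} (hV : V ∈ 𝒲) {p : E} (hp : p ∈ V) : e p p = 0 := by
  have := he V hV p hp p hp p hp
  rw [CharTwo.add_self_eq_zero] at this
  exact this.symm

lemma e_symm {E : Type} {𝒲 : Set (Set E)} {e : E → E → ZMod 2}
    (he : ∀ W ∈ 𝒲, ∀ p ∈ W, ∀ q ∈ W, ∀ r ∈ W, e p q + e q r = e p r)
    {V : Set E} (hV : V ∈ 𝒲) {p q : E} (hp : p ∈ V) (hq : q ∈ V) : e p q = e q p := by
  have h := he V hV p hp q hq p hp
  rw [e_self he hV hp] at h
  exact CharTwo.add_eq_zero.mp h

/-- index set of the double cover -/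
abbrev Idx {E : Type} (𝒲 : Set (Set E)) : Type := {i : Set E × E // i.1 ∈ 𝒲 ∧ i.2 ∈ i.1}

/-- the double cover attached to a cocycle -/
def core {E : Type} [TopologicalSpace E] {𝒲 : Set (Set E)}
    (hW : ∀ W ∈ 𝒲, IsOpen W ∧ IsPreconnected W) {e : E → E → ZMod 2}
    (he : ∀ W ∈ 𝒲, ∀ p ∈ W, ∀ q ∈ W, ∀ r ∈ W, e p q + e q r = e p r)
    (W : E → Set E) (hmem : ∀ x, x ∈ W x) (hWm : ∀ x, W x ∈ 𝒲) :
    FiberBundleCore (Idx 𝒲) E (ZMod 2) where
  baseSet i := i.1.1
  isOpen_baseSet i := (hW _ i.2.1).1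
  indexAt x := ⟨(W x, x), hWm x, hmem x⟩
  mem_baseSet_at := hmem
  coordChange i j x v := v + (e i.1.2 x + e j.1.2 x)
  coordChange_self i x _ v := by simp only [CharTwo.add_self_eq_zero, add_zero]
  continuousOn_coordChange i j := by
    rcases (i.1.1 ∩ j.1.1).eq_empty_or_nonempty with h | ⟨x0, hx0⟩
    · rw [h, Set.empty_prod]; exact continuousOn_empty _
    · have h1 : ContinuousOn (fun p : E × ZMod 2 => p.2 + (e i.1.2 x0 + e j.1.2 x0))
          ((i.1.1 ∩ j.1.1) ×ˢ univ) := by fun_prop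
      refine h1.congr ?_
      rintro ⟨x, v⟩ ⟨⟨hxi, hxj⟩, _⟩
      have h2 := he _ i.2.1 i.1.2 i.2.2 x hxi x0 hx0.1
      have h3 := he _ j.2.1 j.1.2 j.2.2 x hxj x0 hx0.2
      have h4 : e i.1.2 x0 + e j.1.2 x0 = e i.1.2 x + e j.1.2 x := by
        rw [← h2, ← h3]
        have : e i.1.2 x + e x x0 + (e j.1.2 x + e x x0) =
          e i.1.2 x + e j.1.2 x + (e x x0 + e x x0) := by ring
        rw [this, CharTwo.add_self_eq_zero, add_zero]
      simp only [h4]
  coordChange_comp i j k x _ v := by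
    have : v + (e i.1.2 x + e j.1.2 x) + (e j.1.2 x + e k.1.2 x) =
      v + (e i.1.2 x + e k.1.2 x) + (e j.1.2 x + e j.1.2 x) := by ring
    rw [this, CharTwo.add_self_eq_zero, add_zero]

end Glue

open Glue in
theorem nGlue : NGlue := by
  intro E _ _ 𝒲 hW hcov e he
  have hch : ∀ x : E, ∃ V ∈ 𝒲, x ∈ V := fun x => by
    have : x ∈ ⋃₀ 𝒲 := by rw [hcov]; trivial
    exact this
  choose W hWm hmem using hch
  let Z := core hW he W hmem hWm
  have hcv : IsCoveringMap (Bundle.TotalSpace.proj : Z.TotalSpace → E) :=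
    FiberBundle.isCoveringMap
  obtain ⟨x0, ⟨H⟩⟩ := id_nullhomotopic E
  let K : C(unitInterval × E, E) := ⟨fun p => H (unitInterval.symm p.1, p.2), by fun_prop⟩
  let z0 : Z.TotalSpace := ⟨x0, (0 : ZMod 2)⟩
  let f0 : C(E, Z.TotalSpace) := ContinuousMap.const E z0
  have hK0 : ∀ a, K (0, a) = Bundle.TotalSpace.proj (f0 a) := by
    intro a
    simp [K, f0, z0]
  let L := hcv.liftHomotopy K f0 hK0
  let s : C(E, Z.TotalSpace) := ⟨fun a => L (1, a), by fun_prop⟩
  have hs : ∀ a, (s a).proj = a := by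
    intro a
    have := congrFun (hcv.liftHomotopy_lifts K f0 hK0) (1, a)
    simp only [Function.comp] at this
    rw [show (s a).proj = (L (1, a)).proj from rfl, this]
    simp [K]
  -- the fibre coordinate
  let v : E → ZMod 2 := fun a => ((s a).2 : ZMod 2)
  refine ⟨fun a => v a, ?_⟩
  intro V hV p hp q hq
  let i : Idx 𝒲 := ⟨(V, p), hV, hp⟩
  have hcont : ContinuousOn (fun a => (Z.localTriv i (s a)).2) V := by
    have h1 : ContinuousOn (Z.localTriv i) (Z.localTriv i).source :=
      (Z.localTriv i).continuousOn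
    have h2 : ContinuousOn (fun a => Z.localTriv i (s a)) V := by
      refine h1.comp s.continuous.continuousOn ?_
      intro a ha
      rw [(Z.localTriv i).mem_source]
      change (s a).proj ∈ V
      rw [hs a]
      exact ha
    exact continuous_snd.comp_continuousOn h2
  have hval : ∀ a ∈ V, (Z.localTriv i (s a)).2 = v a + e p a := by
    intro a ha
    have h1 : (Z.localTriv i (s a)).2 = v a + (e (s a).proj (s a).proj + e p (s a).proj) := rfl
    rw [h1, hs a, e_self he hV ha, zero_add]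
  have hc : (Z.localTriv i (s p)).2 = (Z.localTriv i (s q)).2 :=
    (hW V hV).2.constant hcont hp hq
  rw [hval p hp, hval q hq, e_self he hV hp, add_zero] at hc
  change e p q = v p + v q
  rw [hc]
  have : v q + e p q + v q = e p q + (v q + v q) := by ring
  rw [this, CharTwo.add_self_eq_zero, add_zero]

end Crest.Agent.R224.T
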