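/-
R224 / S0346, topological half, node D1 (NH1) (helper789).
-/
import Crest.Agent.R224.T.Iface

set_option autoImplicit false

noncomputable section

open Topology Set Filter

namespace Crest.Agent.R224.T

/-- D1 -/
theorem nH1 (hG : NGlue) : NH1 := by
  intro G _ E _ _ _ S U hgeo ψ hψ
  classical
  -- basic facts on `ψ`
  have hadj : ∀ x y : G, ∀ p : E, p ∈ tr x U → p ∈ tr y U → Adj S x y := by
    rintro x y p ⟨u, hu, rfl⟩ ⟨w, hw, hwp⟩
    refine (hgeo.mem _).2 ⟨w, hw, ?_⟩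
    have : (x⁻¹ * y) • w = u := by
      rw [mul_smul]
      have h2 : y • w = x • u := hwp
      rw [h2, inv_smul_smul]
    rw [this]; exact hu
  have hcoc : ∀ x y z : G, ∀ p : E, p ∈ tr x U → p ∈ tr y U → p ∈ tr z U →
      ψ x y + ψ y z = ψ x z := fun x y z p hx hy hz =>
    hψ x y z (hadj x y p hx hy) (hadj y z p hy hz) (hadj x z p hx hz)
  have hself : ∀ x : G, ∀ p : E, p ∈ tr x U → ψ x x = 0 := by
    intro x p hx
    have := hcoc x x x p hx hx hx
    rw [CharTwo.add_self_eq_zero] at this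
    exact this.symm
  have hsymm : ∀ x y : G, ∀ p : E, p ∈ tr x U → p ∈ tr y U → ψ x y = ψ y x := by
    intro x y p hx hy
    have := hcoc x y x p hx hy hx
    rw [hself x p hx] at this
    exact CharTwo.add_eq_zero.mp this
  have hch : ∀ p : E, ∃ g : G, p ∈ tr g U := by
    intro p
    obtain ⟨g, u, hu, h⟩ := hgeo.cover p
    exact ⟨g, u, hu, h.symm⟩
  choose g hg using hch
  -- the cocycle
  let e : E → E → ZMod 2 := fun p q =>
    if h : ∃ γ : G, p ∈ tr γ U ∧ q ∈ tr γ U then ψ (g p) h.choose + ψ h.choose (g q) else 0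
  have he1 : ∀ γ : G, ∀ p ∈ tr γ U, ∀ q ∈ tr γ U, e p q = ψ (g p) γ + ψ γ (g q) := by
    intro γ p hp q hq
    have h : ∃ γ : G, p ∈ tr γ U ∧ q ∈ tr γ U := ⟨γ, hp, hq⟩
    have h0 : e p q = ψ (g p) h.choose + ψ h.choose (g q) := by simp only [e, dif_pos h]
    rw [h0]
    set δ := h.choose with hδ
    have hp' : p ∈ tr δ U := h.choose_spec.1
    have hq' : q ∈ tr δ U := h.choose_spec.2
    have h1 := hcoc (g p) γ δ p (hg p) hp hp'
    have h2 := hcoc δ γ (g q) q hq' hq (hg q)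
    rw [← h1, ← h2, hsymm δ γ p hp' hp]
    have : ψ (g p) γ + ψ γ δ + (ψ γ δ + ψ γ (g q)) =
      ψ (g p) γ + ψ γ (g q) + (ψ γ δ + ψ γ δ) := by ring
    rw [this, CharTwo.add_self_eq_zero, add_zero]
  have hopen : ∀ γ : G, IsOpen (tr γ U) := by
    intro γ
    have : tr γ U = (fun z : E => γ⁻¹ • z) ⁻¹' U := by
      ext z
      constructor
      · rintro ⟨u, hu, rfl⟩
        simpa using hu
      · intro hz
        exact ⟨γ⁻¹ • z, hz, by simp⟩
    rw [this]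
    exact hgeo.isOpen.preimage (hgeo.cont _)
  have hconn : ∀ γ : G, IsPreconnected (tr γ U) := fun γ =>
    hgeo.conn.isPreconnected.image _ (hgeo.cont γ).continuousOn
  obtain ⟨f, hf⟩ := hG E {V | ∃ γ : G, V = tr γ U}
    (by rintro V ⟨γ, rfl⟩; exact ⟨hopen γ, hconn γ⟩)
    (by
      rw [Set.eq_univ_iff_forall]
      intro p
      exact ⟨tr (g p) U, ⟨g p, rfl⟩, hg p⟩) e
    (by
      rintro V ⟨γ, rfl⟩ p hp q hq r hr
      rw [he1 γ p hp q hq, he1 γ q hq r hr, he1 γ p hp r hr, hsymm (g q) γ q (hg q) hq]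
      have : ψ (g p) γ + ψ γ (g q) + (ψ γ (g q) + ψ γ (g r)) =
        ψ (g p) γ + ψ γ (g r) + (ψ γ (g q) + ψ γ (g q)) := by ring
      rw [this, CharTwo.add_self_eq_zero, add_zero])
  obtain ⟨u0, hu0⟩ := hgeo.conn.nonempty
  let F : G → ZMod 2 := fun γ => f (γ • u0) + ψ (g (γ • u0)) γ
  have hF : ∀ γ : G, ∀ p ∈ tr γ U, F γ = f p + ψ (g p) γ := by
    intro γ p hp
    have hq : γ • u0 ∈ tr γ U := ⟨u0, hu0, rfl⟩
    have h1 := hf (tr γ U) ⟨γ, rfl⟩ (γ • u0) hq p hp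
    rw [he1 γ _ hq p hp, hsymm γ (g p) p hp (hg p)] at h1
    have h2 : F γ + (f p + ψ (g p) γ) = 0 := by
      have : F γ + (f p + ψ (g p) γ) =
        (f (γ • u0) + f p) + (ψ (g (γ • u0)) γ + ψ (g p) γ) := by
        simp only [F]; ring
      rw [this, ← h1, CharTwo.add_self_eq_zero]
    exact CharTwo.add_eq_zero.mp h2
  refine ⟨F, ?_⟩
  intro x y hxy
  obtain ⟨u, hu, hu'⟩ := (hgeo.mem _).1 hxy
  have hpy : y • u ∈ tr y U := ⟨u, hu, rfl⟩
  have hpx : y • u ∈ tr x U := ⟨(x⁻¹ * y) • u, hu', by simp [mul_smul]⟩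
  rw [hF x _ hpx, hF y _ hpy]
  have h1 := hcoc x (g (y • u)) y _ hpx (hg _) hpy
  rw [← h1, hsymm x _ _ hpx (hg _)]
  have : f (y • u) + ψ (g (y • u)) x + (f (y • u) + ψ (g (y • u)) y) =
    ψ (g (y • u)) x + ψ (g (y • u)) y + (f (y • u) + f (y • u)) := by ring
  rw [this, CharTwo.add_self_eq_zero, add_zero]

end Crest.Agent.R224.T
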