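/-
R224 / S0346 topological half: C5 NLift (helper601).
The sum of all lifts of a small mod 2 fundamental cycle of a compact manifold is a fundamental
locally finite cycle of a contractible cover.
-/
import Crest.Agent.R224.T.Iface
import Crest.Agent.R197.FDeck

set_option autoImplicit false

noncomputable section

open Topology Set Filter
open Crest.Agent.R197.F

namespace Crest.Agent.R224.T

namespace Lift

instance contractible_Dl (n : ℕ) : ContractibleSpace (Dl n) :=
  (convex_stdSimplex ℝ (Fin (n + 1))).contractibleSpace ⟨_, single_mem_stdSimplex ℝ 0⟩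

section chains
variable {X : Type} [TopologicalSpace X] {Y : Type} [TopologicalSpace Y]

theorem cut_apply {n : ℕ} {m : C(Dl n, X) → ZMod 2} {K : Set X}
    (h : {σ : C(Dl n, X) | m σ ≠ 0 ∧ (range σ ∩ K).Nonempty}.Finite) (σ : C(Dl n, X)) :
    cut m K σ = open Classical in if (range σ ∩ K).Nonempty then m σ else 0 := by
  classical
  unfold cut
  rw [dif_pos h]
  rfl

theorem cut_apply_of_meets {n : ℕ} {m : C(Dl n, X) → ZMod 2} {K : Set X}
    (h : {σ : C(Dl n, X) | m σ ≠ 0 ∧ (range σ ∩ K).Nonempty}.Finite) {σ : C(Dl n, X)}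
    (hσ : (range σ ∩ K).Nonempty) : cut m K σ = m σ := by
  rw [cut_apply h, if_pos hσ]

theorem mem_supp_cut {n : ℕ} {m : C(Dl n, X) → ZMod 2} {K : Set X}
    (h : {σ : C(Dl n, X) | m σ ≠ 0 ∧ (range σ ∩ K).Nonempty}.Finite) (σ : C(Dl n, X)) :
    σ ∈ (cut m K).support ↔ m σ ≠ 0 ∧ (range σ ∩ K).Nonempty := by
  rw [Finsupp.mem_support_iff, cut_apply h]
  by_cases h1 : (range σ ∩ K).Nonempty
  · simp [h1]
  · simp [h1]

open Classical in
/-- coefficient of the boundary -/
theorem bd_apply {n : ℕ} (c : Ch (n + 1) X) (τ : C(Dl n, X)) :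
    bd n c τ = ∑ i : Fin (n + 2), ∑ σ ∈ c.support with σ.comp (face n i) = τ, c σ := by
  unfold bd
  rw [Finsupp.linearCombination_apply, Finsupp.sum, Finsupp.finsetSum_apply]
  simp only [Finset.sum_filter]
  rw [Finset.sum_comm]
  refine Finset.sum_congr rfl fun σ _ => ?_
  rw [Finsupp.smul_apply, Finsupp.finsetSum_apply, smul_eq_mul, Finset.mul_sum]
  refine Finset.sum_congr rfl fun i _ => ?_
  rw [Finsupp.single_apply]
  split_ifs <;> simp

theorem range_comp_face {n : ℕ} (σ : C(Dl (n + 1), X)) (i : Fin (n + 2)) :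
    range (σ.comp (face n i)) ⊆ range σ := by
  rintro _ ⟨v, rfl⟩
  exact ⟨face n i v, rfl⟩

theorem In.mono' {A B : Set X} {n : ℕ} {c : Ch n X} (h : In A c) (hAB : A ⊆ B) : In B c :=
  fun σ hσ => (h σ hσ).trans hAB

theorem In.bd' {A : Set X} {n : ℕ} {c : Ch (n + 1) X} (h : In A c) : In A (bd n c) := by
  classical
  intro τ hτ
  rw [Finsupp.mem_support_iff, bd_apply] at hτ
  obtain ⟨i, -, hi⟩ := Finset.exists_ne_zero_of_sum_ne_zero hτ
  obtain ⟨σ, hσ, -⟩ := Finset.exists_ne_zero_of_sum_ne_zero hi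
  rw [Finset.mem_filter] at hσ
  rw [← hσ.2]
  exact (range_comp_face σ i).trans (h σ hσ.1)

theorem In.add' {A : Set X} {n : ℕ} {c c' : Ch n X} (h : In A c) (h' : In A c') :
    In A (c + c') := by
  classical
  intro σ hσ
  rcases Finset.mem_union.1 (Finsupp.support_add hσ) with h1 | h1
  · exact h σ h1
  · exact h' σ h1

theorem Nul.add' {A : Set X} {n : ℕ} {c c' : Ch n X} (h : Nul A c) (h' : Nul A c') :
    Nul A (c + c') := by
  obtain ⟨b, e, he, rfl⟩ := h
  obtain ⟨b', e', he', rfl⟩ := h'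
  exact ⟨b + b', e + e', In.add' he he', by rw [map_add]; abel⟩

theorem Nul.of_in {A : Set X} {n : ℕ} {c : Ch n X} (h : In A c) : Nul A c :=
  ⟨0, c, h, by simp⟩

theorem push_single (f : C(X, Y)) {n : ℕ} (σ : C(Dl n, X)) (a : ZMod 2) :
    push f n (Finsupp.single σ a) = Finsupp.single (f.comp σ) a := by
  simp [push]

theorem bd_single {n : ℕ} (σ : C(Dl (n + 1), X)) :
    bd n (Finsupp.single σ 1) = ∑ i, Finsupp.single (σ.comp (face n i)) (1 : ZMod 2) := by
  simp [bd]

theorem bd_push' (f : C(X, Y)) {n : ℕ} (c : Ch (n + 1) X) :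
    bd n (push f (n + 1) c) = push f n (bd n c) := by
  have : (bd n).comp (push f (n + 1)) = (push f n).comp (bd n) := by
    apply Finsupp.lhom_ext'
    intro σ
    apply LinearMap.ext_ring
    simp only [LinearMap.comp_apply, Finsupp.lsingle_apply]
    rw [push_single, bd_single, bd_single, map_sum]
    refine Finset.sum_congr rfl fun i _ => ?_
    rw [push_single]; rfl
  exact LinearMap.congr_fun this c

theorem In.push' (f : C(X, Y)) {A : Set X} {B : Set Y} {n : ℕ} {c : Ch n X} (h : In A c)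
    (hAB : ∀ x ∈ A, f x ∈ B) : In B (push f n c) := by
  classical
  intro τ hτ
  have := Finsupp.mapDomain_support (f := fun σ : C(Dl n, X) => f.comp σ) (s := c) hτ
  rw [Finset.mem_image] at this
  obtain ⟨σ, hσ, rfl⟩ := this
  rintro _ ⟨v, rfl⟩
  exact hAB _ (h σ hσ ⟨v, rfl⟩)

theorem Nul.push' (f : C(X, Y)) {A : Set X} {B : Set Y} {n : ℕ} {c : Ch n X} (h : Nul A c)
    (hAB : ∀ x ∈ A, f x ∈ B) : Nul B (push f n c) := by
  obtain ⟨b, e, he, rfl⟩ := h
  exact ⟨push f (n + 1) b, push f n e, In.push' f he hAB, by rw [map_add, bd_push']⟩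

end chains

section cov

variable {M E : Type} [TopologicalSpace M] [TopologicalSpace E] {π : E → M}

/-- sections of the covering over an open set -/
structure Sec (π : E → M) (V : Set M) (s : M → E) : Prop where
  isOpen : IsOpen V
  cont : ContinuousOn s V
  sec : ∀ x ∈ V, π (s x) = x

theorem Sec.image_open (hπ : IsCoveringMap π) {V : Set M} {s : M → E} (h : Sec π V s) :
    IsOpen (s '' V) := by
  rw [isOpen_iff_mem_nhds]
  rintro _ ⟨x, hx, rfl⟩
  obtain ⟨φ, hφ, hφπ⟩ := hπ.isLocalHomeomorph (s x)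
  have h1 : s ⁻¹' φ.source ∈ 𝓝[V] x := (h.cont x hx) (φ.open_source.mem_nhds hφ)
  rw [h.isOpen.nhdsWithin_eq hx] at h1
  have h2 : π ⁻¹' (V ∩ s ⁻¹' φ.source) ∈ 𝓝 (s x) := by
    apply hπ.continuous.continuousAt
    rw [h.sec x hx]
    exact inter_mem (h.isOpen.mem_nhds hx) h1
  filter_upwards [h2, φ.open_source.mem_nhds hφ] with e he he'
  refine ⟨π e, he.1, ?_⟩
  apply φ.injOn he.2 he'
  rw [← hφπ, h.sec _ he.1]

theorem exists_sec (hπ : IsCoveringMap π) (e : E) {U : Set E} (hU : IsOpen U) (he : e ∈ U) :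
    ∃ V s, Sec π V s ∧ π e ∈ V ∧ s (π e) = e ∧ ∀ x ∈ V, s x ∈ U := by
  obtain ⟨φ, hφ, hφπ⟩ := hπ.isLocalHomeomorph e
  refine ⟨φ.target ∩ φ.symm ⁻¹' U, φ.symm, ⟨φ.isOpen_inter_preimage_symm hU, ?_, ?_⟩, ?_, ?_, ?_⟩
  · exact φ.continuousOn_symm.mono inter_subset_left
  · rintro x ⟨hx, -⟩
    rw [hφπ]; exact φ.right_inv hx
  · rw [hφπ]
    exact ⟨φ.map_source hφ, by simpa [φ.left_inv hφ] using he⟩
  · rw [hφπ]; exact φ.left_inv hφ
  · rintro x ⟨-, hx⟩; exact hx

/-- every subset of a fibre is closed -/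
theorem fibre_closed [T1Space M] (hπ : IsCoveringMap π) (m : M) (B : Set E)
    (hB : ∀ e ∈ B, π e = m) : IsClosed B := by
  rw [← isOpen_compl_iff, isOpen_iff_mem_nhds]
  intro e he
  by_cases hm : π e = m
  · obtain ⟨φ, hφ, hφπ⟩ := hπ.isLocalHomeomorph e
    filter_upwards [φ.open_source.mem_nhds hφ] with e' he' hB'
    have : e' = e := φ.injOn he' hφ (by rw [← hφπ, hB e' hB', hm])
    exact he (this ▸ hB')
  · have : π ⁻¹' {m}ᶜ ∈ 𝓝 e := hπ.continuous.continuousAt (isOpen_compl_singleton.mem_nhds hm)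
    filter_upwards [this] with e' he' hB'
    exact he' (hB e' hB')

variable [ContractibleSpace E]

theorem Sec.deck_disj (hπ : IsCoveringMap π) {V : Set M} {s : M → E} (h : Sec π V s)
    {g g' : Deck π} {x y : M} (hx : x ∈ V) (hy : y ∈ V) (hxy : g • s x = g' • s y) : g = g' := by
  have h1 : x = y := by
    have := congrArg π hxy
    rwa [Deck.proj_smul g, Deck.proj_smul g', h.sec x hx, h.sec y hy] at this
  subst h1
  exact Deck.ext_of_smul_eq hπ _ hxy

/-- the lift of a simplex lying in `V` given by the section -/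
def Sec.lift {V : Set M} {s : M → E} (h : Sec π V s) {n : ℕ} (σ : C(Dl n, M))
    (hσ : range σ ⊆ V) : C(Dl n, E) :=
  ⟨s ∘ σ, h.cont.comp_continuous σ.continuous fun v => hσ ⟨v, rfl⟩⟩

theorem Sec.exists_deck (hπ : IsCoveringMap π) {V : Set M} {s : M → E} (h : Sec π V s) {n : ℕ}
    (σ' : C(Dl n, E)) (hσ : range (π ∘ σ') ⊆ V) :
    ∃ g : Deck π, ∀ v, σ' v = g • s (π (σ' v)) := by
  obtain ⟨v0⟩ : Nonempty (Dl n) := inferInstance
  have hV : ∀ v, π (σ' v) ∈ V := fun v => hσ ⟨v, rfl⟩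
  obtain ⟨g, hg⟩ := Deck.exists_smul_eq hπ (s (π (σ' v0))) (σ' v0) (h.sec _ (hV v0))
  refine ⟨g, fun v => ?_⟩
  have := hπ.eq_of_comp_eq (g₁ := σ') (g₂ := fun v => g • s (π (σ' v))) σ'.continuous
    (g.1.continuous.comp (h.cont.comp_continuous (hπ.continuous.comp σ'.continuous) hV))
    (funext fun v => by
      simp only [Function.comp_apply]
      rw [Deck.proj_smul g, h.sec _ (hV v)]) v0 hg.symm
  exact congrFun this v

/-- only finitely many lifts of a small simplex meet a compact set -/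
theorem Sec.finite_lifts [T2Space M] (hπ : IsCoveringMap π) {V : Set M} {s : M → E}
    (h : Sec π V s) {n : ℕ} (σ : C(Dl n, M)) (hσ : range σ ⊆ V) {K : Set E} (hK : IsCompact K) :
    {σ' : C(Dl n, E) | (∀ v, π (σ' v) = σ v) ∧ (range σ' ∩ K).Nonempty}.Finite := by
  have hR : IsClosed (range σ) := (isCompact_range σ.continuous).isClosed
  have hK' : IsCompact (K ∩ π ⁻¹' (range σ)) := hK.inter_right (hR.preimage hπ.continuous)
  have hop := h.image_open hπ
  obtain ⟨F, hF⟩ := hK'.elim_finite_subcover (fun g : Deck π => (fun z => g • z) '' (s '' V))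
    (fun g => g.1.isOpenMap _ hop) (by
      rintro z ⟨-, v, hv⟩
      have hz : π z ∈ V := hv ▸ hσ ⟨v, rfl⟩
      obtain ⟨g, hg⟩ := Deck.exists_smul_eq hπ (s (π z)) z (h.sec _ hz)
      rw [Set.mem_iUnion]
      exact ⟨g, s (π z), ⟨π z, hz, rfl⟩, hg⟩)
  refine ((F.finite_toSet).image (fun g : Deck π =>
    (⟨g.1, g.1.continuous⟩ : C(E, E)).comp (h.lift σ hσ))).subset ?_
  rintro σ' ⟨h1, z, ⟨v, hv⟩, hzK⟩
  have hr : range (π ∘ σ') ⊆ V := by
    rintro _ ⟨w, rfl⟩
    simp only [Function.comp_apply, h1]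
    exact hσ ⟨w, rfl⟩
  obtain ⟨g, hg⟩ := h.exists_deck hπ σ' hr
  refine ⟨g, ?_, ?_⟩
  · have hz : z ∈ K ∩ π ⁻¹' (range σ) := ⟨hzK, v, by rw [← h1, hv]⟩
    have := hF hz
    simp only [Set.mem_iUnion] at this
    obtain ⟨g', hg', _, ⟨y, hy, rfl⟩, hzy⟩ := this
    have hx : π (σ' v) ∈ V := hr ⟨v, rfl⟩
    have h2 : g' • s y = g • s (π (σ' v)) := by
      rw [← hg v, hv]; exact hzy
    have := h.deck_disj hπ hy hx h2
    rw [← this]
    exact hg'
  · ext v
    have := hg v
    rw [h1] at this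
    exact this.symm

end cov

end Lift

open Lift in
theorem nLift (hF : NFund) (hX : NExc) : NLift := by
  classical
  intro d M E _ _ _ _ _ _ π hπ hsurj 𝒰 hUo hUc hUd
  -- the small open sets of `M`
  let 𝒱 : Set (Set M) := {V | ∃ U ∈ 𝒰, ∃ s : M → E, Sec π V s ∧ ∀ x ∈ V, s x ∈ U}
  have hVo : ∀ V ∈ 𝒱, IsOpen V := by
    rintro V ⟨U, _, s, hs, _⟩; exact hs.isOpen
  have hVc : ⋃₀ 𝒱 = univ := by
    rw [eq_univ_iff_forall]
    intro m
    obtain ⟨e, rfl⟩ := hsurj m
    obtain ⟨U, hU, heU⟩ : ∃ U ∈ 𝒰, e ∈ U := by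
      have : e ∈ ⋃₀ 𝒰 := by rw [hUc]; trivial
      exact this
    obtain ⟨V, s, hs, heV, -, hsU⟩ := exists_sec hπ e (hUo U hU) heU
    exact ⟨V, ⟨U, hU, s, hs, hsU⟩, heV⟩
  obtain ⟨α, hα, hαs, hαd⟩ := hF d M 𝒱 hVo hVc
  let πc : C(E, M) := ⟨π, hπ.continuous⟩
  let μ : C(Dl (d + 1), E) → ZMod 2 := fun σ => α (πc.comp σ)
  have hμsupp : ∀ σ, μ σ ≠ 0 → πc.comp σ ∈ α.support := fun σ hσ => Finsupp.mem_support_iff.2 hσ
  -- local finiteness
  have hLF : LF μ := by
    intro K hK
    have h1 : (⋃ σ ∈ (α.support : Set C(Dl (d + 1), M)),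
        {σ' : C(Dl (d + 1), E) | (∀ v, π (σ' v) = σ v) ∧ (range σ' ∩ K).Nonempty}).Finite := by
      refine Set.Finite.biUnion α.support.finite_toSet fun σ hσ => ?_
      obtain ⟨V, ⟨U, hU, s, hs, hsU⟩, hσV⟩ := hαs σ hσ
      exact hs.finite_lifts hπ σ hσV hK
    refine h1.subset ?_
    rintro σ' ⟨h2, h3⟩
    simp only [Set.mem_iUnion]
    exact ⟨πc.comp σ', hμsupp σ' h2, fun v => rfl, h3⟩
  have hcutfin : ∀ K : Set E, IsCompact K →
    {σ : C(Dl (d + 1), E) | μ σ ≠ 0 ∧ (range σ ∩ K).Nonempty}.Finite := hLF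
  -- cycle condition
  have hcyc : ∀ K : Set E, IsCompact K → RC Kᶜ (cut μ K) := by
    intro K hK τ hτ
    by_contra hmeet
    have hτK : (range τ ∩ K).Nonempty := by
      rw [Set.not_subset] at hmeet
      obtain ⟨z, hz, hz'⟩ := hmeet
      exact ⟨z, hz, not_not.1 hz'⟩
    rw [Finsupp.mem_support_iff] at hτ
    apply hτ
    have h0 : bd d α (πc.comp τ) = 0 := by rw [hα]; rfl
    rw [bd_apply] at h0 ⊢
    rw [← h0]
    refine Finset.sum_congr rfl fun i _ => ?_
    refine Finset.sum_nbij (fun σ => πc.comp σ) ?_ ?_ ?_ ?_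
    · intro σ hσ
      rw [Finset.mem_filter] at hσ ⊢
      rw [mem_supp_cut (hcutfin K hK)] at hσ
      refine ⟨hμsupp σ hσ.1.1, ?_⟩
      rw [← hσ.2]; rfl
    · intro σ hσ σ' hσ' h
      simp only [Finset.coe_filter, Set.mem_ofPred_eq] at hσ hσ'
      obtain ⟨v0⟩ : Nonempty (Dl d) := inferInstance
      apply lift_unique hπ (fun a => DFunLike.congr_fun h a) (face d i v0)
      exact (DFunLike.congr_fun hσ.2 v0).trans (DFunLike.congr_fun hσ'.2 v0).symm
    · intro σ hσ
      simp only [Finset.coe_filter, Set.mem_ofPred_eq] at hσ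
      obtain ⟨v0⟩ : Nonempty (Dl d) := inferInstance
      obtain ⟨σ', h1, h2⟩ := exists_lift hπ σ (face d i v0) (τ v0)
        (DFunLike.congr_fun hσ.2 v0).symm
      have h3 : πc.comp σ' = σ := ContinuousMap.ext h1
      have h4 : σ'.comp (face d i) = τ := by
        apply lift_unique hπ (fun a => ?_) v0 h2
        show π (σ' (face d i a)) = π (τ a)
        rw [h1]
        exact DFunLike.congr_fun hσ.2 a
      refine ⟨σ', ?_, h3⟩
      simp only [Finset.coe_filter, Set.mem_ofPred_eq]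
      refine ⟨?_, h4⟩
      rw [mem_supp_cut (hcutfin K hK)]
      refine ⟨?_, ?_⟩
      · show α (πc.comp σ') ≠ 0
        rw [h3]; exact Finsupp.mem_support_iff.1 hσ.1
      · obtain ⟨z, hz, hzK⟩ := hτK
        refine ⟨z, ?_, hzK⟩
        apply range_comp_face σ' i
        rw [h4]; exact hz
    · intro σ hσ
      rw [Finset.mem_filter, mem_supp_cut (hcutfin K hK)] at hσ
      exact cut_apply_of_meets (hcutfin K hK) hσ.1.2
  -- local degree
  have hdeg : ∀ p : E, ¬ Nul {p}ᶜ (cut μ {p}) := by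
    intro p hnul
    apply hαd (π p)
    have hKp := hcutfin {p} isCompact_singleton
    -- the open set `A`
    let B : Set E := {e | π e = π p ∧ e ≠ p}
    have hBc : IsClosed B := fibre_closed hπ (π p) B fun e he => he.1
    let A : Set E := Bᶜ
    have hAo : IsOpen A := hBc.isOpen_compl
    have hpA : p ∈ A := fun h => h.2 rfl
    let jA : C(A, E) := ⟨Subtype.val, continuous_subtype_val⟩
    have hj : IsOpenEmbedding jA := hAo.isOpenEmbedding_subtypeVal
    let πA : C(A, M) := πc.comp jA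
    let L : Set A := {⟨p, hpA⟩}
    have hL : jA '' L = {p} := by
      show jA '' {⟨p, hpA⟩} = {p}
      rw [Set.image_singleton]; rfl
    have hpc : IsClosed ({p} : Set E) := fibre_closed hπ (π p) {p} fun e he => by
      rw [Set.mem_singleton_iff] at he; rw [he]
    -- all simplices of the cut lie in `A`
    have hcutA : In A (cut μ {p}) := by
      intro σ hσ
      rw [mem_supp_cut hKp] at hσ
      obtain ⟨h1, z, ⟨v, hv⟩, hz⟩ := hσ
      rw [Set.mem_singleton_iff] at hz
      obtain ⟨V, ⟨U, hU, s, hs, hsU⟩, hσV⟩ := hαs _ (hμsupp σ h1)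
      obtain ⟨g, hg⟩ := hs.exists_deck hπ σ hσV
      rintro _ ⟨w, rfl⟩ ⟨h2, h3⟩
      apply h3
      have e1 : σ v = p := hv.trans hz
      rw [hg w, h2, ← e1, ← hg v]
    -- restriction to `A`
    obtain ⟨c', hc'⟩ : ∃ c' : Ch (d + 1) A, push jA (d + 1) c' = cut μ {p} := by
      have hlift : ∀ σ ∈ (cut μ {p}).support, ∃ σ' : C(Dl (d + 1), A), jA.comp σ' = σ :=
        fun σ hσ => ⟨⟨fun v => ⟨σ v, hcutA σ hσ ⟨v, rfl⟩⟩, by fun_prop⟩, by ext v; rfl⟩
      have : Nonempty C(Dl (d + 1), A) := ⟨ContinuousMap.const _ ⟨p, hpA⟩⟩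
      choose! r hr using hlift
      refine ⟨∑ σ ∈ (cut μ {p}).support, Finsupp.single (r σ) (cut μ {p} σ), ?_⟩
      rw [map_sum]
      conv_rhs => rw [← Finsupp.sum_single (cut μ {p})]
      refine Finset.sum_congr rfl fun σ hσ => ?_
      rw [push_single, hr σ hσ]
    have hRC : RC Lᶜ c' := by
      have h1 : In (jA '' L)ᶜ (push jA d (bd d c')) := by
        rw [← bd_push', hc', hL]
        exact hcyc {p} isCompact_singleton
      intro τ hτ
      have h2 : jA.comp τ ∈ (push jA d (bd d c')).support := by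
        rw [Finsupp.mem_support_iff]
        have : push jA d (bd d c') (jA.comp τ) = bd d c' τ :=
          Finsupp.mapDomain_apply (f := fun σ : C(Dl d, A) => jA.comp σ)
            (fun a b hab => by
              ext v
              have := DFunLike.congr_fun hab v
              exact this) _ _
        rw [this]
        exact Finsupp.mem_support_iff.1 hτ
      rintro _ ⟨v, rfl⟩ hv
      exact h1 _ h2 ⟨v, rfl⟩ ⟨τ v, hv, rfl⟩
    have hN1 : Nul (jA '' L)ᶜ (push jA (d + 1) c') := by rw [hc', hL]; exact hnul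
    have hN2 : Nul Lᶜ c' :=
      ((hX A E jA hj L (by rw [hL]; exact hpc) d).2 c' hRC).1 hN1
    have hN3 : Nul {π p}ᶜ (push πA (d + 1) c') := by
      refine Nul.push' πA hN2 ?_
      intro x hx hx'
      apply hx
      show x = ⟨p, hpA⟩
      apply Subtype.ext
      by_contra hne
      exact x.2 ⟨hx', hne⟩
    have hN4 : push πA (d + 1) c' = push πc (d + 1) (cut μ {p}) := by
      rw [← hc']
      unfold push
      simp only [Finsupp.lmapDomain_apply]
      rw [← Finsupp.mapDomain_comp]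
      rfl
    rw [hN4] at hN3
    -- compare with `α`
    have hkey : α = push πc (d + 1) (cut μ {p}) + (α + push πc (d + 1) (cut μ {p})) := by
      have : push πc (d + 1) (cut μ {p}) + push πc (d + 1) (cut μ {p}) = 0 := by
        ext τ
        rw [Finsupp.add_apply]
        exact CharTwo.add_self_eq_zero _
      rw [add_comm α, ← add_assoc, this, zero_add]
    rw [hkey]
    refine Nul.add' hN3 (Nul.of_in ?_)
    -- `α + push` avoids `π p`
    intro σ hσ
    by_contra hmeet
    rw [Finsupp.mem_support_iff] at hσ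
    apply hσ
    have hσp : ∃ v, σ v = π p := by
      rw [Set.not_subset] at hmeet
      obtain ⟨z, ⟨v, hv⟩, hz'⟩ := hmeet
      exact ⟨v, hv.trans (not_not.1 hz')⟩
    obtain ⟨v, hv⟩ := hσp
    rw [Finsupp.add_apply]
    -- coefficient of the push forward
    have hcoef : push πc (d + 1) (cut μ {p}) σ = α σ := by
      obtain ⟨σ', h1, h2⟩ := exists_lift hπ σ v p hv.symm
      have h3 : πc.comp σ' = σ := ContinuousMap.ext h1
      by_cases hσα : α σ = 0
      · rw [hσα]
        by_contra hne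
        have := Finsupp.mapDomain_support (f := fun σ : C(Dl (d + 1), E) => πc.comp σ)
          (s := cut μ {p}) (Finsupp.mem_support_iff.2 hne)
        rw [Finset.mem_image] at this
        obtain ⟨σ'', h4, h5⟩ := this
        rw [mem_supp_cut hKp] at h4
        apply h4.1
        show α (πc.comp σ'') = 0
        rw [← hσα]; exact congrArg α h5
      · -- unique lift through `p`
        have hsupp : σ ∈ α.support := Finsupp.mem_support_iff.2 hσα
        have huniq : ∀ τ ∈ (cut μ {p}).support, πc.comp τ = σ → τ = σ' := by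
          intro τ hτ hτσ
          rw [mem_supp_cut hKp] at hτ
          obtain ⟨h4, z, ⟨w, hw⟩, hz⟩ := hτ
          rw [Set.mem_singleton_iff] at hz
          obtain ⟨V, ⟨U, hU, s, hs, hsU⟩, hσV⟩ := hαs _ hsupp
          have hτV : range (π ∘ τ) ⊆ V := by
            rintro _ ⟨u, rfl⟩
            apply hσV
            exact ⟨u, (DFunLike.congr_fun hτσ u).symm⟩
          have hσ'V : range (π ∘ σ') ⊆ V := by
            rintro _ ⟨u, rfl⟩
            apply hσV
            exact ⟨u, (h1 u).symm⟩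
          obtain ⟨g, hg⟩ := hs.exists_deck hπ τ hτV
          obtain ⟨g', hg'⟩ := hs.exists_deck hπ σ' hσ'V
          have e1 : g • s (π (τ w)) = g' • s (π (σ' v)) := by
            rw [← hg, ← hg', h2, hw, hz]
          have e2 : g = g' := hs.deck_disj hπ (hτV ⟨w, rfl⟩) (hσ'V ⟨v, rfl⟩) e1
          ext u
          rw [hg u, hg' u, e2, h1 u]
          have := DFunLike.congr_fun hτσ u
          rw [← this]; rfl
        have hmem : σ' ∈ (cut μ {p}).support := by
          rw [mem_supp_cut hKp]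
          refine ⟨?_, p, ⟨v, h2⟩, rfl⟩
          show α (πc.comp σ') ≠ 0
          rw [h3]; exact hσα
        show (Finsupp.mapDomain (fun σ : C(Dl (d + 1), E) => πc.comp σ) (cut μ {p})) σ = α σ
        rw [Finsupp.mapDomain, Finsupp.sum, Finsupp.finsetSum_apply,
          Finset.sum_eq_single_of_mem σ' hmem]
        · rw [h3, Finsupp.single_eq_same]
          rw [mem_supp_cut hKp] at hmem
          rw [cut_apply_of_meets hKp hmem.2]
          show α (πc.comp σ') = α σ
          rw [h3]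
        · intro τ hτ hne
          rw [Finsupp.single_apply, if_neg]
          intro h5
          exact hne (huniq τ hτ h5)
    rw [hcoef]
    exact CharTwo.add_self_eq_zero _
  refine ⟨μ, ⟨⟨hLF, hcyc⟩, hdeg⟩, ?_⟩
  -- smallness
  intro σ hσ
  obtain ⟨V, ⟨U, hU, s, hs, hsU⟩, hσV⟩ := hαs _ (hμsupp σ hσ)
  obtain ⟨g, hg⟩ := hs.exists_deck hπ σ hσV
  refine ⟨g.1 '' U, hUd U hU g.1 g.2, ?_⟩
  rintro _ ⟨v, rfl⟩
  exact ⟨s (π (σ v)), hsU _ (hσV ⟨v, rfl⟩), (hg v).symm⟩

end Crest.Agent.R224.T
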