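/-
R224 / T / TFAlg (helper247): the algebraic identities of an induced `ZMod n`-module
(homotopies between `1 - h` and the norm).
-/
import Mathlib

set_option autoImplicit false

noncomputable section

namespace Crest.Agent.R224.TF

section

variable {M : Type*} [AddCommGroup M] {n : ℕ}

/-- the norm -/
def nrm (n : ℕ) (h : M →+ M) (x : M) : M := ∑ b ∈ Finset.range n, (h^[b]) x

/-- `1 - h` -/
def dif (h : M →+ M) (x : M) : M := x - h x

/-- first homotopy -/
def hs1 (n : ℕ) (h : M →+ M) (f : ZMod n → M →+ M) (x : M) : M :=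
  ∑ a ∈ Finset.range n, ∑ b ∈ Finset.range (n - 1 - a), (h^[b]) (f ((a : ZMod n) + 1) x)

theorem iter_sub (h : M →+ M) (b : ℕ) (x y : M) : (h^[b]) (x - y) = (h^[b]) x - (h^[b]) y := by
  induction b generalizing x y with
  | zero => rfl
  | succ b ih => rw [Function.iterate_succ_apply, map_sub, ih]; rfl

theorem iter_add (h : M →+ M) (b : ℕ) (x y : M) : (h^[b]) (x + y) = (h^[b]) x + (h^[b]) y := by
  induction b generalizing x y with
  | zero => rfl
  | succ b ih => rw [Function.iterate_succ_apply, map_add, ih]; rfl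

theorem iter_zero (h : M →+ M) (b : ℕ) : (h^[b]) (0 : M) = 0 := by
  induction b with
  | zero => rfl
  | succ b ih => rw [Function.iterate_succ_apply, map_zero, ih]

theorem nrm_dif (h : M →+ M) (hn : ∀ x, (h^[n]) x = x) (x : M) : nrm n h (dif h x) = 0 := by
  unfold nrm dif
  simp only [iter_sub]
  have : ∀ b, (h^[b]) (h x) = (h^[b + 1]) x := fun b => by rw [Function.iterate_succ_apply]
  simp only [this]
  rw [Finset.sum_range_sub' (fun b => (h^[b]) x) n, hn]
  simp

theorem dif_nrm (h : M →+ M) (hn : ∀ x, (h^[n]) x = x) (x : M) : dif h (nrm n h x) = 0 := by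
  unfold nrm dif
  rw [map_sum]
  have : ∀ b, h ((h^[b]) x) = (h^[b + 1]) x := fun b => by rw [Function.iterate_succ_apply']
  simp only [this]
  rw [← Finset.sum_sub_distrib, Finset.sum_range_sub' (fun b => (h^[b]) x) n, hn]
  simp

theorem dif_sum (h : M →+ M) (k : ℕ) (y : M) :
    dif h (∑ b ∈ Finset.range k, (h^[b]) y) = y - (h^[k]) y := by
  unfold dif
  rw [map_sum]
  have : ∀ b, h ((h^[b]) y) = (h^[b + 1]) y := fun b => by rw [Function.iterate_succ_apply']
  simp only [this]
  rw [← Finset.sum_sub_distrib, Finset.sum_range_sub' (fun b => (h^[b]) y) k]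
  rfl

/-- (I1) `(1 - h) s₁ + s₂ N = Σ f` -/
theorem id1 [NeZero n] (h : M →+ M) (f : ZMod n → M →+ M)
    (hf : ∀ a x, f (a + 1) (h x) = h (f a x)) (x : M) :
    dif h (hs1 n h f x) + f 0 (nrm n h x) = ∑ a ∈ Finset.range n, f ((a : ZMod n) + 1) x := by
  have hn : 0 < n := Nat.pos_of_ne_zero (NeZero.ne n)
  have hfb : ∀ (b : ℕ) (a : ZMod n) (y : M), f (a + b) ((h^[b]) y) = (h^[b]) (f a y) := by
    intro b
    induction b with
    | zero => intro a y; simp
    | succ b ih =>
      intro a y
      rw [Function.iterate_succ_apply', Function.iterate_succ_apply', Nat.cast_succ, ← add_assoc,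
        hf, ih]
  have e1 : dif h (hs1 n h f x) = ∑ a ∈ Finset.range n,
      (f ((a : ZMod n) + 1) x - (h^[n - 1 - a]) (f ((a : ZMod n) + 1) x)) := by
    have hd : ∀ y : M, dif h y = ((AddMonoidHom.id M) - h) y := fun y => rfl
    unfold hs1
    rw [hd, map_sum]
    refine Finset.sum_congr rfl fun a _ => ?_
    rw [← hd, dif_sum]
  have e2 : f 0 (nrm n h x) = ∑ a ∈ Finset.range n, (h^[n - 1 - a]) (f ((a : ZMod n) + 1) x) := by
    unfold nrm
    rw [map_sum, ← Finset.sum_range_reflect]
    refine Finset.sum_congr rfl fun a ha => ?_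
    have ha' : a < n := Finset.mem_range.1 ha
    rw [← hfb]
    congr 1
    have : ((n - 1 - a : ℕ) : ZMod n) = -1 - a := by
      have h1 : ((n - 1 - a : ℕ) : ZMod n) + (a + 1 : ℕ) = ((n - 1 - a + (a + 1) : ℕ) : ZMod n) := by
        push_cast; ring
      have h2 : n - 1 - a + (a + 1) = n := by omega
      rw [h2, ZMod.natCast_self] at h1
      push_cast at h1
      linear_combination h1
    rw [this]
    ring_nf
  rw [e1, e2, ← Finset.sum_add_distrib]
  refine Finset.sum_congr rfl fun a _ => ?_
  abel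

/-- (I2) `N s₂ + s₁ (1 - h) = Σ f` -/
theorem id2 [NeZero n] (h : M →+ M) (f : ZMod n → M →+ M)
    (hf : ∀ a x, f (a + 1) (h x) = h (f a x)) (x : M) :
    nrm n h (f 0 x) + hs1 n h f (dif h x) = ∑ a ∈ Finset.range n, f (a : ZMod n) x := by
  have hn : 0 < n := Nat.pos_of_ne_zero (NeZero.ne n)
  set T : ℕ → M := fun a => ∑ b ∈ Finset.range (n - a), (h^[b]) (f (a : ZMod n) x) with hT
  have e1 : hs1 n h f (dif h x) = ∑ a ∈ Finset.range n, (T (a + 1) - T a + f (a : ZMod n) x) := by
    unfold hs1
    refine Finset.sum_congr rfl fun a ha => ?_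
    have ha' : a < n := Finset.mem_range.1 ha
    have e : ∀ b, (h^[b]) (f ((a : ZMod n) + 1) (dif h x))
        = (h^[b]) (f ((a + 1 : ℕ) : ZMod n) x) - (h^[b + 1]) (f (a : ZMod n) x) := by
      intro b
      unfold dif
      rw [map_sub, iter_sub, hf, Function.iterate_succ_apply]
      push_cast
      rfl
    simp only [e, Finset.sum_sub_distrib]
    have e3 : T a = (∑ b ∈ Finset.range (n - 1 - a), (h^[b + 1]) (f (a : ZMod n) x))
        + f (a : ZMod n) x := by
      rw [hT]
      have : n - a = (n - 1 - a) + 1 := by omega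
      simp only [this]
      rw [Finset.sum_range_succ']
      rfl
    have e4 : T (a + 1) = ∑ b ∈ Finset.range (n - 1 - a), (h^[b]) (f ((a + 1 : ℕ) : ZMod n) x) := by
      rw [hT]
      have : n - (a + 1) = n - 1 - a := by omega
      simp only [this]
    rw [e3, e4]
    abel
  have e2 : nrm n h (f 0 x) = T 0 := by
    rw [hT]
    unfold nrm
    simp
  have e5 : T n = 0 := by rw [hT]; simp
  rw [e1, e2, Finset.sum_add_distrib, Finset.sum_range_sub, e5]
  abel

end

end Crest.Agent.R224.TF
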