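/-
R224 / T / TFChain (helper247): augmented ordered chain complex on lists, prism operator,
small chains in a contractible space are acyclic (no subdivision, no singular simplices).
-/
import Mathlib

set_option autoImplicit false

noncomputable section

open Filter Topology

namespace Crest.Agent.R224.TF

section alg

variable {R : Type*} [CommRing R] {α β γ : Type*}

/-- chains = formal combinations of lists of points (a list of length `k+1` is a `k`-simplex, the
empty list is the augmentation degree) -/
abbrev Ch (R : Type*) [CommRing R] (α : Type*) := List α →₀ R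

/-- cone: put a point in front -/
def cns (a : α) : Ch R α →ₗ[R] Ch R α := Finsupp.lmapDomain R R (List.cons a)

@[simp] theorem cns_single (a : α) (l : List α) (r : R) :
    cns a (Finsupp.single l r) = Finsupp.single (a :: l) r := by
  simp [cns]

/-- boundary of a list -/
def bd1 (R : Type*) [CommRing R] {α : Type*} : List α → Ch R α
  | [] => 0
  | a :: l => Finsupp.single l 1 - cns a (bd1 R l)

/-- boundary -/
def D : Ch R α →ₗ[R] Ch R α := Finsupp.linearCombination R (bd1 R)

@[simp] theorem D_single (l : List α) (r : R) : D (Finsupp.single l r) = r • bd1 R l := by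
  simp [D]

theorem D_cns (a : α) (x : Ch R α) : D (cns a x) = x - cns a (D x) := by
  induction x using Finsupp.induction_linear with
  | zero => simp
  | add x y hx hy => rw [map_add, map_add, hx, hy, map_add, map_add]; abel
  | single l r =>
    rw [cns_single, D_single, D_single, bd1, smul_sub, map_smul]
    simp

theorem D_bd1 (l : List α) : D (bd1 R l) = 0 := by
  induction l with
  | nil => simp [bd1]
  | cons a l ih => rw [bd1, map_sub, D_cns, ih, D_single]; simp

theorem D_D (x : Ch R α) : D (D x) = 0 := by
  induction x using Finsupp.induction_linear with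
  | zero => simp
  | add x y hx hy => rw [map_add, map_add, hx, hy, add_zero]
  | single l r => rw [D_single, map_smul, D_bd1, smul_zero]

/-- push forward along a map of points -/
def push (f : α → β) : Ch R α →ₗ[R] Ch R β := Finsupp.lmapDomain R R (List.map f)

@[simp] theorem push_single (f : α → β) (l : List α) (r : R) :
    push f (Finsupp.single l r) = Finsupp.single (l.map f) r := by
  simp [push]

theorem push_cns (f : α → β) (a : α) (x : Ch R α) :
    push f (cns a x) = cns (f a) (push f x) := by
  induction x using Finsupp.induction_linear with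
  | zero => simp
  | add x y hx hy => rw [map_add, map_add, hx, hy, map_add, map_add]
  | single l r => simp

theorem push_push (f : α → β) (g : β → γ) (x : Ch R α) :
    push g (push f x) = push (g ∘ f) x := by
  induction x using Finsupp.induction_linear with
  | zero => simp
  | add x y hx hy => rw [map_add, map_add, hx, hy, map_add]
  | single l r => simp

theorem push_id (x : Ch R α) : push (fun a : α => a) x = x := by
  induction x using Finsupp.induction_linear with
  | zero => simp
  | add x y hx hy => rw [map_add, hx, hy]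
  | single l r => simp

theorem push_bd1 (f : α → β) (l : List α) : push f (bd1 R l) = bd1 R (l.map f) := by
  induction l with
  | nil => simp [bd1]
  | cons a l ih =>
    rw [bd1, map_sub, push_cns, ih, List.map_cons, bd1, push_single]

theorem D_push (f : α → β) (x : Ch R α) : D (push f x) = push f (D x) := by
  induction x using Finsupp.induction_linear with
  | zero => simp
  | add x y hx hy => rw [map_add, map_add, hx, hy, map_add, map_add]
  | single l r => rw [push_single, D_single, D_single, map_smul, push_bd1]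

/-- prism on a list -/
def pr1 (R : Type*) [CommRing R] {α β : Type*} (f g : α → β) : List α → Ch R β
  | [] => 0
  | a :: l => Finsupp.single (f a :: g a :: l.map g) 1 - cns (f a) (pr1 R f g l)

/-- prism operator -/
def P (f g : α → β) : Ch R α →ₗ[R] Ch R β := Finsupp.linearCombination R (pr1 R f g)

@[simp] theorem P_single (f g : α → β) (l : List α) (r : R) :
    P f g (Finsupp.single l r) = r • pr1 R f g l := by
  simp [P]

theorem P_cns (f g : α → β) (a : α) (x : Ch R α) :
    P f g (cns a x) = cns (f a) (cns (g a) (push g x)) - cns (f a) (P f g x) := by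
  induction x using Finsupp.induction_linear with
  | zero => simp
  | add x y hx hy => simp only [map_add, hx, hy]; abel
  | single l r => 
    rw [cns_single, P_single, P_single, pr1, smul_sub, map_smul]
    simp

theorem D_pr1 (f g : α → β) (l : List α) :
    D (pr1 R f g l) = Finsupp.single (l.map g) 1 - Finsupp.single (l.map f) 1
      - P f g (bd1 R l) := by
  induction l with
  | nil => simp [pr1, bd1]
  | cons a l ih =>
    have e1 : (Finsupp.single (f a :: g a :: l.map g) (1 : R) : Ch R β)
        = cns (f a) (cns (g a) (push g (Finsupp.single l 1))) := by simp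
    rw [pr1, map_sub, e1, D_cns, D_cns, D_cns, ih, bd1, D_push, D_single, one_smul]
    simp only [map_sub, P_cns, P_single, one_smul, push_single, cns_single, List.map_cons]
    abel

theorem D_P (f g : α → β) (x : Ch R α) :
    D (P f g x) = push g x - push f x - P f g (D x) := by
  induction x using Finsupp.induction_linear with
  | zero => simp
  | add x y hx hy => simp only [map_add, hx, hy]; abel
  | single l r =>
    rw [P_single, map_smul, D_pr1, D_single, map_smul, smul_sub, smul_sub]
    simp

/-! ### supports -/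

/-- chains carried by a set of lists -/
abbrev Sp (R : Type*) [CommRing R] {α : Type*} (L : Set (List α)) : Submodule R (Ch R α) :=
  Finsupp.supported R R L

theorem Sp_mono {L L' : Set (List α)} (h : L ⊆ L') {x : Ch R α} (hx : x ∈ Sp R L) :
    x ∈ Sp R L' := Finsupp.supported_mono h hx

/-- a linear map defined on basis elements preserves supports -/
theorem lin_mem {L : Set (List α)} {N : Submodule R (Ch R β)} (T : Ch R α →ₗ[R] Ch R β)
    (h : ∀ l ∈ L, T (Finsupp.single l 1) ∈ N) {x : Ch R α} (hx : x ∈ Sp R L) : T x ∈ N := by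
  rw [Sp, Finsupp.supported_eq_span_single] at hx
  induction hx using Submodule.span_induction with
  | mem y hy =>
    obtain ⟨l, hl, rfl⟩ := hy
    exact h l hl
  | zero => simp
  | add x y _ _ hx hy => rw [map_add]; exact N.add_mem hx hy
  | smul r x _ hx => rw [map_smul]; exact N.smul_mem r hx

theorem single_mem {L : Set (List α)} {l : List α} (hl : l ∈ L) (r : R) :
    (Finsupp.single l r : Ch R α) ∈ Sp R L := Finsupp.single_mem_supported R r hl

theorem cns_mem {L L' : Set (List α)} (a : α) (h : ∀ l ∈ L, a :: l ∈ L') {x : Ch R α}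
    (hx : x ∈ Sp R L) : cns a x ∈ Sp R L' :=
  lin_mem (cns a) (fun l hl => by rw [cns_single]; exact single_mem (h l hl) _) hx

theorem push_mem {L : Set (List α)} {L' : Set (List β)} (f : α → β)
    (h : ∀ l ∈ L, l.map f ∈ L') {x : Ch R α} (hx : x ∈ Sp R L) : push f x ∈ Sp R L' :=
  lin_mem (push f) (fun l hl => by rw [push_single]; exact single_mem (h l hl) _) hx

theorem bd1_mem (l : List α) :
    bd1 R l ∈ Sp R {l' : List α | l'.length + 1 = l.length ∧ ∀ a ∈ l', a ∈ l} := by
  induction l with
  | nil => simp [bd1]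
  | cons a l ih =>
    rw [bd1]
    refine Submodule.sub_mem _ (single_mem (by
      refine ⟨by simp, fun b hb => List.mem_cons_of_mem _ hb⟩) _) ?_
    refine cns_mem a ?_ ih
    rintro l' ⟨h1, h2⟩
    refine ⟨by simp [h1], fun b hb => ?_⟩
    rcases List.mem_cons.1 hb with rfl | hb
    · exact List.mem_cons_self
    · exact List.mem_cons_of_mem _ (h2 b hb)

theorem pr1_mem (f g : α → β) (l : List α) :
    pr1 R f g l ∈ Sp R {l' : List β | l'.length = l.length + 1 ∧
      ∀ c ∈ l', ∃ a ∈ l, c = f a ∨ c = g a} := by
  induction l with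
  | nil => simp [pr1]
  | cons a l ih =>
    rw [pr1]
    refine Submodule.sub_mem _ (single_mem (by
      refine ⟨by simp, fun b hb => ?_⟩
      rcases List.mem_cons.1 hb with rfl | hb
      · exact ⟨a, List.mem_cons_self, Or.inl rfl⟩
      rcases List.mem_cons.1 hb with rfl | hb
      · exact ⟨a, List.mem_cons_self, Or.inr rfl⟩
      obtain ⟨c, hc, rfl⟩ := List.mem_map.1 hb
      exact ⟨c, List.mem_cons_of_mem _ hc, Or.inr rfl⟩) _) ?_
    refine cns_mem (f a) ?_ ih
    rintro l' ⟨h1, h2⟩
    refine ⟨by simp [h1], fun b hb => ?_⟩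
    rcases List.mem_cons.1 hb with rfl | hb
    · exact ⟨a, List.mem_cons_self, Or.inl rfl⟩
    · obtain ⟨c, hc, h⟩ := h2 b hb
      exact ⟨c, List.mem_cons_of_mem _ hc, h⟩

/-- `W`-small lists of length `n` -/
def Sm (W : Set (α × α)) (n : ℕ) : Set (List α) :=
  {l | l.length = n ∧ ∀ a ∈ l, ∀ b ∈ l, (a, b) ∈ W}

theorem D_mem_Sm {W : Set (α × α)} {n : ℕ} {x : Ch R α} (hx : x ∈ Sp R (Sm W (n + 1))) :
    D x ∈ Sp R (Sm W n) := by
  refine lin_mem D (fun l hl => ?_) hx
  rw [D_single, one_smul]
  refine Sp_mono ?_ (bd1_mem l)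
  rintro l' ⟨h1, h2⟩
  refine ⟨?_, fun a ha b hb => hl.2 a (h2 a ha) b (h2 b hb)⟩
  have := hl.1
  omega

theorem D_Sm_zero {W : Set (α × α)} {x : Ch R α} (hx : x ∈ Sp R (Sm W 0)) : D x = 0 := by
  have : D x ∈ (⊥ : Submodule R (Ch R α)) := by
    refine lin_mem D (fun l hl => ?_) hx
    have : l = [] := List.length_eq_zero_iff.1 hl.1
    subst this
    simp [bd1]
  simpa using this

/-- prisms of small lists -/
theorem P_mem_Sm {W : Set (β × β)} {n : ℕ} (f g : α → β) {L : Set (List α)}
    (hL : ∀ l ∈ L, l.length = n ∧ ∀ a ∈ l, ∀ b ∈ l,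
      (f a, f b) ∈ W ∧ (f a, g b) ∈ W ∧ (g a, f b) ∈ W ∧ (g a, g b) ∈ W)
    {x : Ch R α} (hx : x ∈ Sp R L) : P f g x ∈ Sp R (Sm W (n + 1)) := by
  refine lin_mem (P f g) (fun l hl => ?_) hx
  rw [P_single, one_smul]
  refine Sp_mono ?_ (pr1_mem f g l)
  rintro l' ⟨h1, h2⟩
  obtain ⟨h3, h4⟩ := hL l hl
  refine ⟨by omega, fun c hc c' hc' => ?_⟩
  obtain ⟨a, ha, h5⟩ := h2 c hc
  obtain ⟨b, hb, h6⟩ := h2 c' hc'
  obtain ⟨w1, w2, w3, w4⟩ := h4 a ha b hb
  rcases h5 with rfl | rfl <;> rcases h6 with rfl | rfl <;> assumption

end alg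

section top

variable {R : Type*} [CommRing R] {E : Type*} [TopologicalSpace E]

/-- Small cycles in a contractible space bound (larger) small chains.  `H` contracts `E`. -/
theorem acyc (H : unitInterval × E → E) (hH : Continuous H) (c : E) (H0 : ∀ x, H (0, x) = x)
    (H1 : ∀ x, H (1, x) = c) (W : Set (E × E)) (hW : IsOpen W) (hd : ∀ x, (x, x) ∈ W)
    {n : ℕ} {z : Ch R E}
    (hz : z ∈ Sp R (Sm {q : E × E | ∀ t, (H (t, q.1), H (t, q.2)) ∈ W} n)) (hDz : D z = 0) :
    ∃ w ∈ Sp R (Sm W (n + 1)), D w = z := by
  classical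
  -- connect the times
  have key : ∀ s t : unitInterval, ∃ w ∈ Sp R (Sm W (n + 1)),
      D w = push (fun x => H (t, x)) z - push (fun x => H (s, x)) z := by
    intro s t
    let Q : unitInterval → unitInterval → Prop := fun s t => ∃ w ∈ Sp R (Sm W (n + 1)),
      D w = push (fun x => H (t, x)) z - push (fun x => H (s, x)) z
    have hsymm : ∀ a b, Q a b → Q b a := by
      intro a b ⟨w, hw, h1⟩
      exact ⟨-w, Submodule.neg_mem _ hw, by rw [map_neg, h1]; abel⟩
    have htrans : ∀ a b c, Q a b → Q b c → Q a c := by
      intro a b c ⟨w, hw, h1⟩ ⟨w', hw', h2⟩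
      exact ⟨w + w', Submodule.add_mem _ hw hw', by rw [map_add, h1, h2]; abel⟩
    refine isPreconnected_univ.induction₂ Q ?_ (fun a b c _ _ _ => htrans a b c)
      (fun a b _ _ => hsymm a b) (Set.mem_univ s) (Set.mem_univ t)
    · intro s _
      rw [nhdsWithin_univ]
      -- nearby times
      have h1 : ∀ l ∈ z.support, ∀ a ∈ l, ∀ b ∈ l, ∀ᶠ t in 𝓝 s,
          (H (s, a), H (s, b)) ∈ W ∧ (H (s, a), H (t, b)) ∈ W ∧ (H (t, a), H (s, b)) ∈ W
            ∧ (H (t, a), H (t, b)) ∈ W := by
        intro l hl a ha b hb
        have hsm := (hz hl).2 a ha b hb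
        have h0 : (H (s, a), H (s, b)) ∈ W := hsm s
        have c1 : Continuous fun t : unitInterval => H (t, a) := by fun_prop
        have c2 : Continuous fun t : unitInterval => H (t, b) := by fun_prop
        have e2 : ∀ᶠ t in 𝓝 s, (H (s, a), H (t, b)) ∈ W :=
          (continuous_const.prodMk c2).continuousAt.eventually (hW.mem_nhds h0)
        have e3 : ∀ᶠ t in 𝓝 s, (H (t, a), H (s, b)) ∈ W :=
          (c1.prodMk continuous_const).continuousAt.eventually (hW.mem_nhds h0)
        filter_upwards [e2, e3] with t h2 h3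
        exact ⟨h0, h2, h3, hsm t⟩
      have h2 : ∀ᶠ t in 𝓝 s, ∀ l ∈ z.support, ∀ a ∈ l, ∀ b ∈ l,
          (H (s, a), H (s, b)) ∈ W ∧ (H (s, a), H (t, b)) ∈ W ∧ (H (t, a), H (s, b)) ∈ W
            ∧ (H (t, a), H (t, b)) ∈ W := by
        rw [Filter.eventually_all_finset]
        intro l hl
        have : ∀ᶠ t in 𝓝 s, ∀ a ∈ l.toFinset, ∀ b ∈ l.toFinset,
            (H (s, a), H (s, b)) ∈ W ∧ (H (s, a), H (t, b)) ∈ W ∧ (H (t, a), H (s, b)) ∈ W
              ∧ (H (t, a), H (t, b)) ∈ W := by
          rw [Filter.eventually_all_finset]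
          intro a ha
          rw [Filter.eventually_all_finset]
          intro b hb
          exact h1 l hl a (List.mem_toFinset.1 ha) b (List.mem_toFinset.1 hb)
        filter_upwards [this] with t ht a ha b hb
        exact ht a (List.mem_toFinset.2 ha) b (List.mem_toFinset.2 hb)
      filter_upwards [h2] with t ht
      refine ⟨P (fun x => H (s, x)) (fun x => H (t, x)) z, ?_, ?_⟩
      · refine P_mem_Sm _ _ (L := (z.support : Set (List E))) (fun l hl => ⟨(hz hl).1, ?_⟩) ?_
        · intro a ha b hb
          exact ht l hl a ha b hb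
        · exact (Finsupp.mem_supported R z).2 subset_rfl
      · rw [D_P, hDz, map_zero, sub_zero]
  obtain ⟨w, hw, hw2⟩ := key 1 0
  have e0 : push (fun x => H (0, x)) z = z := by
    have : (fun x : E => H (0, x)) = fun x => x := funext H0
    rw [this, push_id]
  have e1 : push (fun x => H (1, x)) z = push (fun _ : E => c) z := by
    have : (fun x : E => H (1, x)) = fun _ => c := funext H1
    rw [this]
  refine ⟨w + cns c (push (fun _ : E => c) z), Submodule.add_mem _ hw ?_, ?_⟩
  · refine cns_mem (L := {l : List E | l.length = n ∧ ∀ a ∈ l, a = c}) c ?_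
      (push_mem _ ?_ hz)
    · rintro l ⟨h1, h2⟩
      refine ⟨by simp [h1], fun a ha b hb => ?_⟩
      have ha' : a = c := by
        rcases List.mem_cons.1 ha with h | h
        · exact h
        · exact h2 a h
      have hb' : b = c := by
        rcases List.mem_cons.1 hb with h | h
        · exact h
        · exact h2 b h
      rw [ha', hb']
      exact hd c
    · rintro l ⟨h1, -⟩
      refine ⟨by simpa using h1, fun a ha => ?_⟩
      obtain ⟨x, -, hx⟩ := List.mem_map.1 ha
      exact hx.symm
  · rw [map_add, hw2, D_cns, D_push, hDz, map_zero, map_zero, e0, e1]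
    abel

/-- tube lemma: the refined scale is open -/
theorem isOpen_scale (H : unitInterval × E → E) (hH : Continuous H) (W : Set (E × E))
    (hW : IsOpen W) (h : E → E) (hh : Continuous h) :
    IsOpen {q : E × E | ∀ t, (H (t, h q.1), H (t, h q.2)) ∈ W} := by
  rw [isOpen_iff_mem_nhds]
  intro q hq
  have hc : Continuous fun p : unitInterval × (E × E) => (H (p.1, h p.2.1), H (p.1, h p.2.2)) := by
    fun_prop
  have hO : IsOpen ((fun p : unitInterval × (E × E) => (H (p.1, h p.2.1), H (p.1, h p.2.2))) ⁻¹' W) :=
    hW.preimage hc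
  obtain ⟨u, v, hu, hv, hsu, hqv, huv⟩ := generalized_tube_lemma
    (s := (Set.univ : Set unitInterval)) isCompact_univ (t := ({q} : Set (E × E)))
    isCompact_singleton hO (by
      rintro ⟨t, q'⟩ ⟨-, hq'⟩
      rw [Set.mem_singleton_iff] at hq'
      subst hq'
      exact hq t)
  refine Filter.mem_of_superset (hv.mem_nhds (hqv rfl)) ?_
  intro q' hq' t
  exact huv (Set.mk_mem_prod (hsu (Set.mem_univ t)) hq')

end top

end Crest.Agent.R224.TF
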