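/-
R224 / T / TFDescent (helper247): the descent through the labels: there is no sequence of
equivariant small chains `y_0, …, y_m` when the space has `m` labels.
-/
import Crest.Agent.R224.T.TFChain
import Crest.Agent.R224.T.TFAlg

set_option autoImplicit false

noncomputable section

open Filter Topology

namespace Crest.Agent.R224.TF

/-- labels: `idx` chooses one of `m` patches, `lam j` is an equivariant `ZMod n`-valued function;
small pairs have the same `lam (idx v)`. -/
structure Lab {E : Type*} (n m : ℕ) (h : E → E) (W : Set (E × E)) (idx : E → ℕ)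
    (lam : ℕ → E → ZMod n) : Prop where
  lt : ∀ v, idx v < m
  idx_h : ∀ v, idx (h v) = idx v
  lam_h : ∀ j v, lam j (h v) = lam j v + 1
  W_h : ∀ v w, (v, w) ∈ W → (h v, h w) ∈ W
  W_lam : ∀ v w, (v, w) ∈ W → lam (idx v) w = lam (idx v) v

section

variable {E : Type*} {n : ℕ}

/-- `h` on chains -/
def HH (n : ℕ) (h : E → E) : Ch (ZMod n) E →+ Ch (ZMod n) E := (push h).toAddMonoidHom

theorem HH_apply (h : E → E) (x : Ch (ZMod n) E) : HH n h x = push h x := rfl

theorem D_HH (h : E → E) (x : Ch (ZMod n) E) : D (HH n h x) = HH n h (D x) := D_push h x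

theorem D_HH_iter (h : E → E) (b : ℕ) (x : Ch (ZMod n) E) :
    D (((HH n h)^[b]) x) = ((HH n h)^[b]) (D x) := by
  induction b generalizing x with
  | zero => rfl
  | succ b ih => rw [Function.iterate_succ_apply, ih, D_HH]; rfl

theorem HH_iter_apply (h : E → E) (b : ℕ) (x : Ch (ZMod n) E) :
    ((HH n h)^[b]) x = push (h^[b]) x := by
  induction b generalizing x with
  | zero => exact (push_id x).symm
  | succ b ih => rw [Function.iterate_succ_apply, ih, HH_apply, push_push]; rfl

theorem HH_iter_n (h : E → E) (hn : ∀ v, h^[n] v = v) (x : Ch (ZMod n) E) :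
    ((HH n h)^[n]) x = x := by
  rw [HH_iter_apply]
  have : h^[n] = fun v => v := funext hn
  rw [this, push_id]

/-- the alternating operators `1 - h` (odd) and norm (even) -/
def al (n : ℕ) (h : E → E) (k : ℕ) (x : Ch (ZMod n) E) : Ch (ZMod n) E :=
  if Even k then nrm n (HH n h) x else dif (HH n h) x

theorem nrm_sub {M : Type*} [AddCommGroup M] (h : M →+ M) (x y : M) :
    nrm n h (x - y) = nrm n h x - nrm n h y := by
  unfold nrm
  rw [← Finset.sum_sub_distrib]
  exact Finset.sum_congr rfl fun b _ => iter_sub h b x y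

theorem dif_sub {M : Type*} [AddCommGroup M] (h : M →+ M) (x y : M) :
    dif h (x - y) = dif h x - dif h y := by
  unfold dif
  rw [map_sub]
  abel

theorem al_sub (h : E → E) (k : ℕ) (x y : Ch (ZMod n) E) :
    al n h k (x - y) = al n h k x - al n h k y := by
  unfold al
  split_ifs
  · exact nrm_sub _ _ _
  · exact dif_sub _ _ _

theorem al_zero (h : E → E) (k : ℕ) : al n h k 0 = 0 := by
  have := al_sub (n := n) h k 0 0
  simpa using this

theorem D_nrm (h : E → E) (x : Ch (ZMod n) E) : D (nrm n (HH n h) x) = nrm n (HH n h) (D x) := by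
  unfold nrm
  rw [map_sum]
  exact Finset.sum_congr rfl fun b _ => D_HH_iter h b x

theorem D_al (h : E → E) (k : ℕ) (x : Ch (ZMod n) E) : D (al n h k x) = al n h k (D x) := by
  unfold al
  split_ifs
  · exact D_nrm h x
  · unfold dif
    rw [map_sub, D_HH]

theorem al_al (h : E → E) (hn : ∀ v, h^[n] v = v) (k : ℕ) (x : Ch (ZMod n) E) :
    al n h (k + 1) (al n h k x) = 0 := by
  unfold al
  by_cases hk : Even k
  · have hk' : ¬ Even (k + 1) := by rw [Nat.even_add_one]; simpa using hk
    rw [if_pos hk, if_neg hk', dif_nrm _ (HH_iter_n h hn)]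
  · have hk' : Even (k + 1) := by rw [Nat.even_add_one]; simpa using hk
    rw [if_neg hk, if_pos hk', nrm_dif _ (HH_iter_n h hn)]

/-- supports of operators -/
theorem HH_iter_mem (h : E → E) {L : Set (List E)} (hL : ∀ l ∈ L, l.map h ∈ L) (b : ℕ)
    {x : Ch (ZMod n) E} (hx : x ∈ Sp (ZMod n) L) : ((HH n h)^[b]) x ∈ Sp (ZMod n) L := by
  induction b generalizing x with
  | zero => exact hx
  | succ b ih =>
    rw [Function.iterate_succ_apply]
    exact ih (push_mem h hL hx)

theorem al_mem (h : E → E) {L : Set (List E)} (hL : ∀ l ∈ L, l.map h ∈ L) (k : ℕ)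
    {x : Ch (ZMod n) E} (hx : x ∈ Sp (ZMod n) L) : al n h k x ∈ Sp (ZMod n) L := by
  unfold al
  split_ifs
  · exact Submodule.sum_mem _ fun b _ => HH_iter_mem h hL b hx
  · exact Submodule.sub_mem _ hx (push_mem h hL hx)

theorem fah {α M : Type*} [AddZeroClass M] (p : α → Prop) [DecidablePred p] (x : α →₀ M) :
    Finsupp.filterAddHom p x = Finsupp.filter p x := rfl

variable (idx : E → ℕ) (lam : ℕ → E → ZMod n)

/-- lists with all points of index `≥ j` -/
def Fl (idx : E → ℕ) (j : ℕ) : Set (List E) := {l | ∀ v ∈ l, j ≤ idx v}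

/-- label of a list -/
def hv (lam : ℕ → E → ZMod n) (j : ℕ) : List E → ZMod n
  | [] => 0
  | a :: _ => lam j a

open Classical in
/-- restriction to lists with some point of index `< j+1` -/
def RR (n : ℕ) (idx : E → ℕ) (j : ℕ) : Ch (ZMod n) E →+ Ch (ZMod n) E :=
  Finsupp.filterAddHom fun l => l ∉ Fl idx (j + 1)

open Classical in
/-- restriction to those with label `a` -/
def ff (idx : E → ℕ) (lam : ℕ → E → ZMod n) (j : ℕ) (a : ZMod n) :
    Ch (ZMod n) E →+ Ch (ZMod n) E :=
  Finsupp.filterAddHom fun l => l ∉ Fl idx (j + 1) ∧ hv lam j l = a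

open Classical in
theorem RR_single (j : ℕ) (l : List E) (r : ZMod n) :
    RR n idx j (Finsupp.single l r) = if l ∉ Fl idx (j + 1) then Finsupp.single l r else 0 := by
  unfold RR
  rw [fah]
  by_cases h : l ∉ Fl idx (j + 1)
  · rw [if_pos h]
    exact Finsupp.filter_single_of_pos _ h
  · rw [if_neg h]
    exact Finsupp.filter_single_of_neg _ h

open Classical in
theorem ff_single (j : ℕ) (a : ZMod n) (l : List E) (r : ZMod n) :
    ff idx lam j a (Finsupp.single l r)
      = if l ∉ Fl idx (j + 1) ∧ hv lam j l = a then Finsupp.single l r else 0 := by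
  unfold ff
  rw [fah]
  split_ifs with h
  · exact Finsupp.filter_single_of_pos _ h
  · exact Finsupp.filter_single_of_neg _ h

theorem ff_mem (j : ℕ) (a : ZMod n) {L : Set (List E)} {x : Ch (ZMod n) E}
    (hx : x ∈ Sp (ZMod n) L) : ff idx lam j a x ∈ Sp (ZMod n) L := by
  classical
  rw [Finsupp.mem_supported] at hx ⊢
  intro l hl
  apply hx
  unfold ff at hl
  rw [fah, Finsupp.support_filter] at hl
  exact (Finset.mem_filter.1 hl).1

variable {idx lam}
variable {m : ℕ} {h : E → E} {W : Set (E × E)}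

theorem Lab.Fl_map (hL : Lab n m h W idx lam) (j : ℕ) (l : List E) :
    l.map h ∈ Fl idx j ↔ l ∈ Fl idx j := by
  unfold Fl
  simp only [Set.mem_ofPred_eq, List.mem_map, forall_exists_index, and_imp,
    forall_apply_eq_imp_iff₂, hL.idx_h]

theorem Lab.hv_map (hL : Lab n m h W idx lam) (j : ℕ) {l : List E} (hl : l ≠ []) :
    hv lam j (l.map h) = hv lam j l + 1 := by
  cases l with
  | nil => exact absurd rfl hl
  | cons a l => exact hL.lam_h j a

theorem ne_nil_of_notMem_Fl {j : ℕ} {l : List E} (hl : l ∉ Fl idx j) : l ≠ [] := by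
  rintro rfl
  exact hl (by simp [Fl])

theorem Lab.F1 (hL : Lab n m h W idx lam) (j : ℕ) (a : ZMod n) (x : Ch (ZMod n) E) :
    ff idx lam j (a + 1) (HH n h x) = HH n h (ff idx lam j a x) := by
  classical
  induction x using Finsupp.induction_linear with
  | zero => simp
  | add x y hx hy => rw [map_add, map_add, hx, hy, map_add, map_add]
  | single l r =>
    rw [HH_apply, push_single, ff_single, ff_single]
    by_cases h1 : l ∉ Fl idx (j + 1)
    · have h2 : l.map h ∉ Fl idx (j + 1) := fun hh => h1 ((hL.Fl_map _ _).1 hh)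
      have h3 := hL.hv_map j (ne_nil_of_notMem_Fl h1)
      by_cases h4 : hv lam j l = a
      · rw [if_pos ⟨h2, by rw [h3, h4]⟩, if_pos ⟨h1, h4⟩, HH_apply, push_single]
      · rw [if_neg, if_neg, map_zero]
        · exact fun hh => h4 hh.2
        · rintro ⟨-, hh⟩
          rw [h3] at hh
          exact h4 (add_right_cancel hh)
    · rw [if_neg, if_neg, map_zero]
      · exact fun hh => h1 hh.1
      · rintro ⟨hh, -⟩
        exact h1 fun h5 => hh ((hL.Fl_map _ _).2 h5)

theorem Lab.RR_HH (hL : Lab n m h W idx lam) (j : ℕ) (x : Ch (ZMod n) E) :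
    RR n idx j (HH n h x) = HH n h (RR n idx j x) := by
  classical
  induction x using Finsupp.induction_linear with
  | zero => simp
  | add x y hx hy => rw [map_add, map_add, hx, hy, map_add, map_add]
  | single l r =>
    rw [HH_apply, push_single, RR_single, RR_single]
    by_cases h1 : l ∈ Fl idx (j + 1)
    · have h2 : l.map h ∈ Fl idx (j + 1) := (hL.Fl_map _ _).2 h1
      rw [if_neg (not_not.2 h2), if_neg (not_not.2 h1), map_zero]
    · have h2 : l.map h ∉ Fl idx (j + 1) := fun hh => h1 ((hL.Fl_map _ _).1 hh)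
      rw [if_pos h2, if_pos h1, HH_apply, push_single]

theorem Lab.RR_HH_iter (hL : Lab n m h W idx lam) (j b : ℕ) (x : Ch (ZMod n) E) :
    RR n idx j (((HH n h)^[b]) x) = ((HH n h)^[b]) (RR n idx j x) := by
  induction b generalizing x with
  | zero => rfl
  | succ b ih => rw [Function.iterate_succ_apply, ih, hL.RR_HH]; rfl

theorem Lab.RR_al (hL : Lab n m h W idx lam) (j k : ℕ) (x : Ch (ZMod n) E) :
    RR n idx j (al n h k x) = al n h k (RR n idx j x) := by
  unfold al
  split_ifs
  · unfold nrm
    rw [map_sum]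
    exact Finset.sum_congr rfl fun b _ => hL.RR_HH_iter j b x
  · unfold dif
    rw [map_sub, hL.RR_HH]

theorem RR_ff (j : ℕ) (a : ZMod n) (x : Ch (ZMod n) E) :
    RR n idx j (ff idx lam j a x) = ff idx lam j a x := by
  classical
  induction x using Finsupp.induction_linear with
  | zero => simp
  | add x y hx hy => rw [map_add, map_add, hx, hy]
  | single l r =>
    rw [ff_single]
    split_ifs with h1
    · rw [RR_single, if_pos h1.1]
    · exact map_zero _

theorem sum_range_zmod [NeZero n] {M : Type*} [AddCommMonoid M] (g : ZMod n → M) :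
    ∑ a ∈ Finset.range n, g (a : ZMod n) = ∑ c, g c := by
  refine Finset.sum_bij' (fun a _ => (a : ZMod n)) (fun c _ => c.val) ?_ ?_ ?_ ?_ ?_
  · intro a _; exact Finset.mem_univ _
  · intro c _; exact Finset.mem_range.2 (ZMod.val_lt c)
  · intro a ha; exact ZMod.val_cast_of_lt (Finset.mem_range.1 ha)
  · intro c _; exact ZMod.natCast_zmod_val c
  · intro a _; rfl

theorem F3 [NeZero n] (j : ℕ) (x : Ch (ZMod n) E) :
    ∑ c, ff idx lam j c x = RR n idx j x := by
  classical
  induction x using Finsupp.induction_linear with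
  | zero => simp
  | add x y hx hy => simp only [map_add, Finset.sum_add_distrib, hx, hy]
  | single l r =>
    simp only [ff_single, RR_single]
    by_cases h1 : l ∈ Fl idx (j + 1)
    · simp [h1]
    · simp [h1]

theorem F3' [NeZero n] (j : ℕ) (x : Ch (ZMod n) E) :
    ∑ a ∈ Finset.range n, ff idx lam j ((a : ZMod n) + 1) x = RR n idx j x := by
  rw [sum_range_zmod (fun c => ff idx lam j (c + 1) x), ← F3 (lam := lam)]
  exact Equiv.sum_comp (Equiv.addRight (1 : ZMod n)) (fun c => ff idx lam j c x)

theorem F3'' [NeZero n] (j : ℕ) (x : Ch (ZMod n) E) :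
    ∑ a ∈ Finset.range n, ff idx lam j (a : ZMod n) x = RR n idx j x := by
  rw [sum_range_zmod (fun c => ff idx lam j c x), F3]

/-- (F2) -/
theorem Lab.F2 (hL : Lab n m h W idx lam) (j k : ℕ) (a : ZMod n) {x : Ch (ZMod n) E}
    (hx : x ∈ Sp (ZMod n) (Sm W k ∩ Fl idx j)) :
    RR n idx j (D (ff idx lam j a x)) = ff idx lam j a (D x) := by
  classical
  -- linear in x
  have main : ∀ l ∈ Sm W k ∩ Fl idx j, RR n idx j (D (ff idx lam j a (Finsupp.single l 1)))
      = ff idx lam j a (D (Finsupp.single l 1)) := by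
    rintro l ⟨hl1, hl2⟩
    have hsub : ∀ l' : List E, (∀ b ∈ l', b ∈ l) →
        ((l' ∉ Fl idx (j + 1) ∧ hv lam j l' = a) ↔
          (l' ∉ Fl idx (j + 1) ∧ (l ∉ Fl idx (j + 1) ∧ hv lam j l = a))) := by
      intro l' hl'
      refine and_congr_right fun h1 => ?_
      have h1' : l ∉ Fl idx (j + 1) := fun hh => h1 fun v hvv => hh v (hl' v hvv)
      -- a point of index j
      obtain ⟨v, hvl, hvj⟩ : ∃ v ∈ l', idx v = j := by
        have : ∃ v ∈ l', ¬ (j + 1 ≤ idx v) := by
          by_contra hcon
          push Not at hcon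
          exact h1 hcon
        obtain ⟨v, hvl, h2⟩ := this
        have h3 := hl2 v (hl' v hvl)
        exact ⟨v, hvl, by omega⟩
      have hh : ∀ l'' : List E, l'' ≠ [] → (∀ b ∈ l'', b ∈ l) → hv lam j l'' = lam j v := by
        intro l'' h4 h5
        cases l'' with
        | nil => exact absurd rfl h4
        | cons b l'' =>
          have := hL.W_lam v b (hl1.2 v (hl' v hvl) b (h5 b List.mem_cons_self))
          rw [hvj] at this
          exact this
      rw [hh l' (ne_nil_of_notMem_Fl h1) hl', hh l (ne_nil_of_notMem_Fl h1') (fun b hb => hb)]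
      exact ⟨fun h6 => ⟨h1', h6⟩, fun h6 => h6.2⟩
    -- on chains carried by sublists
    have hx' : ∀ y ∈ Sp (ZMod n) {l' : List E | ∀ b ∈ l', b ∈ l},
        ff idx lam j a y = if (l ∉ Fl idx (j + 1) ∧ hv lam j l = a) then RR n idx j y else 0 := by
      intro y hy
      rw [Sp, Finsupp.supported_eq_span_single] at hy
      induction hy using Submodule.span_induction with
      | mem y hy =>
        obtain ⟨l', hl', rfl⟩ := hy
        have e := hsub l' hl'
        simp only [ff_single, RR_single]
        by_cases h1 : l' ∉ Fl idx (j + 1)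
        · by_cases h2 : (l ∉ Fl idx (j + 1) ∧ hv lam j l = a)
          · rw [if_pos (e.2 ⟨h1, h2⟩), if_pos h2, if_pos h1]
          · rw [if_neg (fun h3 => h2 (e.1 h3).2), if_neg h2]
        · rw [if_neg (fun h3 => h1 h3.1), if_neg h1]
          split_ifs <;> rfl
      | zero => simp
      | add x y _ _ hx hy =>
        rw [map_add, hx, hy, map_add]
        split_ifs
        · rfl
        · exact add_zero 0
      | smul r x _ hx =>
        have e1 : ff idx lam j a (r • x) = r • ff idx lam j a x := by
          unfold ff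
          rw [fah, fah, Finsupp.filter_smul]
        have e2 : RR n idx j (r • x) = r • RR n idx j x := by
          unfold RR
          rw [fah, fah, Finsupp.filter_smul]
        rw [e1, hx, e2]
        split_ifs
        · rfl
        · exact smul_zero r
    have hb : bd1 (ZMod n) l ∈ Sp (ZMod n) {l' : List E | ∀ b ∈ l', b ∈ l} :=
      Sp_mono (fun l' h => h.2) (bd1_mem l)
    rw [ff_single, D_single, one_smul, hx' _ hb]
    split_ifs with h1
    · rw [D_single, one_smul]
    · rw [map_zero, map_zero]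
  rw [Sp, Finsupp.supported_eq_span_single] at hx
  induction hx using Submodule.span_induction with
  | mem y hy =>
    obtain ⟨l', hl', rfl⟩ := hy
    exact main l' hl'
  | zero => simp
  | add x y _ _ hx hy => simp only [map_add, hx, hy]
  | smul r x _ hx =>
    have e1 : ∀ x, ff idx lam j a (r • x) = r • ff idx lam j a x := by
      intro x
      unfold ff
      rw [fah, fah, Finsupp.filter_smul]
    have e2 : ∀ x, RR n idx j (r • x) = r • RR n idx j x := by
      intro x
      unfold RR
      rw [fah, fah, Finsupp.filter_smul]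
    rw [e1, map_smul, e2, hx, map_smul, e1]

/-- the homotopies -/
def ss (n : ℕ) (h : E → E) (idx : E → ℕ) (lam : ℕ → E → ZMod n) (j k : ℕ)
    (x : Ch (ZMod n) E) : Ch (ZMod n) E :=
  if Even k then ff idx lam j 0 x else hs1 n (HH n h) (ff idx lam j) x

theorem Lab.ss_mem (_hL : Lab n m h W idx lam) (j k : ℕ) {L : Set (List E)}
    (hLh : ∀ l ∈ L, l.map h ∈ L) {x : Ch (ZMod n) E} (hx : x ∈ Sp (ZMod n) L) :
    ss n h idx lam j k x ∈ Sp (ZMod n) L := by
  unfold ss
  split_ifs
  · exact ff_mem idx lam j 0 hx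
  · exact Submodule.sum_mem _ fun a _ => Submodule.sum_mem _ fun b _ =>
      HH_iter_mem h hLh b (ff_mem idx lam j _ hx)

theorem Lab.RR_ss (hL : Lab n m h W idx lam) (j k : ℕ) (x : Ch (ZMod n) E) :
    RR n idx j (ss n h idx lam j k x) = ss n h idx lam j k x := by
  unfold ss
  split_ifs
  · exact RR_ff j 0 x
  · unfold hs1
    rw [map_sum]
    refine Finset.sum_congr rfl fun a _ => ?_
    rw [map_sum]
    refine Finset.sum_congr rfl fun b _ => ?_
    rw [hL.RR_HH_iter, RR_ff]

theorem Lab.RR_D_ss (hL : Lab n m h W idx lam) (j k q : ℕ) {x : Ch (ZMod n) E}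
    (hx : x ∈ Sp (ZMod n) (Sm W q ∩ Fl idx j)) :
    RR n idx j (D (ss n h idx lam j k x)) = ss n h idx lam j k (D x) := by
  unfold ss
  split_ifs
  · exact hL.F2 j q 0 hx
  · unfold hs1
    rw [map_sum, map_sum]
    refine Finset.sum_congr rfl fun a _ => ?_
    rw [map_sum, map_sum]
    refine Finset.sum_congr rfl fun b _ => ?_
    rw [D_HH_iter, hL.RR_HH_iter, hL.F2 j q _ hx]

theorem Lab.homot [NeZero n] (hL : Lab n m h W idx lam) (j k : ℕ) (x : Ch (ZMod n) E) :
    al n h k (ss n h idx lam j k x) + ss n h idx lam j (k + 1) (al n h (k + 1) x)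
      = RR n idx j x := by
  unfold al ss
  by_cases hk : Even k
  · have hk' : ¬ Even (k + 1) := by rw [Nat.even_add_one]; simpa using hk
    rw [if_pos hk, if_pos hk, if_neg hk', if_neg hk', id2 _ _ (hL.F1 j), F3'']
  · have hk' : Even (k + 1) := by rw [Nat.even_add_one]; simpa using hk
    rw [if_neg hk, if_neg hk, if_pos hk', if_pos hk', id1 _ _ (hL.F1 j), F3']

theorem nrm_nil (h : E → E) {W : Set (E × E)} {x : Ch (ZMod n) E}
    (hx : x ∈ Sp (ZMod n) (Sm W 0)) : al n h 0 x = 0 := by
  have h0 : Sm W 0 = {([] : List E)} := by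
    ext l
    constructor
    · rintro ⟨h1, -⟩
      exact List.length_eq_zero_iff.1 h1
    · rintro rfl
      exact ⟨rfl, by simp⟩
  rw [h0, Sp, Finsupp.supported_eq_span_single, Set.image_singleton,
    Submodule.mem_span_singleton] at hx
  obtain ⟨r, rfl⟩ := hx
  unfold al nrm
  rw [if_pos (by decide)]
  have : ∀ b, ((HH n h)^[b]) (r • Finsupp.single ([] : List E) (1 : ZMod n))
      = r • Finsupp.single ([] : List E) (1 : ZMod n) := by
    intro b
    rw [HH_iter_apply, map_smul, push_single]
    rfl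
  simp only [this, Finset.sum_const, Finset.card_range]
  rw [← Nat.cast_smul_eq_nsmul (ZMod n), ZMod.natCast_self, zero_smul]

/-- DESCENT: no such sequence. -/
theorem Lab.no_seq [NeZero n] (h1n : (1 : ZMod n) ≠ 0) (hL : Lab n m h W idx lam)
    (hn : ∀ v, h^[n] v = v) :
    ∀ (r j : ℕ) (_ : j + r = m) (y : ℕ → Ch (ZMod n) E)
      (_ : ∀ k ≤ r, y k ∈ Sp (ZMod n) (Sm W (k + 1) ∩ Fl idx j))
      (_ : D (y 0) = Finsupp.single [] 1) (_ : ∀ k < r, D (y (k + 1)) = al n h (k + 1) (y k)),
      False := by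
  intro r
  induction r with
  | zero =>
    intro j hj y hy h0 _
    have h2 : y 0 ∈ Sp (ZMod n) (∅ : Set (List E)) := by
      refine Sp_mono ?_ (hy 0 le_rfl)
      rintro l ⟨⟨h3, -⟩, h4⟩
      obtain ⟨v, rfl⟩ := List.length_eq_one_iff.1 h3
      have := h4 v List.mem_cons_self
      have := hL.lt v
      omega
    have h3 : y 0 = 0 := by
      rw [Sp, Finsupp.supported_empty] at h2
      exact (Submodule.mem_bot _).1 h2
    rw [h3, map_zero] at h0
    have := congrArg (fun f : Ch (ZMod n) E => f []) h0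
    simp at this
    exact h1n this.symm
  | succ r ih =>
    intro j hj y hy h0 hs
    have hinv : ∀ q, ∀ l ∈ Sm W q ∩ Fl idx j, l.map h ∈ Sm W q ∩ Fl idx j := by
      rintro q l ⟨⟨h3, h4⟩, h5⟩
      refine ⟨⟨by simpa using h3, ?_⟩, (hL.Fl_map j l).2 h5⟩
      intro a ha b hb
      obtain ⟨a', ha', rfl⟩ := List.mem_map.1 ha
      obtain ⟨b', hb', rfl⟩ := List.mem_map.1 hb
      exact hL.W_h _ _ (h4 a' ha' b' hb')
    have hD : ∀ q, ∀ x ∈ Sp (ZMod n) (Sm W (q + 1) ∩ Fl idx j),
        D x ∈ Sp (ZMod n) (Sm W q ∩ Fl idx j) := by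
      intro q x hx
      refine lin_mem D (fun l hl => ?_) hx
      rw [D_single, one_smul]
      refine Sp_mono ?_ (bd1_mem l)
      rintro l' ⟨h6, h7⟩
      refine ⟨⟨?_, fun a ha b hb => hl.1.2 a (h7 a ha) b (h7 b hb)⟩, fun v hvv => hl.2 v (h7 v hvv)⟩
      have := hl.1.1
      omega
    set y' : ℕ → Ch (ZMod n) E := fun k =>
      y k - al n h k (ss n h idx lam j k (y k)) - D (ss n h idx lam j (k + 1) (y (k + 1))) with hy'
    refine ih (j + 1) (by omega) y' ?_ ?_ ?_
    · intro k hk
      have hmem : y' k ∈ Sp (ZMod n) (Sm W (k + 1) ∩ Fl idx j) := by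
        refine Submodule.sub_mem _ (Submodule.sub_mem _ (hy k (by omega)) ?_) ?_
        · exact al_mem h (hinv _) k (hL.ss_mem j k (hinv _) (hy k (by omega)))
        · exact hD _ _ (hL.ss_mem j (k + 1) (hinv _) (hy (k + 1) (by omega)))
      have hR : RR n idx j (y' k) = 0 := by
        rw [hy']
        simp only [map_sub]
        rw [hL.RR_al, hL.RR_ss, hL.RR_D_ss j (k + 1) (k + 2) (hy (k + 1) (by omega)),
          hs k (by omega), ← hL.homot j k (y k)]
        abel
      classical
      rw [Finsupp.mem_supported] at hmem ⊢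
      intro l hl
      refine ⟨(hmem hl).1, ?_⟩
      by_contra h8
      have h9 : (RR n idx j (y' k)) l = y' k l := by
        unfold RR
        rw [fah, Finsupp.filter_apply, if_pos h8]
      rw [hR] at h9
      exact (Finsupp.mem_support_iff.1 hl) h9.symm
    · rw [hy']
      simp only [map_sub, D_D, sub_zero]
      rw [D_al, h0]
      have h3 : D (ss n h idx lam j 0 (y 0)) ∈ Sp (ZMod n) (Sm W 0) :=
        Sp_mono (fun l hl => hl.1) (hD 0 _ (hL.ss_mem j 0 (hinv _) (hy 0 (by omega))))
      rw [nrm_nil h h3, sub_zero]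
    · intro k hk
      have e1 : D (y' (k + 1)) = al n h (k + 1) (y k)
          - al n h (k + 1) (D (ss n h idx lam j (k + 1) (y (k + 1)))) := by
        rw [hy']
        simp only [map_sub, D_D, sub_zero]
        rw [D_al, hs k (by omega)]
      have e2 : al n h (k + 1) (y' k) = al n h (k + 1) (y k)
          - al n h (k + 1) (D (ss n h idx lam j (k + 1) (y (k + 1)))) := by
        rw [hy']
        simp only [al_sub]
        rw [al_al h hn, sub_zero]
      rw [e1, e2]

end

end Crest.Agent.R224.TF
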