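/-
R224 / T / TFAbs (helper247): a contractible space with a finite equivariant atlas of patches
`V j → ZMod n` carries no map `h` of period `n ≥ 2` shifting the labels.
-/
import Crest.Agent.R224.T.TFDescent

set_option autoImplicit false

noncomputable section

open Filter Topology

namespace Crest.Agent.R224.TF

variable {E : Type*} [TopologicalSpace E] {n : ℕ}

/-- scales -/
def Wsc (n : ℕ) (H : unitInterval × E → E) (h : E → E) (W : Set (E × E)) : ℕ → Set (E × E)
  | 0 => W
  | i + 1 => {q | ∀ b ∈ Finset.range n, ∀ t, (H (t, h^[b] q.1), H (t, h^[b] q.2)) ∈ Wsc n H h W i}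

theorem Wsc_open (H : unitInterval × E → E) (hH : Continuous H) (h : E → E) (hh : Continuous h)
    (W : Set (E × E)) (hW : IsOpen W) (i : ℕ) : IsOpen (Wsc n H h W i) := by
  induction i with
  | zero => exact hW
  | succ i ih =>
    have e : Wsc n H h W (i + 1) = ⋂ b ∈ Finset.range n,
        {q : E × E | ∀ t, (H (t, h^[b] q.1), H (t, h^[b] q.2)) ∈ Wsc n H h W i} := by
      ext q
      simp [Wsc]
    rw [e]
    exact isOpen_biInter_finset fun b _ => isOpen_scale H hH _ ih _ (hh.iterate b)

omit [TopologicalSpace E] in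
theorem Wsc_diag (H : unitInterval × E → E) (h : E → E) (W : Set (E × E)) (hd : ∀ x, (x, x) ∈ W)
    (i : ℕ) (x : E) : (x, x) ∈ Wsc n H h W i := by
  induction i generalizing x with
  | zero => exact hd x
  | succ i ih => exact fun b _ t => ih _

omit [TopologicalSpace E] in
theorem Wsc_inv (H : unitInterval × E → E) (h : E → E) (hn : ∀ v, h^[n] v = v)
    (W : Set (E × E)) (hWh : ∀ v w, (v, w) ∈ W → (h v, h w) ∈ W) (i : ℕ) (v w : E)
    (hvw : (v, w) ∈ Wsc n H h W i) : (h v, h w) ∈ Wsc n H h W i := by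
  cases i with
  | zero => exact hWh v w hvw
  | succ i =>
    intro b hb t
    rcases Nat.lt_or_ge (b + 1) n with h1 | h1
    · have := hvw (b + 1) (Finset.mem_range.2 h1) t
      simpa [Function.iterate_succ_apply] using this
    · have h2 : b + 1 = n := by
        have := Finset.mem_range.1 hb
        omega
      have h3 : ∀ v, h^[b] (h v) = v := by
        intro v
        rw [← Function.iterate_succ_apply, Nat.succ_eq_add_one, h2, hn]
      have h4 := hvw 0 (Finset.mem_range.2 (by omega)) t
      simpa [h3] using h4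

omit [TopologicalSpace E] in
theorem Wsc_sub (hn0 : 0 < n) (H : unitInterval × E → E) (H0 : ∀ x, H (0, x) = x) (h : E → E)
    (W : Set (E × E)) (i : ℕ) : Wsc n H h W i ⊆ W := by
  induction i with
  | zero => exact subset_rfl
  | succ i ih =>
    intro q hq
    have := hq 0 (Finset.mem_range.2 hn0) 0
    rw [H0, H0] at this
    exact ih this

/-- the equivariant chains -/
theorem exists_seq [NeZero n] [ContractibleSpace E] (h : E → E) (hh : Continuous h)
    (hn : ∀ v, h^[n] v = v) (W : Set (E × E)) (hW : IsOpen W) (hd : ∀ x, (x, x) ∈ W)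
    (hWh : ∀ v w, (v, w) ∈ W → (h v, h w) ∈ W) (m : ℕ) :
    ∃ z : ℕ → Ch (ZMod n) E, (∀ k ≤ m, z k ∈ Sp (ZMod n) (Sm W (k + 1))) ∧
      D (z 0) = Finsupp.single [] 1 ∧ ∀ k < m, D (z (k + 1)) = al n h (k + 1) (z k) := by
  have hn0 : 0 < n := Nat.pos_of_ne_zero (NeZero.ne n)
  obtain ⟨c, ⟨F⟩⟩ := id_nullhomotopic E
  set H : unitInterval × E → E := fun p => F p with hHdef
  have hH : Continuous H := F.continuous
  have H0 : ∀ x, H (0, x) = x := fun x => F.apply_zero x
  have H1 : ∀ x, H (1, x) = c := fun x => F.apply_one x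
  have key : ∀ K ≤ m, ∃ z : ℕ → Ch (ZMod n) E,
      (∀ k ≤ K, z k ∈ Sp (ZMod n) (Sm (Wsc n H h W (m - k)) (k + 1))) ∧
      D (z 0) = Finsupp.single [] 1 ∧ ∀ k < K, D (z (k + 1)) = al n h (k + 1) (z k) := by
    intro K
    induction K with
    | zero =>
      intro _
      refine ⟨fun _ => Finsupp.single [c] 1, ?_, ?_, ?_⟩
      · intro k hk
        obtain rfl : k = 0 := by omega
        have h5 : ([c] : List E) ∈ Sm (Wsc n H h W (m - 0)) (0 + 1) := by
          refine ⟨rfl, ?_⟩
          intro a ha b hb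
          rw [List.mem_singleton] at ha hb
          subst ha; subst hb
          exact Wsc_diag H h W hd _ _
        exact single_mem h5 1
      · rw [D_single, one_smul]
        simp [bd1]
      · intro k hk
        exact absurd hk (Nat.not_lt_zero k)
    | succ K ih =>
      intro hK
      obtain ⟨z, hz, hz0, hzs⟩ := ih (by omega)
      have hinv : ∀ l ∈ Sm (Wsc n H h W (m - K)) (K + 1),
          l.map h ∈ Sm (Wsc n H h W (m - K)) (K + 1) := by
        rintro l ⟨h3, h4⟩
        refine ⟨by simpa using h3, ?_⟩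
        intro a ha b hb
        obtain ⟨a', ha', rfl⟩ := List.mem_map.1 ha
        obtain ⟨b', hb', rfl⟩ := List.mem_map.1 hb
        exact Wsc_inv H h hn W hWh _ _ _ (h4 a' ha' b' hb')
      have hmem := al_mem h hinv (K + 1) (hz K le_rfl)
      have hcyc : D (al n h (K + 1) (z K)) = 0 := by
        rw [D_al]
        cases K with
        | zero =>
          rw [hz0]
          unfold al dif
          rw [if_neg (by decide), HH_apply, push_single]
          simp
        | succ K => rw [hzs K (by omega), al_al h hn]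
      have e : m - K = (m - (K + 1)) + 1 := by omega
      rw [e] at hmem
      obtain ⟨w, hw, hDw⟩ := acyc H hH c H0 H1 (Wsc n H h W (m - (K + 1)))
        (Wsc_open H hH h hh W hW _) (Wsc_diag H h W hd _)
        (n := K + 1) (z := al n h (K + 1) (z K)) (by
          refine Sp_mono ?_ hmem
          rintro l ⟨h3, h4⟩
          refine ⟨h3, fun a ha b hb t => ?_⟩
          exact h4 a ha b hb 0 (Finset.mem_range.2 hn0) t) hcyc
      refine ⟨Function.update z (K + 1) w, ?_, ?_, ?_⟩
      · intro k hk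
        rcases Nat.lt_or_ge k (K + 1) with h1 | h1
        · rw [Function.update_of_ne (by omega)]
          exact hz k (by omega)
        · obtain rfl : k = K + 1 := by omega
          rw [Function.update_self]
          exact hw
      · rw [Function.update_of_ne (by omega)]
        exact hz0
      · intro k hk
        rcases Nat.lt_or_ge k K with h1 | h1
        · rw [Function.update_of_ne (by omega), Function.update_of_ne (by omega)]
          exact hzs k h1
        · obtain rfl : k = K := by omega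
          rw [Function.update_self, Function.update_of_ne (by omega)]
          exact hDw
  obtain ⟨z, hz, hz0, hzs⟩ := key m le_rfl
  refine ⟨z, fun k hk => Sp_mono ?_ (hz k hk), hz0, hzs⟩
  rintro l ⟨h3, h4⟩
  exact ⟨h3, fun a ha b hb => Wsc_sub hn0 H H0 h W _ (h4 a ha b hb)⟩

/-- ABSTRACT TORSION THEOREM. -/
theorem no_period [ContractibleSpace E] (hn2 : 2 ≤ n) (h : E → E) (hh : Continuous h)
    (hn : ∀ v, h^[n] v = v) (m : ℕ) (K V : ℕ → Set E) (hK : ∀ j, IsClosed (K j))
    (hV : ∀ j, IsOpen (V j)) (hKV : ∀ j, K j ⊆ V j) (hcov : ∀ v, ∃ j < m, v ∈ K j)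
    (hKh : ∀ j v, h v ∈ K j ↔ v ∈ K j) (hVh : ∀ j v, h v ∈ V j ↔ v ∈ V j)
    (lam : ℕ → E → ZMod n) (hlam : ∀ j, ∀ v ∈ V j, lam j (h v) = lam j v + 1)
    (hloc : ∀ j, ∀ v ∈ V j, ∀ᶠ w in 𝓝 v, lam j w = lam j v) : False := by
  classical
  have _ : NeZero n := ⟨by omega⟩
  have _ : Fact (1 < n) := ⟨by omega⟩
  set idx : E → ℕ := fun v => Nat.find (hcov v) with hidx
  have hidx1 : ∀ v, idx v < m ∧ v ∈ K (idx v) := fun v => Nat.find_spec (hcov v)
  have hidxh : ∀ v, idx (h v) = idx v := by
    intro v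
    simp only [hidx]
    congr 1
    funext j
    exact propext (and_congr_right fun _ => hKh j v)
  set lam' : ℕ → E → ZMod n := fun j v => if v ∈ V j then lam j v else lam (idx v) v with hlam'
  set W : Set (E × E) := {q | ∀ j < m, q.1 ∈ K j → (q.2 ∈ V j ∧ lam j q.2 = lam j q.1)} with hWdef
  have hWo : IsOpen W := by
    rw [isOpen_iff_mem_nhds]
    intro q hq
    have h1 : ∀ j ∈ Finset.range m, ∀ᶠ q' in 𝓝 q, q'.1 ∈ K j →
        (q'.2 ∈ V j ∧ lam j q'.2 = lam j q'.1) := by
      intro j hj
      by_cases hqj : q.1 ∈ K j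
      · obtain ⟨h2, h3⟩ := hq j (Finset.mem_range.1 hj) hqj
        have e1 : ∀ᶠ q' : E × E in 𝓝 q, lam j q'.1 = lam j q.1 :=
          (continuous_fst.tendsto q).eventually (hloc j q.1 (hKV j hqj))
        have e2 : ∀ᶠ q' : E × E in 𝓝 q, lam j q'.2 = lam j q.2 :=
          (continuous_snd.tendsto q).eventually (hloc j q.2 h2)
        have e3 : ∀ᶠ q' : E × E in 𝓝 q, q'.2 ∈ V j :=
          (continuous_snd.tendsto q).eventually ((hV j).mem_nhds h2)
        filter_upwards [e1, e2, e3] with q' a1 a2 a3 _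
        exact ⟨a3, by rw [a1, a2, h3]⟩
      · have e1 : ∀ᶠ q' : E × E in 𝓝 q, q'.1 ∈ (K j)ᶜ :=
          (continuous_fst.tendsto q).eventually ((hK j).isOpen_compl.mem_nhds hqj)
        filter_upwards [e1] with q' a1 a2
        exact absurd a2 a1
    have h2 : ∀ᶠ q' in 𝓝 q, ∀ j ∈ Finset.range m, q'.1 ∈ K j →
        (q'.2 ∈ V j ∧ lam j q'.2 = lam j q'.1) := by
      rw [Filter.eventually_all_finset]
      exact h1
    filter_upwards [h2] with q' hq' j hj
    exact hq' j (Finset.mem_range.2 hj)
  have hWd : ∀ x, (x, x) ∈ W := fun x j _ hx => ⟨hKV j hx, rfl⟩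
  have hWh : ∀ v w, (v, w) ∈ W → (h v, h w) ∈ W := by
    intro v w hvw j hj hv
    obtain ⟨h1, h2⟩ := hvw j hj ((hKh j v).1 hv)
    refine ⟨(hVh j w).2 h1, ?_⟩
    show lam j (h w) = lam j (h v)
    rw [hlam j w h1, hlam j v (hKV j ((hKh j v).1 hv))]
    exact congrArg (· + 1) h2
  have hLab : Lab n m h W idx lam' := by
    refine ⟨fun v => (hidx1 v).1, hidxh, ?_, hWh, ?_⟩
    · intro j v
      simp only [hlam']
      by_cases hv : v ∈ V j
      · rw [if_pos hv, if_pos ((hVh j v).2 hv), hlam j v hv]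
      · rw [if_neg hv, if_neg (fun hh => hv ((hVh j v).1 hh)), hidxh,
          hlam _ v (hKV _ (hidx1 v).2)]
    · intro v w hvw
      obtain ⟨h1, h2⟩ := hvw (idx v) (hidx1 v).1 (hidx1 v).2
      simp only [hlam']
      rw [if_pos h1, if_pos (hKV _ (hidx1 v).2)]
      exact h2
  obtain ⟨z, hz, hz0, hzs⟩ := exists_seq h hh hn W hWo hWd hWh m
  refine hLab.no_seq one_ne_zero hn m 0 (by omega) z (fun k hk => ?_) hz0 hzs
  refine Sp_mono ?_ (hz k hk)
  intro l hl
  exact ⟨hl, fun v _ => Nat.zero_le _⟩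

end Crest.Agent.R224.TF
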