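/-
R224 / T / TorsFree (helper247): the fundamental group of a compact Hausdorff locally path
connected space with a contractible cover is torsion-free.
-/
import Crest.Agent.R224.T.TFAbs
import Crest.Prelude.Def_ClassifyingComplex

set_option autoImplicit false

noncomputable section

open Filter Topology Function

namespace Crest.Agent.R224.TF

/-- labels in `ZMod n` for a free map of period `n` -/
theorem exists_theta {I : Type*} {n : ℕ} (hn0 : 0 < n) (σ : I → I) (hn : ∀ i, σ^[n] i = i)
    (hfree : ∀ i k, 0 < k → k < n → σ^[k] i ≠ i) :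
    ∃ θ : I → ZMod n, ∀ i, θ (σ i) = θ i + 1 := by
  classical
  have hper : ∀ i, IsPeriodicPt σ n i := hn
  have hmod : ∀ k i, σ^[k % n] i = σ^[k] i := fun k i => (hper i).iterate_mod_apply k
  have hinv : ∀ k i j, σ^[k] i = j → ∃ k', σ^[k'] j = i := by
    intro k i j hij
    refine ⟨n - k % n, ?_⟩
    rw [← hij, ← hmod k, ← iterate_add_apply, Nat.sub_add_cancel (Nat.mod_lt _ hn0).le, hn]
  let S : Setoid I :=
    { r := fun i j => ∃ k, σ^[k] i = j
      iseqv :=
        ⟨fun i => ⟨0, rfl⟩, fun {i j} ⟨k, hk⟩ => hinv k i j hk,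
          fun {i j l} ⟨k, hk⟩ ⟨k', hk'⟩ => ⟨k' + k, by rw [iterate_add_apply, hk, hk']⟩⟩ }
  have hrep : ∀ i : I, ∃ k, σ^[k] (Quotient.out (Quotient.mk S i)) = i := fun i =>
    (Quotient.mk_out (s := S) i)
  choose kk hkk using hrep
  refine ⟨fun i => (kk i : ZMod n), fun i => ?_⟩
  have e1 : Quotient.mk S (σ i) = Quotient.mk S i := Quotient.sound (hinv 1 _ _ rfl)
  set r := Quotient.out (Quotient.mk S i) with hr
  have e2 : σ^[kk (σ i)] r = σ^[kk i + 1] r := by
    have h1 := hkk (σ i)
    rw [e1] at h1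
    rw [h1, iterate_succ_apply']
    exact congrArg σ (hkk i).symm
  -- compare exponents
  have key : ∀ a b, a ≤ b → σ^[a] r = σ^[b] r → ((a : ℕ) : ZMod n) = b := by
    intro a b hab h1
    have h2 : σ^[b - a] r = r := by
      have h3 : σ^[n * a] r = r := by
        rw [← hmod, Nat.mul_mod_right]
        rfl
      have h4 : ∀ s, σ^[n * a - a] (σ^[a] s) = s := by
        intro s
        rw [← iterate_add_apply, Nat.sub_add_cancel (Nat.le_mul_of_pos_left a hn0), ← hmod,
          Nat.mul_mod_right]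
        rfl
      have h5 := congrArg (σ^[n * a - a]) h1
      rw [h4] at h5
      conv at h5 => rhs; rw [show b = a + (b - a) by omega, iterate_add_apply, h4]
      exact h5.symm
    have h3 : (b - a) % n = 0 := by
      by_contra hne
      exact hfree r _ (Nat.pos_of_ne_zero hne) (Nat.mod_lt _ hn0) (by rw [hmod, h2])
    have h4 : ((b - a : ℕ) : ZMod n) = 0 :=
      (ZMod.natCast_eq_zero_iff _ _).2 (Nat.dvd_of_mod_eq_zero h3)
    have h5 : b = a + (b - a) := by omega
    rw [h5, Nat.cast_add, h4, add_zero]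
  have h6 : ((kk (σ i) : ℕ) : ZMod n) = ((kk i + 1 : ℕ) : ZMod n) := by
    rcases le_total (kk (σ i)) (kk i + 1) with h | h
    · exact key _ _ h e2
    · exact (key _ _ h e2.symm).symm
  show ((kk (σ i) : ℕ) : ZMod n) = (kk i : ZMod n) + 1
  rw [h6]
  push_cast
  rfl

section cover

variable {E M : Type*} [TopologicalSpace E] [TopologicalSpace M] {p : E → M}

/-- monodromy commutes with deck maps -/
theorem mono_comm (cov : IsCoveringMap p) (F : C(E, E)) (hF : p ∘ F = p) {x y : M}
    (γ : Path.Homotopic.Quotient x y) (e : p ⁻¹' {x}) (he : p (F e) = x) :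
    (cov.monodromy γ ⟨F e, he⟩ : E) = F (cov.monodromy γ e) := by
  obtain ⟨γ⟩ := γ
  have h0 : (γ : C(unitInterval, M)) 0 = p e := γ.source.trans e.2.symm
  have h1 : (γ : C(unitInterval, M)) 0 = p (F e) := γ.source.trans he.symm
  have h2 : F.comp (cov.liftPath γ e h0) = cov.liftPath γ (F e) h1 := by
    refine (cov.eq_liftPath_iff' _).2 ⟨?_, ?_⟩
    · have h3 := cov.liftPath_lifts (γ : C(unitInterval, M)) e h0
      funext t
      have h4 := congrFun h3 t
      have h5 : p (F (cov.liftPath γ e h0 t)) = p (cov.liftPath γ e h0 t) := congrFun hF _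
      simpa using h5.trans h4
    · simp [cov.liftPath_zero]
  exact (congrArg (fun f : C(unitInterval, E) => f 1) h2).symm

/-- a loop class fixing a point of the fibre of a simply connected cover is trivial -/
theorem mono_free (cov : IsCoveringMap p) [SimplyConnectedSpace E] {x : M}
    (γ : FundamentalGroup M x) (e : p ⁻¹' {x}) (h : cov.monodromy γ e = e) : γ = 1 := by
  obtain ⟨γ⟩ := γ
  have h0 : (γ : C(unitInterval, M)) 0 = p e := γ.source.trans e.2.symm
  have hend : cov.liftPath γ e h0 1 = e := congrArg Subtype.val h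
  let Γ : Path (e : E) (e : E) := ⟨cov.liftPath γ e h0, cov.liftPath_zero _ _ _, hend⟩
  have h1 : Γ.Homotopic (Path.refl (e : E)) := SimplyConnectedSpace.paths_homotopic _ _
  have h2 : (Γ.map cov.continuous).Homotopic ((Path.refl (e : E)).map cov.continuous) :=
    h1.map ⟨p, cov.continuous⟩
  have hx : p e = x := e.2
  have h3 : (Path.Homotopic.Quotient.mk γ) = Path.Homotopic.Quotient.mk (Path.refl x) := by
    obtain ⟨e, he⟩ := e
    have hpe : p e = x := he
    subst hpe
    refine Quotient.sound ?_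
    have e1 : γ = Γ.map cov.continuous := by
      ext t
      exact (congrFun (cov.liftPath_lifts (γ : C(unitInterval, M)) e h0) t).symm
    have e2 : (Path.refl e).map cov.continuous = Path.refl (p e) := by
      ext t
      rfl
    rw [e1, ← e2]
    exact h2
  exact h3

/-- local labels of an evenly covered connected set -/
theorem exists_lam [LocallyConnectedSpace M] (cov : IsCoveringMap p) {n : ℕ} (hn0 : 0 < n)
    (F : C(E, E)) (hF : p ∘ F = p) (hn : ∀ v, F^[n] v = v)
    (hfree : ∀ v k, 0 < k → k < n → F^[k] v ≠ v) (a : M) :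
    ∃ U : Set M, IsOpen U ∧ a ∈ U ∧ ∃ lam : E → ZMod n,
      (∀ v, p v ∈ U → lam (F v) = lam v + 1) ∧
      (∀ v, p v ∈ U → ∀ᶠ w in 𝓝 v, lam w = lam v) := by
  classical
  obtain ⟨hdisc, U, haU, hU, hpU, H, hH⟩ := cov a
  -- a connected open neighbourhood
  obtain ⟨U', hU'U, hU'o, haU', hU'c⟩ :=
    locallyConnectedSpace_iff_subsets_isOpen_isConnected.1 inferInstance a U (hU.mem_nhds haU)
  have hpF : ∀ v, p (F v) = p v := fun v => congrFun hF v
  have hpFk : ∀ k v, p (F^[k] v) = p v := by
    intro k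
    induction k with
    | zero => intro v; rfl
    | succ k ih => intro v; rw [iterate_succ_apply, ih, hpF]
  have hpUF : ∀ v, p v ∈ U → F v ∈ p ⁻¹' U := fun v hv => by
    show p (F v) ∈ U
    rw [hpF]; exact hv
  rcases isEmpty_or_nonempty (p ⁻¹' {a}) with hemp | hne
  · refine ⟨U, hU, haU, fun _ => 0, fun v hv => ?_, fun v hv => ?_⟩
    · exact (hemp.false (H ⟨v, hv⟩).2).elim
    · exact Eventually.of_forall fun _ => rfl
  -- sheet labels
  let i0 : p ⁻¹' {a} := Classical.choice hne
  let q : E → p ⁻¹' {a} := fun v => if hv : p v ∈ U then (H ⟨v, hv⟩).2 else i0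
  have hq : ∀ v (hv : p v ∈ U), q v = (H ⟨v, hv⟩).2 := fun v hv => dif_pos hv
  have hqloc : ∀ v, p v ∈ U → ∀ᶠ w in 𝓝 v, q w = q v := by
    intro v hv
    have hc : Continuous fun w : p ⁻¹' U => (H w).2 := continuous_snd.comp H.continuous
    have h1 : ∀ᶠ w : p ⁻¹' U in 𝓝 ⟨v, hv⟩, (H w).2 = (H ⟨v, hv⟩).2 :=
      hc.continuousAt.eventually (IsOpen.mem_nhds (isOpen_discrete {(H ⟨v, hv⟩).2}) rfl)
    have h2 : 𝓝 v = Filter.map Subtype.val (𝓝 (⟨v, hv⟩ : p ⁻¹' U)) :=
      (hpU.isOpenEmbedding_subtypeVal.map_nhds_eq ⟨v, hv⟩).symm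
    rw [h2, Filter.eventually_map]
    filter_upwards [h1] with w hw
    rw [hq w w.2, hq v hv]
    exact hw
  have hinj : ∀ v w, p v ∈ U → p v = p w → q v = q w → v = w := by
    intro v w hv hvw hqvw
    have hw : p w ∈ U := hvw ▸ hv
    rw [hq v hv, hq w hw] at hqvw
    have h1 : H ⟨v, hv⟩ = H ⟨w, hw⟩ := by
      refine Prod.ext (Subtype.ext ?_) hqvw
      rw [hH, hH]
      exact hvw
    exact congrArg Subtype.val (H.injective h1)
  -- the sheets
  let s : U → p ⁻¹' {a} → E := fun u i => (H.symm (u, i) : E)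
  have hps : ∀ u i, p (s u i) = u := by
    intro u i
    have := hH (H.symm (u, i))
    rw [H.apply_symm_apply] at this
    exact this.symm
  have hpsU : ∀ u i, p (s u i) ∈ U := fun u i => by rw [hps]; exact u.2
  have hqs : ∀ u i, q (s u i) = i := by
    intro u i
    rw [hq _ (hpsU u i)]
    have : (⟨s u i, hpsU u i⟩ : p ⁻¹' U) = H.symm (u, i) := Subtype.ext rfl
    rw [this, H.apply_symm_apply]
  let σ : p ⁻¹' {a} → p ⁻¹' {a} := fun i => q (F (s ⟨a, haU⟩ i))
  have hσ : ∀ v, p v ∈ U' → q (F v) = σ (q v) := by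
    intro v hv
    have hvU : p v ∈ U := hU'U hv
    have hpre : PreconnectedSpace U' := isPreconnected_iff_preconnectedSpace.1 hU'c.isPreconnected
    let f : U' → p ⁻¹' {a} := fun u =>
      (H ⟨F (s ⟨u, hU'U u.2⟩ (q v)), hpUF _ (hpsU _ _)⟩).2
    have hf : Continuous f := by
      refine continuous_snd.comp (H.continuous.comp (Continuous.subtype_mk ?_ _))
      refine F.continuous.comp (continuous_subtype_val.comp (H.symm.continuous.comp ?_))
      exact (Continuous.subtype_mk continuous_subtype_val _).prodMk continuous_const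
    have h1 : f ⟨p v, hv⟩ = f ⟨a, haU'⟩ := PreconnectedSpace.constant hpre hf
    have h2 : s ⟨p v, hvU⟩ (q v) = v := hinj _ _ (hpsU _ _) (hps _ _) (hqs _ _)
    have h3 : f ⟨p v, hv⟩ = q (F v) := by
      rw [hq _ (hpUF v hvU)]
      show (H ⟨F (s ⟨p v, hvU⟩ (q v)), _⟩).2 = _
      simp only [h2]
    have h4 : f ⟨a, haU'⟩ = σ (q v) := (hq _ (hpUF _ (hpsU ⟨a, haU⟩ (q v)))).symm
    rw [← h3, h1, h4]
  have hσk : ∀ k i, σ^[k] i = q (F^[k] (s ⟨a, haU⟩ i)) := by
    intro k i
    induction k with
    | zero => exact (hqs _ _).symm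
    | succ k ih =>
      rw [iterate_succ_apply', iterate_succ_apply', ih, hσ]
      rw [hpFk, hps]
      exact haU'
  obtain ⟨θ, hθ⟩ := exists_theta hn0 σ (fun i => by rw [hσk, hn, hqs]) (by
    intro i k hk hkn hcon
    rw [hσk] at hcon
    refine hfree (s ⟨a, haU⟩ i) k hk hkn (hinj _ _ ?_ ?_ ?_)
    · rw [hpFk]; exact hpsU _ _
    · rw [hpFk]
    · rw [hcon, hqs])
  refine ⟨U', hU'o, haU', fun v => θ (q v), fun v hv => ?_, fun v hv => ?_⟩
  · show θ (q (F v)) = θ (q v) + 1
    rw [hσ v hv, hθ]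
  · filter_upwards [hqloc v (hU'U hv)] with w hw
    rw [hw]

end cover

/-- TORSION-FREENESS. -/
theorem torsion_free (M : Type*) [TopologicalSpace M] [T2Space M] [CompactSpace M]
    [LocallyPathConnectedSpace M] (hM : Crest.Topology.HasContractibleCover M) (x : M) :
    ∀ g : FundamentalGroup M x, g ≠ 1 → ∀ N : ℕ, 0 < N → g ^ N ≠ 1 := by
  classical
  intro g hg N hN hgN
  obtain ⟨E, _, p, hE, cov, hsurj⟩ := hM
  -- order
  have hord : 0 < orderOf g := orderOf_pos_iff.2 (isOfFinOrder_iff_pow_eq_one.2 ⟨N, hN, hgN⟩)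
  have hord1 : orderOf g ≠ 1 := fun h => hg (orderOf_eq_one_iff.1 h)
  set n := orderOf g with hndef
  have hn2 : 2 ≤ n := by omega
  -- `E` is locally path connected
  have hloc : ∀ e : E, ∃ φ : OpenPartialHomeomorph E M, e ∈ φ.source := fun e => by
    obtain ⟨φ, h1, -⟩ := cov.isLocalHomeomorph e
    exact ⟨φ, h1⟩
  choose φ hφ using hloc
  let _ : ChartedSpace M E :=
    { atlas := Set.univ
      chartAt := φ
      mem_chart_source := hφ
      chart_mem_atlas := fun _ => Set.mem_univ _ }
  have _ : LocallyPathConnectedSpace E := ChartedSpace.locallyPathConnectedSpace M E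
  -- the deck map
  obtain ⟨e0, he0⟩ := hsurj x
  let e0' : p ⁻¹' {x} := ⟨e0, he0⟩
  obtain ⟨F, ⟨hF0, hFp⟩, -⟩ := cov.existsUnique_continuousMap_lifts (A := E)
    ⟨p, cov.continuous⟩ e0 (cov.monodromy g e0' : E) ((cov.monodromy g e0').2.trans he0.symm)
  have hFp' : p ∘ F = p := hFp
  have hpF : ∀ v, p (F v) = p v := fun v => congrFun hFp' v
  have hpFk : ∀ k v, p (F^[k] v) = p v := by
    intro k
    induction k with
    | zero => intro v; rfl
    | succ k ih => intro v; rw [iterate_succ_apply, ih, hpF]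
  have hFk : ∀ k, F^[k] e0 = (cov.monodromy (g ^ k : FundamentalGroup M x) e0' : E) := by
    let _ := cov.fundamentalGroupMulAction x
    intro k
    induction k with
    | zero =>
      rw [pow_zero]
      exact (congrArg Subtype.val (congrFun cov.monodromy_refl e0')).symm
    | succ k ih =>
      rw [iterate_succ_apply', ih, pow_succ]
      have h1 : cov.monodromy (g ^ k * g : FundamentalGroup M x) e0'
          = cov.monodromy (g ^ k : FundamentalGroup M x) (cov.monodromy g e0') :=
        mul_smul (g ^ k) g e0'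
      rw [h1]
      have hFe : p (F e0) = x := (hpF e0).trans he0
      have h2 : cov.monodromy g e0' = ⟨F e0, hFe⟩ := Subtype.ext hF0.symm
      rw [h2]
      exact (mono_comm cov F hFp' (g ^ k : FundamentalGroup M x) e0' hFe).symm
  have hcontk : ∀ k, Continuous F^[k] := fun k => F.continuous.iterate k
  have hn : ∀ v, F^[n] v = v := by
    have h1 : F^[n] = id := by
      refine cov.eq_of_comp_eq (hcontk n) continuous_id (funext fun v => hpFk n v) e0 ?_
      rw [hFk, hndef, pow_orderOf_eq_one]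
      exact congrArg Subtype.val (congrFun cov.monodromy_refl e0')
    intro v
    rw [h1]
    rfl
  have hfree : ∀ v k, 0 < k → k < n → F^[k] v ≠ v := by
    intro v k hk hkn hcon
    have h1 : F^[k] = id :=
      cov.eq_of_comp_eq (hcontk k) continuous_id (funext fun v => hpFk k v) v hcon
    have h2 : cov.monodromy (g ^ k : FundamentalGroup M x) e0' = e0' :=
      Subtype.ext (by rw [← hFk, h1]; rfl)
    have h3 := mono_free cov (g ^ k : FundamentalGroup M x) e0' h2
    exact absurd (orderOf_le_of_pow_eq_one hk h3) (by omega)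
  -- the finite cover
  choose U hUo haU lam hlam hlamloc using
    fun a => exists_lam cov (by omega : 0 < n) F hFp' hn hfree a
  have hcl : ∀ a : M, ∃ C ∈ 𝓝 a, IsClosed C ∧ C ⊆ U a := fun a =>
    exists_mem_nhds_isClosed_subset ((hUo a).mem_nhds (haU a))
  choose C hCn hCc hCU using hcl
  obtain ⟨t, -, ht⟩ := isCompact_univ.elim_nhds_subcover C fun a _ => hCn a
  set L := t.toList with hLdef
  refine no_period hn2 F F.continuous hn L.length (fun j => p ⁻¹' C (L.getD j x))
    (fun j => p ⁻¹' U (L.getD j x)) (fun j => (hCc _).preimage cov.continuous)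
    (fun j => (hUo _).preimage cov.continuous) (fun j => Set.preimage_mono (hCU _)) ?_ ?_ ?_
    (fun j => lam (L.getD j x)) (fun j v hv => hlam _ v hv) (fun j v hv => hlamloc _ v hv)
  · intro v
    obtain ⟨a, ha, hva⟩ : ∃ a ∈ t, p v ∈ C a := by
      have := ht (Set.mem_univ (p v))
      simpa using this
    obtain ⟨j, hj, hja⟩ := List.getElem_of_mem (Finset.mem_toList.2 ha)
    refine ⟨j, hj, ?_⟩
    show p v ∈ C (L.getD j x)
    rw [List.getD_eq_getElem _ _ hj, hja]
    exact hva
  · intro j v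
    rw [Set.mem_preimage, Set.mem_preimage, hpF]
  · intro j v
    rw [Set.mem_preimage, Set.mem_preimage, hpF]

/-- the form needed for `TopHyp.tf` of row 224 -/
theorem torsion_free_manifold (M : Type) [TopologicalSpace M] [T2Space M] [CompactSpace M]
    [ChartedSpace (EuclideanSpace ℝ (Fin 4)) M] (hM : Crest.Topology.HasContractibleCover M)
    (x : M) : ∀ g : FundamentalGroup M x, g ≠ 1 → ∀ N : ℕ, 0 < N → g ^ N ≠ 1 := by
  have _ : LocallyPathConnectedSpace M :=
    ChartedSpace.locallyPathConnectedSpace (EuclideanSpace ℝ (Fin 4)) M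
  exact torsion_free M hM x

end Crest.Agent.R224.TF
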