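/-
R224 / S0346, topological half: assembly (helper36).
-/
import Crest.Agent.R224.T.Iface
import Crest.Agent.R224.T.Geo
import Crest.Agent.R224.T.End
import Crest.Agent.R224.T.Glue
import Crest.Agent.R224.T.H1
import Crest.Agent.R224.T.Lift
import Crest.Agent.R224.T.GeoAct
import Crest.Agent.R224.T.TorsFree

set_option autoImplicit false

noncomputable section

open Topology Set Filter

namespace Crest.Agent.R224.T

/-- D3 with local connectedness -/
def NT2L : Prop := ∀ (d : ℕ) (G : Type) [Group G] (E : Type) [TopologicalSpace E] [T2Space E]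
  [ContractibleSpace E] [LocallyCompactSpace E] [LocallyConnectedSpace E] [MulAction G E]
  (S : Finset G) (U : Set E),
  2 ≤ d → Geo S U → ManHyp d E →
  (∃ μ : C(Dl (d + 1), E) → ZMod 2, IsFund μ ∧ ∀ σ, μ σ ≠ 0 → ∃ g : G, range σ ⊆ tr g U) →
  ∀ ψ : G → G → ZMod 2,
    {p : G × G × G | Adj S p.1 p.2.1 ∧ Adj S p.2.1 p.2.2 ∧ Adj S p.1 p.2.2 ∧
      ψ p.1 p.2.1 + ψ p.2.1 p.2.2 ≠ ψ p.1 p.2.2}.Finite →
    ∃ f : G → ZMod 2, {p : G × G | Adj S p.1 p.2 ∧ ψ p.1 p.2 ≠ f p.1 + f p.2}.Finite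

theorem manHyp_of (hFill : NFill) (hMan : NMan) (d : ℕ) (E : Type) [TopologicalSpace E] [T2Space E]
    [ContractibleSpace E] [ChartedSpace (EE (d + 1)) E] : ManHyp d E where
  fill := hFill E
  low := (hMan d E).1
  two := (hMan d E).2.1
  loc := (hMan d E).2.2

theorem nTop_of (hFill : NFill) (hMan : NMan) (hLift : NLift) (hT2 : NT2L) : NTop := by
  intro M _ _ _ _ _ hch x hM
  have hch' : ChartedSpace (EE (3 + 1)) M := hch
  obtain ⟨E, tE, π, act, S, U, hc, hcov, hsurj, hT2E, hlc, ⟨hchE⟩, hπ, hdeck, hgeo⟩ :=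
    nGeo 3 M x hM
  have hman : ManHyp 3 E := manHyp_of hFill hMan 3 E
  have hconn : ConnectedSpace E := inferInstance
  have hlcE : LocallyConnectedSpace E := ChartedSpace.locallyConnectedSpace (EE (3 + 1)) E
  have hcs := Tp.geo_cont hgeo
  obtain ⟨A, -⟩ := Tp.exists_actData hgeo
  have hstd : Std S := A.std
  have hμ : ∃ μ : C(Dl (3 + 1), E) → ZMod 2, IsFund μ ∧
      ∀ σ, μ σ ≠ 0 → ∃ g : FundamentalGroup M x, range σ ⊆ tr g U := by
    have h1 : ∀ V ∈ range fun g : FundamentalGroup M x => tr g U, IsOpen V := by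
      rintro _ ⟨g, rfl⟩
      have h1 : tr g U = (fun z : E => g⁻¹ • z) ⁻¹' U := by
        ext z
        constructor
        · rintro ⟨u, hu, rfl⟩
          simpa using hu
        · intro hz
          exact ⟨g⁻¹ • z, hz, by simp⟩
      show IsOpen (tr g U)
      rw [h1]
      exact hgeo.isOpen.preimage (hgeo.cont g⁻¹)
    have h2 : ⋃₀ (range fun g : FundamentalGroup M x => tr g U) = univ := by
      rw [Set.eq_univ_iff_forall]
      intro z
      obtain ⟨g, u, hu, rfl⟩ := hgeo.cover z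
      exact ⟨tr g U, ⟨g, rfl⟩, u, hu, rfl⟩
    have h3 : ∀ V ∈ range fun g : FundamentalGroup M x => tr g U, ∀ g : E ≃ₜ E,
        (∀ z, π (g z) = π z) → g '' V ∈ range fun g : FundamentalGroup M x => tr g U := by
      rintro _ ⟨g, rfl⟩ f hf
      obtain ⟨k, hk⟩ := hdeck f hf
      refine ⟨k * g, ?_⟩
      ext z
      constructor
      · rintro ⟨u, hu, rfl⟩
        refine ⟨g • u, ⟨u, hu, rfl⟩, ?_⟩
        rw [hk]
        exact (mul_smul k g u).symm
      · rintro ⟨_, ⟨u, hu, rfl⟩, rfl⟩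
        refine ⟨u, hu, ?_⟩
        rw [hk]
        exact mul_smul k g u
    obtain ⟨μ, hμ, hsm⟩ := hLift 3 M E π hcov hsurj _ h1 h2 h3
    refine ⟨μ, hμ, fun σ hσ => ?_⟩
    obtain ⟨V, hV0, hV⟩ := hsm σ hσ
    obtain ⟨g, rfl⟩ := hV0
    exact ⟨g, hV⟩
  refine ⟨S, ⟨hstd, nH1 nGlue (FundamentalGroup M x) E S U hgeo,
    nEnd 3 (FundamentalGroup M x) E S U (by norm_num) hgeo hman hμ,
    hT2 3 (FundamentalGroup M x) E S U (by norm_num) hgeo hman hμ,
    TF.torsion_free_manifold M hM x⟩⟩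

end Crest.Agent.R224.T
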