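/-
R224 / topological half (helper886): the singular chains of `T/Defs.lean` form an abstract chain
theory `ChTh` (library `MVabs`, `MVRn`, `MVFund`).
-/
import Crest.Agent.R224.T.Iface
import Crest.Agent.R224.MVMain

set_option autoImplicit false

noncomputable section

open Topology Set Filter

namespace Crest.Agent.R224.T

section basic
variable {X : Type} [TopologicalSpace X] {Y : Type} [TopologicalSpace Y]

lemma ch_two {n : ℕ} (c : Ch n X) : c + c = 0 := by
  ext σ
  have : ∀ a : ZMod 2, a + a = 0 := by decide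
  simp [this]

lemma in_zero (A : Set X) (n : ℕ) : In A (0 : Ch n X) := by
  intro σ hσ; simp at hσ

lemma in_add {A : Set X} {n : ℕ} {c c' : Ch n X} (h : In A c) (h' : In A c') :
    In A (c + c') := by
  classical
  intro σ hσ
  have := Finsupp.support_add hσ
  rcases Finset.mem_union.1 this with h1 | h1
  · exact h σ h1
  · exact h' σ h1

lemma in_sum {ι : Type*} {A : Set X} {n : ℕ} (s : Finset ι) (f : ι → Ch n X)
    (h : ∀ i ∈ s, In A (f i)) : In A (∑ i ∈ s, f i) := by
  classical
  induction s using Finset.induction_on with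
  | empty => simpa using in_zero A n
  | insert a s ha ih =>
    rw [Finset.sum_insert ha]
    exact in_add (h a (Finset.mem_insert_self a s))
      (ih fun i hi => h i (Finset.mem_insert_of_mem hi))

lemma in_smul {A : Set X} {n : ℕ} (a : ZMod 2) {c : Ch n X} (h : In A c) : In A (a • c) := by
  intro σ hσ
  exact h σ (Finsupp.support_smul hσ)

lemma in_single {A : Set X} {n : ℕ} {σ : C(Dl n, X)} (h : range σ ⊆ A) (a : ZMod 2) :
    In A (Finsupp.single σ a : Ch n X) := by
  classical
  intro τ hτ
  have := Finsupp.support_single_subset hτ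
  rw [Finset.mem_singleton] at this
  rw [this]; exact h

/-- a linear map respecting supports on simplices respects supports -/
lemma in_map {A : Set X} {B : Set Y} {n m : ℕ} (F : Ch n X →ₗ[ZMod 2] Ch m Y)
    (hF : ∀ σ : C(Dl n, X), range σ ⊆ A → In B (F (Finsupp.single σ 1))) {c : Ch n X}
    (hc : In A c) : In B (F c) := by
  have : F c = ∑ σ ∈ c.support, c σ • F (Finsupp.single σ 1) := by
    conv_lhs => rw [← Finsupp.sum_single c]
    rw [Finsupp.sum, map_sum]
    refine Finset.sum_congr rfl fun σ _ => ?_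
    rw [← map_smul, Finsupp.smul_single, smul_eq_mul, mul_one]
  rw [this]
  exact in_sum _ _ fun σ hσ => in_smul _ (hF σ (hc σ hσ))

lemma in_mono {A B : Set X} (h : A ⊆ B) {n : ℕ} {c : Ch n X} (hc : In A c) : In B c :=
  fun σ hσ => (hc σ hσ).trans h

lemma in_bd {A : Set X} {n : ℕ} {c : Ch (n + 1) X} (hc : In A c) : In A (bd n c) := by
  refine in_map (bd n) (fun σ hσ => ?_) hc
  unfold bd
  rw [Finsupp.linearCombination_single, one_smul]
  refine in_sum _ _ fun i _ => in_single ?_ 1
  rintro _ ⟨y, rfl⟩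
  exact hσ ⟨_, rfl⟩

lemma in_empty {n : ℕ} {c : Ch n X} (hc : In ∅ c) : c = 0 := by
  rw [← Finsupp.support_eq_empty, Finset.eq_empty_iff_forall_notMem]
  intro σ hσ
  have h := hc σ hσ
  have : Nonempty (Dl n) := inferInstance
  obtain ⟨y⟩ := this
  exact h ⟨y, rfl⟩

lemma in_compact {A : Set X} {n : ℕ} {c : Ch n X} (hc : In A c) :
    ∃ L : Set X, L ⊆ A ∧ IsCompact L ∧ In L c := by
  classical
  refine ⟨⋃ σ ∈ c.support, range σ, ?_, ?_, ?_⟩
  · exact iUnion₂_subset fun σ hσ => hc σ hσ
  · exact c.support.isCompact_biUnion fun σ _ => isCompact_range σ.continuous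
  · intro σ hσ
    exact subset_biUnion_of_mem (u := fun σ : C(Dl n, X) => range σ) hσ

lemma in_push {A : Set X} {n : ℕ} {c : Ch n X} (f : C(X, Y)) (hc : In A c) :
    In (f '' A) (push f n c) := by
  refine in_map (push f n) (fun σ hσ => ?_) hc
  unfold push
  rw [Finsupp.lmapDomain_apply, Finsupp.mapDomain_single]
  refine in_single ?_ 1
  rintro _ ⟨y, rfl⟩
  exact ⟨σ y, hσ ⟨y, rfl⟩, rfl⟩

/-- the subgroup of chains in `A` -/
def InG (A : Set X) (n : ℕ) : AddSubgroup (Ch n X) where
  carrier := {c | In A c}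
  add_mem' := in_add
  zero_mem' := in_zero A n
  neg_mem' := by
    intro c hc
    have : -c = c := by
      rw [neg_eq_iff_add_eq_zero]; exact ch_two c
    show In A (-c)
    rw [this]; exact hc

lemma SubOp.in_s (O : SubOp X) {A : Set X} {n : ℕ} {c : Ch n X} (hc : In A c) :
    In A (O.s n c) :=
  in_map (O.s n) (fun σ hσ τ hτ => (O.supp_s n σ τ hτ).trans hσ) hc

lemma SubOp.in_h (O : SubOp X) {A : Set X} {n : ℕ} {c : Ch n X} (hc : In A c) :
    In A (O.h n c) :=
  in_map (O.h n) (fun σ hσ τ hτ => (O.supp_h n σ τ hτ).trans hσ) hc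

/-- splitting of a small chain -/
lemma split_small {U V A : Set X} {n : ℕ} {c : Ch n X} (hc : Small {U, V} c) (hA : In A c) :
    ∃ a b : Ch n X, In (U ∩ A) a ∧ In (V ∩ A) b ∧ c = a + b := by
  classical
  refine ⟨c.filter fun σ => range σ ⊆ U, c.filter fun σ => ¬ range σ ⊆ U, ?_, ?_, ?_⟩
  · intro σ hσ
    rw [Finsupp.support_filter, Finset.mem_filter] at hσ
    exact subset_inter hσ.2 (hA σ hσ.1)
  · intro σ hσ
    rw [Finsupp.support_filter, Finset.mem_filter] at hσ
    obtain ⟨W, hW, hσW⟩ := hc σ hσ.1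
    rcases hW with rfl | hW
    · exact absurd hσW hσ.2
    · rw [mem_singleton_iff] at hW
      subst hW
      exact subset_inter hσW (hA σ hσ.1)
  · exact (Finsupp.filter_add_filter_not c _).symm

end basic

/-- `d ∘ d = 0` -/
def NDD : Prop := ∀ (X : Type) [TopologicalSpace X] (n : ℕ) (c : Ch (n + 2) X),
    bd n (bd (n + 1) c) = 0

open TM in
/-- the abstract chain theory given by singular chains -/
def chTh (hdd : NDD) (hS : NSub) (X : Type) [TopologicalSpace X] : ChTh X where
  C n := Ch n X
  grp n := inferInstance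
  two n c := ch_two c
  d n := (bd n).toAddMonoidHom
  dd n c := hdd X n c
  In A n := InG A n
  In_mono n h := fun c hc => in_mono h hc
  In_inter h1 h2 := fun σ hσ => subset_inter (h1 σ hσ) (h2 σ hσ)
  In_univ c := fun σ _ => subset_univ _
  In_d h := in_bd h
  cpt h := in_compact h
  sd m n := ((Classical.choose (hS X) m).s n).toAddMonoidHom
  T m n := ((Classical.choose (hS X) m).h n).toAddMonoidHom
  sd_eq m n c := by
    have h := (Classical.choose (hS X) m).bd_h n c
    have h2 := ch_two c
    show (Classical.choose (hS X) m).s (n + 1) c + c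
      = bd (n + 1) ((Classical.choose (hS X) m).h (n + 1) c)
        + (Classical.choose (hS X) m).h n (bd n c)
    rw [h]
    have h3 := ch_two ((Classical.choose (hS X) m).h n (bd n c))
    calc (Classical.choose (hS X) m).s (n + 1) c + c
        = c + (Classical.choose (hS X) m).s (n + 1) c + 0 := by abel
      _ = _ := by rw [← h3]; abel
  sd_In m n c h := SubOp.in_s _ h
  T_In m n c h := SubOp.in_h _ h
  small := by
    intro U V A hU hV n c hc
    have h := Classical.choose_spec (hS X) {U, V} (by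
      rintro W (rfl | hW)
      · exact hU
      · rw [mem_singleton_iff] at hW; subst hW; exact hV) n c (by
      rw [sUnion_pair]; exact in_mono inter_subset_left hc)
    obtain ⟨m, hm⟩ := h.exists
    obtain ⟨a, b, ha, hb, e⟩ := split_small (A := A) hm (SubOp.in_s _ (in_mono inter_subset_right hc))
    exact ⟨m, a, b, ha, hb, e⟩

section
variable (hdd : NDD) (hS : NSub) {X : Type} [TopologicalSpace X]

lemma null_iff_nul (A : Set X) {n : ℕ} (c : Ch n X) :
    (chTh hdd hS X).Null A n c ↔ Nul Aᶜ c := by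
  constructor
  · rintro ⟨u, v, hv, e⟩; exact ⟨u, v, hv, e⟩
  · rintro ⟨u, v, hv, e⟩; exact ⟨u, v, hv, e⟩

lemma rc_iff (A : Set X) {n : ℕ} (c : Ch (n + 1) X) :
    (chTh hdd hS X).d n c ∈ (chTh hdd hS X).In Aᶜ n ↔ RC Aᶜ c := Iff.rfl

end

end Crest.Agent.R224.T
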