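/-
R224 / topological half, nodes B2 (NStar), B3 (NUniq) (helper886).
-/
import Crest.Agent.R224.T.ChInst

set_option autoImplicit false

noncomputable section

open Topology Set Filter

namespace Crest.Agent.R224.T

open TM

lemma push_id' {X : Type} [TopologicalSpace X] {n : ℕ} (f : C(X, X)) (hf : ∀ x, f x = x)
    (c : Ch n X) : push f n c = c := by
  have : (fun σ : C(Dl n, X) => f.comp σ) = id := by
    funext σ
    ext y
    exact hf _
  unfold push
  rw [this]
  simp

lemma bd_push' {X Y : Type} [TopologicalSpace X] [TopologicalSpace Y] (f : C(X, Y)) (n : ℕ)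
    (c : Ch (n + 1) X) : bd n (push f (n + 1) c) = push f n (bd n c) := by
  have : (bd n) ∘ₗ (push f (n + 1)) = (push f n) ∘ₗ (bd n) := by
    apply Finsupp.lhom_ext'
    intro σ
    apply LinearMap.ext_ring
    simp only [LinearMap.comp_apply, Finsupp.lsingle_apply]
    unfold push bd
    rw [Finsupp.lmapDomain_apply, Finsupp.mapDomain_single, Finsupp.linearCombination_single,
      Finsupp.linearCombination_single, one_smul, one_smul, map_sum]
    refine Finset.sum_congr rfl fun i _ => ?_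
    rw [Finsupp.lmapDomain_apply, Finsupp.mapDomain_single]
    rfl
  exact congrArg (fun F => F c) this

lemma push_comp' {X Y Z : Type} [TopologicalSpace X] [TopologicalSpace Y] [TopologicalSpace Z]
    (f : C(X, Y)) (g : C(Y, Z)) (n : ℕ) (c : Ch n X) :
    push g n (push f n c) = push (g.comp f) n c := by
  unfold push
  rw [Finsupp.lmapDomain_apply, Finsupp.lmapDomain_apply, Finsupp.lmapDomain_apply,
    ← Finsupp.mapDomain_comp]
  rfl

lemma hasExp (hdd : NDD) (hS : NSub) (hP : NPrism) (m : ℕ) : HasExp (chTh hdd hS (EE m)) := by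
  intro x R hR
  let H : C(EE m × unitInterval, EE m) :=
    ⟨fun p => x + (1 + (p.2 : ℝ) * (R - 1)) • (p.1 - x), by fun_prop⟩
  obtain ⟨P, -, hP1, hP2⟩ := hP (EE m) (EE m) H
  refine ⟨fun k => (push (H.comp ⟨fun x => (x, 1), by fun_prop⟩) k).toAddMonoidHom,
    fun k => (P k).toAddMonoidHom, ?_, ?_, ?_⟩
  · intro k (c : Ch (k + 1) (EE m))
    have h := hP1 k c
    have h0 : push (H.comp ⟨fun x => (x, 0), by fun_prop⟩) (k + 1) c = c := by
      apply push_id'
      intro y
      simp [H]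
    rw [h0] at h
    show push (H.comp ⟨fun x => (x, 1), by fun_prop⟩) (k + 1) c + c
      = bd (k + 1) (P (k + 1) c) + P k (bd k c)
    rw [h]
    have h3 := ch_two (P k (bd k c))
    calc push (H.comp ⟨fun x => (x, 1), by fun_prop⟩) (k + 1) c + c
        = push (H.comp ⟨fun x => (x, 1), by fun_prop⟩) (k + 1) c + c + 0 := by rw [add_zero]
      _ = _ := by rw [← h3]; abel
  · intro A k c hc
    refine in_mono ?_ (in_push _ hc)
    rintro _ ⟨y, hy, rfl⟩
    refine ⟨y, hy, ?_⟩
    simp [H]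
  · intro A k c hc
    refine in_map (P k) (fun σ hσ τ hτ => ?_) hc
    refine (hP2 k σ τ hτ).trans ?_
    rintro _ ⟨⟨y, t⟩, ⟨hy, -⟩, rfl⟩
    refine ⟨1 + (t : ℝ) * (R - 1), ⟨?_, ?_⟩, y, hσ hy, rfl⟩
    · have := t.2.1
      nlinarith
    · have h1 := t.2.2
      have h0 := t.2.1
      nlinarith

theorem nStar (hdd : NDD) (hS : NSub) (hP : NPrism) : NStar := by
  intro m q K p hK hp hst c hc hn
  have h := null_star (S := chTh hdd hS (EE m)) (hasExp hdd hS hP m) hst hK (k := q) (w := c) hc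
    ((null_iff_nul hdd hS {p} c).2 hn)
  exact (null_iff_nul hdd hS K c).1 h

/-- translations -/
def trans {m : ℕ} (v : EE m) : C(EE m, EE m) := ⟨fun x => x + v, by fun_prop⟩

lemma trans_trans {m : ℕ} (v : EE m) {n : ℕ} (c : Ch n (EE m)) :
    push (trans (-v)) n (push (trans v) n c) = c := by
  rw [push_comp']
  apply push_id'
  intro x
  simp [trans]

lemma rc_push {X Y : Type} [TopologicalSpace X] [TopologicalSpace Y] {f : C(X, Y)}
    {A : Set X} {B : Set Y} (h : f '' A ⊆ B) {n : ℕ} {c : Ch (n + 1) X} (hc : RC A c) :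
    RC B (push f (n + 1) c) := by
  unfold RC
  rw [bd_push']
  exact in_mono h (in_push f hc)

lemma nul_push {X Y : Type} [TopologicalSpace X] [TopologicalSpace Y] {f : C(X, Y)}
    {A : Set X} {B : Set Y} (h : f '' A ⊆ B) {n : ℕ} {c : Ch n X} (hc : Nul A c) :
    Nul B (push f n c) := by
  obtain ⟨b, e, he, rfl⟩ := hc
  refine ⟨push f (n + 1) b, push f n e, in_mono h (in_push f he), ?_⟩
  rw [map_add, bd_push']

lemma trans_image {m : ℕ} (v p q : EE m) (h : p + v = q) : trans v '' {p}ᶜ ⊆ {q}ᶜ := by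
  rintro _ ⟨y, hy, rfl⟩ hyq
  apply hy
  have : y + v = p + v := by rw [h]; exact hyq
  exact add_right_cancel this

lemma nul_trans_iff {m : ℕ} (p : EE m) {n : ℕ} (c : Ch n (EE m)) :
    Nul {0}ᶜ (push (trans (-p)) n c) ↔ Nul {p}ᶜ c := by
  constructor
  · intro h
    have := nul_push (trans_image p 0 p (by simp)) h
    have e := trans_trans (-p) c
    rw [neg_neg] at e
    rwa [e] at this
  · intro h
    exact nul_push (trans_image (-p) p 0 (by simp)) h

lemma van_point (hdd : NDD) (hS : NSub) (hL : NLocAll) (d : ℕ) (j : ℕ) (hj : d + 1 ≤ j)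
    (x : EE (d + 1)) : (chTh hdd hS (EE (d + 1))).Van {x} j := by
  intro (w : Ch (j + 1) (EE (d + 1))) hw
  refine (null_iff_nul hdd hS {x} w).2 ((nul_trans_iff x w).1 ?_)
  refine (hL d).1 j _ (by omega) ?_
  exact rc_push (trans_image (-x) x 0 (by simp)) hw

theorem two_point (hL : NLocAll) (d : ℕ) (p : EE (d + 1)) (c c' : Ch (d + 1) (EE (d + 1)))
    (h : RC {p}ᶜ c) (h' : RC {p}ᶜ c') (hn : ¬ Nul {p}ᶜ c) (hn' : ¬ Nul {p}ᶜ c') :
    Nul {p}ᶜ (c + c') := by
  rw [← nul_trans_iff, map_add]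
  refine (hL d).2.2 _ _ (rc_push (trans_image (-p) p 0 (by simp)) h)
    (rc_push (trans_image (-p) p 0 (by simp)) h') ?_ ?_
  · rw [nul_trans_iff]; exact hn
  · rw [nul_trans_iff]; exact hn'

theorem nUniq (hdd : NDD) (hS : NSub) (hP : NPrism) (hL : NLocAll) : NUniq := by
  intro d K hK c hc h
  have := null_compact (S := chTh hdd hS (EE (d + 1))) (fun x r => isCompact_closedBall x r)
    (hasExp hdd hS hP _) (k := d) (fun j hj x => van_point hdd hS hL d j hj x) hK (w := c) hc
    (fun x hx => (null_iff_nul hdd hS {x} c).2 (h x hx))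
  exact (null_iff_nul hdd hS K c).1 this

/-- local constancy of the local degree in `ℝ^(d+1)` -/
theorem loc_rn (hdd : NDD) (hS : NSub) (hP : NPrism) (m : ℕ) {q : ℕ} (c : Ch (q + 1) (EE m))
    (p : EE m) (hc : RC {p}ᶜ c) : ∀ᶠ y in 𝓝 p, RC {y}ᶜ c ∧ (Nul {y}ᶜ c ↔ Nul {p}ᶜ c) := by
  obtain ⟨L, hL, hLc, hcL⟩ := in_compact hc
  have hp : p ∈ Lᶜ := fun h => hL h rfl
  obtain ⟨ε, hε, hball⟩ := Metric.isOpen_iff.1 hLc.isClosed.isOpen_compl p hp
  have hK : RC (Metric.closedBall p (ε / 2))ᶜ c := by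
    refine in_mono ?_ hcL
    intro z hz hzb
    exact hball (Metric.closedBall_subset_ball (by linarith) hzb) hz
  filter_upwards [Metric.closedBall_mem_nhds p (by linarith : 0 < ε / 2)] with y hy
  have h1 : ∀ z ∈ Metric.closedBall p (ε / 2), Nul {z}ᶜ c → ∀ z' ∈ Metric.closedBall p (ε / 2),
      Nul {z'}ᶜ c := by
    intro z hz hn z' hz'
    have := nStar hdd hS hP m q _ z (isCompact_closedBall p (ε / 2)) hz
      ((convex_closedBall p _).starConvex hz) c hK hn
    obtain ⟨b, e, he, h⟩ := this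
    exact ⟨b, e, in_mono (compl_subset_compl.2 (singleton_subset_iff.2 hz')) he, h⟩
  refine ⟨in_mono (compl_subset_compl.2 (singleton_subset_iff.2 hy)) hK, ?_, ?_⟩
  · intro h; exact h1 y hy h p (Metric.mem_closedBall_self (by linarith))
  · intro h; exact h1 p (Metric.mem_closedBall_self (by linarith)) h y hy

end Crest.Agent.R224.T
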