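/-
R224 / topological half, nodes C3 (NUniqM), C4 (NFund) (helper886).
-/
import Crest.Agent.R224.T.Uniq

set_option autoImplicit false

noncomputable section

open Topology Set Filter

namespace Crest.Agent.R224.T

open TM

lemma nul_mono {X : Type} [TopologicalSpace X] {A B : Set X} (h : A ⊆ B) {n : ℕ} {c : Ch n X}
    (hc : Nul A c) : Nul B c := by
  obtain ⟨b, e, he, rfl⟩ := hc
  exact ⟨b, e, in_mono h he, rfl⟩

lemma nul_add {X : Type} [TopologicalSpace X] {A : Set X} {n : ℕ} {c c' : Ch n X}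
    (hc : Nul A c) (hc' : Nul A c') : Nul A (c + c') := by
  obtain ⟨b, e, he, rfl⟩ := hc
  obtain ⟨b', e', he', rfl⟩ := hc'
  refine ⟨b + b', e + e', in_add he he', ?_⟩
  rw [map_add]; abel

lemma nul_cancel {X : Type} [TopologicalSpace X] {A : Set X} {n : ℕ} {c c' : Ch n X}
    (hc : Nul A (c + c')) (hc' : Nul A c') : Nul A c := by
  have := nul_add hc hc'
  rwa [add_assoc, ch_two, add_zero] at this

lemma nul_cancel' {X : Type} [TopologicalSpace X] {A : Set X} {n : ℕ} {c c' : Ch n X}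
    (hc : Nul A (c + c')) (hc' : Nul A c) : Nul A c' := by
  rw [add_comm] at hc
  exact nul_cancel hc hc'

theorem nUniqM (hE : NExc) (hU : NUniq) : NUniqM := by
  intro d Y _ _ _ y K hK hKs c hc hn
  set φ := chartAt (EE (d + 1)) y with hφ
  let f1 : C(φ.source, Y) := ⟨Subtype.val, continuous_subtype_val⟩
  have h1 : IsOpenEmbedding f1 := φ.open_source.isOpenEmbedding_subtypeVal
  have h2' : IsOpenEmbedding (φ.source.domRestrict φ) := φ.isOpenEmbedding_restrict
  let f2 : C(φ.source, EE (d + 1)) := ⟨φ.source.domRestrict φ, h2'.continuous⟩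
  have h2 : IsOpenEmbedding f2 := h2'
  set L : Set φ.source := Subtype.val ⁻¹' K with hL
  have e1 : f1 '' L = K := by
    ext z
    constructor
    · rintro ⟨w, hw, rfl⟩; exact hw
    · intro hz; exact ⟨⟨z, hKs hz⟩, hz, rfl⟩
  have hLc : IsCompact L := by
    rw [hL]
    exact h1.isInducing.isCompact_preimage' hK (by
      intro z hz; exact ⟨⟨z, hKs hz⟩, rfl⟩)
  have hK2 : IsCompact (f2 '' L) := hLc.image f2.continuous
  have cl1 : IsClosed (f1 '' L) := by rw [e1]; exact hK.isClosed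
  obtain ⟨c', hc', hcc⟩ := (hE _ _ f1 h1 L cl1 d).1 c (by rw [e1]; exact hc)
  have hc'' : RC (f2 '' L)ᶜ (push f2 (d + 1) c') := by
    refine rc_push ?_ hc'
    rintro _ ⟨z, hz, rfl⟩ ⟨w, hw, hwz⟩
    have := h2.injective hwz
    subst this
    exact hz hw
  have h3 : Nul (f2 '' L)ᶜ (push f2 (d + 1) c') := by
    refine hU d _ hK2 _ hc'' ?_
    rintro _ ⟨z, hz, rfl⟩
    have hcz : IsClosed (f2 '' {z}) := by rw [image_singleton]; exact isClosed_singleton
    have hcz1 : IsClosed (f1 '' {z}) := by rw [image_singleton]; exact isClosed_singleton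
    have hrz : RC {z}ᶜ c' := in_mono (compl_subset_compl.2 (singleton_subset_iff.2 hz)) hc'
    have h4 : Nul {z}ᶜ c' := by
      rw [← (hE _ _ f1 h1 {z} hcz1 d).2 c' hrz, image_singleton]
      have hfz : f1 z ∈ f1 '' L := ⟨z, hz, rfl⟩
      have h5 : Nul {f1 z}ᶜ (c + push f1 (d + 1) c') :=
        nul_mono (compl_subset_compl.2 (singleton_subset_iff.2 hfz)) hcc
      exact nul_cancel' h5 (hn _ hz)
    have h6 := (hE _ _ f2 h2 {z} hcz d).2 c' hrz
    rw [image_singleton] at h6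
    exact h6.2 h4
  have h7 : Nul Lᶜ c' := ((hE _ _ f2 h2 L hK2.isClosed d).2 c' hc').1 h3
  have h8 : Nul (f1 '' L)ᶜ (push f1 (d + 1) c') := ((hE _ _ f1 h1 L cl1 d).2 c' hc').2 h7
  rw [e1] at h8 hcc
  exact nul_cancel hcc h8

theorem nFund (hdd : NDD) (hS : NSub) (hM : NMan) (hC : NClass) (hUM : NUniqM) : NFund := by
  intro d M _ _ _ _ 𝒰 h𝒰 hcov
  let S := chTh hdd hS M
  have key := exists_fund (S := S) (k := d) ?_ ?_
  · obtain ⟨μ', h1, h2⟩ := key
    let μ : Ch (d + 1) M := μ'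
    have h1' : bd d μ = 0 := in_empty (by rw [compl_univ] at h1; exact h1)
    have hev := Classical.choose_spec (hS M) 𝒰 h𝒰 (d + 1) μ (by
      rw [hcov]; exact fun σ _ => subset_univ _)
    obtain ⟨k, hk⟩ := hev.exists
    have hbs : bd d ((Classical.choose (hS M) k).s (d + 1) μ) = 0 := by
      have h := (Classical.choose (hS M) k).bd_s d μ
      rw [h1', map_zero] at h
      exact h
    refine ⟨(Classical.choose (hS M) k).s (d + 1) μ, hbs, hk, ?_⟩
    intro p hp
    refine h2 p (mem_univ p) ?_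
    have h3 : S.d d μ ∈ S.In {p}ᶜ d := by
      show In {p}ᶜ (bd d μ)
      rw [h1']; exact in_zero _ _
    refine (ChTh.null_sd_iff (S := S) k h3).1 ?_
    exact (null_iff_nul hdd hS {p} _).2 hp
  · intro x w w' hw hw' h1 h2
    refine (null_iff_nul hdd hS {x} _).2 ?_
    refine (hM d M).2.1 x w w' hw hw' ?_ ?_
    · exact fun h => h1 ((null_iff_nul hdd hS {x} _).2 h)
    · exact fun h => h2 ((null_iff_nul hdd hS {x} _).2 h)
  · intro x
    obtain ⟨K, hKn, hKc, ⟨y, hy⟩, c, hc, hcn⟩ := hC d M x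
    refine ⟨K, hKc, hKn, ⟨c, hc, ?_⟩, ?_⟩
    · intro q hq hn
      exact hcn q hq ((null_iff_nul hdd hS {q} c).1 hn)
    · intro L hL hLK w hw hn
      refine (null_iff_nul hdd hS L w).2 ?_
      refine hUM d M y L hL (hLK.trans hy) w hw ?_
      intro p hp
      exact (null_iff_nul hdd hS {p} w).1 (hn p hp)

end Crest.Agent.R224.T
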