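/-
R224 / S0346, topological half: reduction of the topological half to subdivision, local homology of
manifolds and the cap product step (helper36).
-/
import Crest.Agent.R224.T.Top
import Crest.Agent.R224.T.LocAll
import Crest.Agent.R224.T.UniqM
import Crest.Agent.R224.T.Class
import Crest.Agent.R224.T.Prism
import Crest.Agent.R224.T.Exc
import Crest.Agent.R224.T.Fill
import Crest.Agent.R224.T.Man

set_option autoImplicit false

noncomputable section

namespace Crest.Agent.R224.T

theorem nDD : NDD := fun _ _ n c => bd_bd n c

theorem nFund_of (hS : NSub) (hM : NMan) : NFund := by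
  have hP := nPrism
  have hF := nFill hP
  have hL := nLocAll hP hS hF
  have hSt := nStar nDD hS hP
  have hE := exc_holds hS
  exact nFund nDD hS hM (nClass hE hL hSt) (nUniqM hE (nUniq nDD hS hP hL))

/-- the topological half from subdivision (`NSub`), `NMan` and `NT2L` -/
theorem nTop_of3 (hS : NSub) (hM : NMan) (hT : NT2L) : NTop :=
  nTop_of (nFill nPrism) hM (nLift (nFund_of hS hM) (exc_holds hS)) hT

theorem nMan_of (hS : NSub) : NMan :=
  man_holds (exc_holds hS) (nStar nDD hS nPrism) (nLocAll nPrism hS (nFill nPrism))

/-- the topological half from subdivision (`NSub`) and `NT2L` -/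
theorem nTop_of2 (hS : NSub) (hT : NT2L) : NTop := nTop_of3 hS (nMan_of hS) hT

end Crest.Agent.R224.T
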