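/-
R224 / S0346, topological half: final theorem (helper36).
-/
import Crest.Agent.R224.T.TopA
import Crest.Agent.R224.T.Sub
import Crest.Agent.R224.T.T2

set_option autoImplicit false

noncomputable section

namespace Crest.Agent.R224.T

theorem nT2L : NT2L := N2.nT2' nGlue

/-- the topological half -/
theorem nTopFinal : NTop := nTop_of2 (nSub (nFill nPrism)) nT2L

end Crest.Agent.R224.T


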