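/-
R224 / S0346 : topological half, Alexander-Spanier zigzag (helper602).
Definitions and nodes (as Props). Cochains are functions on lists of points, mod 2.
-/
import Mathlib

set_option autoImplicit false

noncomputable section

open Set Metric Topology

namespace Crest.Agent.R224.AS

/-! ## List cochains -/

/-- coboundary (augmented: `dl φ [v] = φ []`) -/
def dl {X : Type} (φ : List X → ZMod 2) : List X → ZMod 2
  | [] => 0
  | v :: l => φ l + dl (fun l' => φ (v :: l')) l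

section metric

variable {X : Type} [PseudoMetricSpace X]

/-- small lists -/
def Sm (ε : ℝ) (l : List X) : Prop := ∀ x ∈ l, ∀ y ∈ l, dist x y < ε

/-- `b` is a closed `j`-cochain at scale `ε`, vanishing off `A` -/
structure ClAt (j : ℕ) (ε : ℝ) (A : Set X) (b : List X → ZMod 2) : Prop where
  van : ∀ l : List X, l.length = j + 1 → Sm ε l → (∃ x ∈ l, x ∉ A) → b l = 0
  cl : ∀ l : List X, l.length = j + 2 → Sm ε l → dl b l = 0

/-- the `j`-cochain `b` is the coboundary (at some scale) of a cochain vanishing off `A` -/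
def ExAt (j : ℕ) (A : Set X) (b : List X → ZMod 2) : Prop :=
  ∃ ε > 0, ∃ a : List X → ZMod 2,
    (∀ l : List X, l.length = j → (∃ x ∈ l, x ∉ A) → a l = 0) ∧ a [] = 0 ∧
    ∀ l : List X, l.length = j + 1 → Sm ε l → dl a l = b l

end metric

/-- `ℝⁿ` with the sup metric -/
abbrev V (n : ℕ) : Type := Fin n → ℝ

/-! ## N1 : local computation in `ℝⁿ` -/

def NLocNe : Prop := ∀ (n j : ℕ), j ≠ n → ∀ (r ε : ℝ), 0 < ε → ∀ b : List (V n) → ZMod 2,
  ClAt j ε (closedBall (0 : V n) r) b → ∃ R : ℝ, ExAt j (closedBall (0 : V n) R) b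

def NLocEq : Prop := ∀ (n : ℕ) (r ε : ℝ), 0 < ε → ∀ b₁ b₂ : List (V n) → ZMod 2,
  ClAt n ε (closedBall (0 : V n) r) b₁ → ClAt n ε (closedBall (0 : V n) r) b₂ →
  (∃ R : ℝ, ExAt n (closedBall (0 : V n) R) b₁) ∨ (∃ R : ℝ, ExAt n (closedBall (0 : V n) R) b₂) ∨
    ∃ R : ℝ, ExAt n (closedBall (0 : V n) R) (fun l => b₁ l + b₂ l)

/-! ## N2 : transfer to a metric space through an open embedding -/

/-- the class of the closed 4-cochain `b` in the chart `e` is zero -/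
def Ex4 {E : Type} (e : V 4 → E) (b : List E → ZMod 2) : Prop :=
  ∃ (R : ℝ) (a : List (V 4) → ZMod 2),
    (∀ l : List (V 4), l.length = 4 → (∃ x ∈ l, x ∉ closedBall (0 : V 4) R) → a l = 0) ∧
    a [] = 0 ∧
    ∀ x : V 4, ∃ U ∈ 𝓝 x, ∀ l : List (V 4), l.length = 5 → (∀ y ∈ l, y ∈ U) →
      dl a l = b (l.map e)

def NLocW : Prop := ∀ (E : Type) [MetricSpace E] (e : V 4 → E), IsOpenEmbedding e →
  ∀ (j : ℕ), j ≠ 4 → ∀ r r' ε : ℝ, 0 ≤ r → r < r' → 0 < ε → ∀ b : List E → ZMod 2,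
  ClAt j ε (e '' closedBall 0 r) b → ExAt j (e '' closedBall 0 r') b

/-- exactness in the chart is the same as exactness with support in a slightly larger ball -/
def NEx4 : Prop := ∀ (E : Type) [MetricSpace E] (e : V 4 → E), IsOpenEmbedding e →
  ∀ r r' ε : ℝ, 0 ≤ r → r < r' → 0 < ε → ∀ b : List E → ZMod 2,
  ClAt 4 ε (e '' closedBall 0 r) b → (Ex4 e b ↔ ExAt 4 (e '' closedBall 0 r') b)

def NEx4Add : Prop := ∀ (E : Type) [MetricSpace E] (e : V 4 → E), IsOpenEmbedding e →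
  ∀ r ε : ℝ, 0 ≤ r → 0 < ε → ∀ b₁ b₂ : List E → ZMod 2,
  ClAt 4 ε (e '' closedBall 0 r) b₁ → ClAt 4 ε (e '' closedBall 0 r) b₂ →
  (Ex4 e (fun l => b₁ l + b₂ l) ↔ (Ex4 e b₁ ↔ Ex4 e b₂))

/-- either every class is zero, or there are non-zero classes with support in any small ball -/
def NGen4 : Prop :=
  (∀ (E : Type) [MetricSpace E] (e : V 4 → E), IsOpenEmbedding e →
    ∀ r ε : ℝ, 0 < ε → ∀ b : List E → ZMod 2, ClAt 4 ε (e '' closedBall 0 r) b → Ex4 e b) ∨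
  (∀ (E : Type) [MetricSpace E] (e : V 4 → E), IsOpenEmbedding e →
    ∀ r : ℝ, 0 < r → ∃ ε > 0, ∃ b : List E → ZMod 2,
      ClAt 4 ε (e '' closedBall 0 r) b ∧ ¬ Ex4 e b)

/-! ## N3 : filling of a Vietoris cycle (set simplices, mod 2) -/

/-- boundary of a family indexed by finite sets: sum over the inserted elements -/
def bdS {J : Type} [Fintype J] [DecidableEq J] {A : Type} [AddCommMonoid A] (C : Finset J → A)
    (σ : Finset J) : A := ∑ j ∈ σᶜ, C (insert j σ)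

def NViet : Prop := ∀ (J : Type) [Fintype J] [DecidableEq J] (m : ℕ), 1 ≤ m →
  ∀ C : Finset J → ZMod 2, (∀ σ, C σ ≠ 0 → σ.card = m + 1) → (∀ ρ, ρ.card = m → bdS C ρ = 0) →
  ∀ (f : ℕ → J → J) (N : ℕ), (∀ σ, C σ ≠ 0 → ∀ j ∈ σ, f 0 j = j) → (∀ j j', f N j = f N j') →
  ∃ D : Finset J → ZMod 2,
    (∀ τ, D τ ≠ 0 → τ.card = m + 2 ∧ ∃ σ, C σ ≠ 0 ∧ ∃ k < N, τ ⊆ σ.image (f k) ∪ σ.image (f (k + 1))) ∧
    ∀ τ, τ.card = m + 1 → bdS D τ = C τ

/-! ## N4 : the ladder -/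

section ladder

variable {X J : Type} [Fintype J] [DecidableEq J]

/-- label operator -/
def Kop (lam : X → J) (Φ : Finset J → List X → ZMod 2) : Finset J → List X → ZMod 2 :=
  fun σ l => match l with
    | [] => 0
    | x :: l' => if lam x ∈ σ then Φ (σ.erase (lam x)) (x :: l') else 0

/-- the ladder of a cochain `c`: `cp p σ` has degree `q + p` if `c` has degree `q` -/
def cp (lam : X → J) (c : List X → ZMod 2) : ℕ → Finset J → List X → ZMod 2
  | 0 => Kop lam (fun σ l => if σ = ∅ then c l else 0)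
  | p + 1 => Kop lam (fun σ => dl (cp lam c p σ))

end ladder

/-- (L1) the ladder starts at `c` -/
def NL1 : Prop := ∀ (X J : Type) [Fintype J] [DecidableEq J] (lam : X → J) (c : List X → ZMod 2)
  (l : List X), l ≠ [] → bdS (fun σ => cp lam c 0 σ l) ∅ = c l

/-- (L2) `δ c_p = ∂ c_{p+1}` on small lists -/
def NL2 : Prop := ∀ (X J : Type) [PseudoMetricSpace X] [Fintype J] [DecidableEq J] (lam : X → J)
  (c : List X → ZMod 2) (q : ℕ) (ε : ℝ), (∀ l : List X, l.length = q + 2 → Sm ε l → dl c l = 0) →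
  ∀ (p : ℕ) (σ : Finset J) (l : List X), l.length = q + p + 2 → Sm ε l →
    dl (cp lam c p σ) l = bdS (fun τ => cp lam c (p + 1) τ l) σ

/-- (L3), (L4) supports -/
def NL4 : Prop := ∀ (X J : Type) [Fintype J] [DecidableEq J] (lam : X → J)
  (c : List X → ZMod 2) (q p : ℕ) (σ : Finset J) (l : List X), l.length = q + p + 1 →
  cp lam c p σ l ≠ 0 → σ.card = p + 1 ∧ (∀ j ∈ σ, ∃ x ∈ l, lam x = j) ∧
    ∃ l' : List X, l'.Sublist l ∧ l'.length = q + 1 ∧ c l' ≠ 0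

/-! ## N5 : scales and labels on a compact subset of a 4-manifold -/

/-- charts `e i`, centred at the points `i` of the compact set `Ω`, with uniform scales -/
def NCharts : Prop := ∀ (E : Type) [MetricSpace E] [ChartedSpace (EuclideanSpace ℝ (Fin 4)) E]
  (Ω : Set E), IsCompact Ω → ∃ e : E → V 4 → E, (∀ i ∈ Ω, IsOpenEmbedding (e i)) ∧
    (∀ ρ : ℝ, 0 < ρ → ∃ r : ℝ, 0 < r ∧ ∀ i ∈ Ω, e i '' closedBall 0 r ⊆ ball i ρ) ∧
    (∀ r : ℝ, 0 < r → ∃ ρ : ℝ, 0 < ρ ∧ ∀ i ∈ Ω, ball i ρ ⊆ e i '' closedBall 0 r)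

/-- arbitrarily fine labels on `Ω`, with a number `M` of labels seen by small lists which does not
depend on the fineness -/
def NLabels : Prop := ∀ (E : Type) [Nonempty E] [MetricSpace E]
  [ChartedSpace (EuclideanSpace ℝ (Fin 4)) E]
  (Ω : Set E), IsCompact Ω → ∃ M : ℕ, ∀ ρ : ℝ, 0 < ρ → ∃ (n : ℕ) (lam : E → Fin (n + 1))
    (pos : Fin (n + 1) → E) (η : ℝ), 0 < η ∧ (∀ i, pos i ∈ Ω ∨ Ω = ∅) ∧
    (∀ x ∈ Ω, dist x (pos (lam x)) < ρ) ∧
    ∀ l : List E, (∀ x ∈ l, x ∈ Ω) → Sm η l → ((l.map lam).toFinset).card ≤ M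

/-! ## N6 : the result -/

/-- compactly supported Alexander-Spanier cohomology of a contractible 4-manifold vanishes in
degrees 1, 2, 3 -/
def NHc : Prop := ∀ (E : Type) [MetricSpace E] [ChartedSpace (EuclideanSpace ℝ (Fin 4)) E]
  [ContractibleSpace E] (q : ℕ), 1 ≤ q → q ≤ 3 → ∀ (K : Set E), IsCompact K →
  ∀ c : List E → ZMod 2,
  (∀ l : List E, l.length = q + 1 → (∃ x ∈ l, x ∉ K) → c l = 0) →
  (∀ x : E, ∃ U ∈ 𝓝 x, ∀ l : List E, l.length = q + 2 → (∀ y ∈ l, y ∈ U) → dl c l = 0) →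
  ∃ (K' : Set E) (b : List E → ZMod 2), IsCompact K' ∧
    (∀ l : List E, l.length = q → (∃ x ∈ l, x ∉ K') → b l = 0) ∧
    ∀ x : E, ∃ U ∈ 𝓝 x, ∀ l : List E, l.length = q + 1 → (∀ y ∈ l, y ∈ U) → dl b l = c l

end Crest.Agent.R224.AS
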