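/-
R224 / S0346 : basic calculus of list cochains mod 2 (helper602).
-/
import Crest.Agent.R224.T.ASDefs

set_option autoImplicit false

noncomputable section

open Set Metric Topology

namespace Crest.Agent.R224.AS

section algebra

variable {X Y : Type}

@[simp] theorem dl_nil (φ : List X → ZMod 2) : dl φ [] = 0 := rfl

@[simp] theorem dl_cons (φ : List X → ZMod 2) (v : X) (l : List X) :
    dl φ (v :: l) = φ l + dl (fun l' => φ (v :: l')) l := rfl

theorem dl_single (φ : List X → ZMod 2) (v : X) : dl φ [v] = φ [] := by simp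

theorem dl_pair (φ : List X → ZMod 2) (v w : X) : dl φ [v, w] = φ [w] + φ [v] := by simp

theorem dl_triple (φ : List X → ZMod 2) (u v w : X) :
    dl φ [u, v, w] = φ [v, w] + (φ [u, w] + φ [u, v]) := by simp

theorem dl_zero (l : List X) : dl (fun _ => 0) l = 0 := by
  induction l with
  | nil => rfl
  | cons v l ih => simp [ih]

theorem dl_add (φ ψ : List X → ZMod 2) (l : List X) :
    dl (fun l' => φ l' + ψ l') l = dl φ l + dl ψ l := by
  induction l generalizing φ ψ with
  | nil => simp
  | cons v l ih => simp only [dl_cons, ih]; ring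

theorem dl_sum {ι : Type*} (s : Finset ι) (φ : ι → List X → ZMod 2) (l : List X) :
    dl (fun l' => ∑ i ∈ s, φ i l') l = ∑ i ∈ s, dl (φ i) l := by
  classical
  induction s using Finset.induction_on with
  | empty => simp [dl_zero]
  | insert a s ha ih => simp only [Finset.sum_insert ha, dl_add, ih]

theorem dl_mul (k : ZMod 2) (φ : List X → ZMod 2) (l : List X) :
    dl (fun l' => k * φ l') l = k * dl φ l := by
  induction l generalizing φ with
  | nil => simp
  | cons v l ih => simp only [dl_cons, ih]; ring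

/-- the coboundary only looks at the faces -/
theorem dl_congr {φ ψ : List X → ZMod 2} {l : List X}
    (h : ∀ l' : List X, l'.Sublist l → l'.length + 1 = l.length → φ l' = ψ l') :
    dl φ l = dl ψ l := by
  induction l generalizing φ ψ with
  | nil => rfl
  | cons v l ih =>
    rw [dl_cons, dl_cons, h l (List.sublist_cons_self v l) (by simp)]
    congr 1
    exact ih fun l' h1 h2 => h (v :: l') (h1.cons_cons v) (by simpa using h2)

theorem dl_eq_zero {φ : List X → ZMod 2} {l : List X}
    (h : ∀ l' : List X, l'.Sublist l → l'.length + 1 = l.length → φ l' = 0) : dl φ l = 0 := by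
  rw [dl_congr h (ψ := fun _ => 0), dl_zero]

theorem exists_face_of_dl_ne {φ : List X → ZMod 2} {l : List X} (h : dl φ l ≠ 0) :
    ∃ l' : List X, l'.Sublist l ∧ l'.length + 1 = l.length ∧ φ l' ≠ 0 := by
  by_contra hc
  push Not at hc
  exact h (dl_eq_zero fun l' h1 h2 => hc l' h1 h2)

theorem two_add (a : ZMod 2) : a + a = 0 := CharTwo.add_self_eq_zero a

theorem dl_dl (φ : List X → ZMod 2) (l : List X) : dl (dl φ) l = 0 := by
  induction l generalizing φ with
  | nil => rfl
  | cons v l ih =>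
    rw [dl_cons]
    have : dl (fun l' => dl φ (v :: l')) l = dl φ l + dl (dl fun l' => φ (v :: l')) l := by
      simp only [dl_cons]
      rw [dl_add]
    rw [this, ih, add_zero, two_add]

/-- naturality -/
theorem dl_map (f : X → Y) (φ : List Y → ZMod 2) (l : List X) :
    dl (fun l' => φ (l'.map f)) l = dl φ (l.map f) := by
  induction l generalizing φ with
  | nil => rfl
  | cons v l ih =>
    simp only [dl_cons, List.map_cons]
    rw [ih (fun l' => φ (f v :: l'))]

/-- prism operator between two maps -/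
def pr (f g : X → Y) (φ : List Y → ZMod 2) : List X → ZMod 2
  | [] => 0
  | v :: l => φ (f v :: g v :: l.map g) + pr f g (fun l' => φ (f v :: l')) l

@[simp] theorem pr_nil (f g : X → Y) (φ : List Y → ZMod 2) : pr f g φ [] = 0 := rfl

@[simp] theorem pr_cons (f g : X → Y) (φ : List Y → ZMod 2) (v : X) (l : List X) :
    pr f g φ (v :: l) = φ (f v :: g v :: l.map g) + pr f g (fun l' => φ (f v :: l')) l := rfl

theorem pr_add (f g : X → Y) (φ ψ : List Y → ZMod 2) (l : List X) :
    pr f g (fun l' => φ l' + ψ l') l = pr f g φ l + pr f g ψ l := by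
  induction l generalizing φ ψ with
  | nil => simp
  | cons v l ih => simp only [pr_cons, ih]; ring

theorem pr_zero (f g : X → Y) (l : List X) : pr f g (fun _ => 0) l = 0 := by
  induction l with
  | nil => rfl
  | cons v l ih => simp [ih]

theorem pr_sum {ι : Type*} (f g : X → Y) (s : Finset ι) (φ : ι → List Y → ZMod 2) (l : List X) :
    pr f g (fun l' => ∑ i ∈ s, φ i l') l = ∑ i ∈ s, pr f g (φ i) l := by
  classical
  induction s using Finset.induction_on with
  | empty => simp [pr_zero]
  | insert a s ha ih => simp only [Finset.sum_insert ha, pr_add, ih]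

/-- the lists on which the prism operator evaluates: `f v₀ … f vᵢ, g vᵢ … g vₙ` -/
theorem pr_congr {f g : X → Y} {φ ψ : List Y → ZMod 2} {l : List X}
    (h : ∀ l₁ l₂ : List X, ∀ v : X, l = l₁ ++ v :: l₂ →
      φ (l₁.map f ++ f v :: g v :: l₂.map g) = ψ (l₁.map f ++ f v :: g v :: l₂.map g)) :
    pr f g φ l = pr f g ψ l := by
  induction l generalizing φ ψ with
  | nil => rfl
  | cons v l ih =>
    rw [pr_cons, pr_cons]
    have h0 := h [] l v rfl
    simp only [List.map_nil, List.nil_append] at h0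
    rw [h0]
    congr 1
    refine ih fun l₁ l₂ w hw => ?_
    have := h (v :: l₁) l₂ w (by rw [hw]; rfl)
    simpa using this

theorem pr_eq_zero {f g : X → Y} {φ : List Y → ZMod 2} {l : List X}
    (h : ∀ l₁ l₂ : List X, ∀ v : X, l = l₁ ++ v :: l₂ →
      φ (l₁.map f ++ f v :: g v :: l₂.map g) = 0) :
    pr f g φ l = 0 := by
  rw [pr_congr h (ψ := fun _ => 0), pr_zero]

/-- the prism identity -/
theorem dl_pr (f g : X → Y) (φ : List Y → ZMod 2) (l : List X) :
    dl (pr f g φ) l + pr f g (dl φ) l = φ (l.map f) + φ (l.map g) := by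
  induction l generalizing φ with
  | nil => simp [two_add]
  | cons v l ih =>
    have h1 : dl (fun l' => pr f g φ (v :: l')) l
        = dl (fun l' => φ (f v :: g v :: l'.map g)) l
          + dl (pr f g fun l' => φ (f v :: l')) l := by
      simp only [pr_cons]
      rw [dl_add]
    have h2 : pr f g (fun l' => dl φ (f v :: l')) l
        = pr f g φ l + pr f g (dl fun l' => φ (f v :: l')) l := by
      simp only [dl_cons]
      rw [pr_add]
    have h3 : dl (fun l' => φ (f v :: g v :: l'.map g)) l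
        = dl (fun l' => φ (f v :: g v :: l')) (l.map g) :=
      dl_map g (fun l' => φ (f v :: g v :: l')) l
    have ih' := ih (fun l' => φ (f v :: l'))
    rw [dl_cons, pr_cons, h1, h2, h3]
    simp only [dl_cons, List.map_cons]
    have e : ∀ a b c d e f g h : ZMod 2, d + e = g + h →
        a + (b + d) + (h + (f + b) + (a + e)) = g + f := by decide
    have := e (pr f g φ l) (dl (fun l' => φ (f v :: g v :: l')) (l.map g))
      0 (dl (pr f g fun l' => φ (f v :: l')) l) (pr f g (dl fun l' => φ (f v :: l')) l)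
      (φ (g v :: l.map g)) (φ (f v :: l.map f)) (φ (f v :: l.map g)) (by simpa using ih')
    calc _ = pr f g φ l + (dl (fun l' => φ (f v :: g v :: l')) (List.map g l)
            + dl (pr f g fun l' => φ (f v :: l')) l)
          + (φ (f v :: l.map g) + (φ (g v :: l.map g)
            + dl (fun l' => φ (f v :: g v :: l')) (List.map g l))
            + (pr f g φ l + pr f g (dl fun l' => φ (f v :: l')) l)) := by ring
      _ = _ := this

end algebra

section metric

variable {X : Type} [PseudoMetricSpace X]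

theorem Sm.mono {ε ε' : ℝ} {l : List X} (h : Sm ε l) (he : ε ≤ ε') : Sm ε' l :=
  fun x hx y hy => (h x hx y hy).trans_le he

theorem Sm.sublist {ε : ℝ} {l l' : List X} (h : Sm ε l) (hs : l'.Sublist l) : Sm ε l' :=
  fun x hx y hy => h x (hs.subset hx) y (hs.subset hy)

theorem Sm.subset {ε : ℝ} {l l' : List X} (h : Sm ε l) (hs : ∀ x ∈ l', x ∈ l) : Sm ε l' :=
  fun x hx y hy => h x (hs x hx) y (hs y hy)

theorem sm_single {ε : ℝ} (hε : 0 < ε) (x : X) : Sm ε [x] := by
  intro a ha b hb
  simp only [List.mem_singleton] at ha hb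
  subst ha hb
  simpa using hε

theorem ClAt.mono {j : ℕ} {ε ε' : ℝ} {A A' : Set X} {b : List X → ZMod 2} (h : ClAt j ε A b)
    (he : ε' ≤ ε) (hA : A ⊆ A') : ClAt j ε' A' b :=
  ⟨fun l h1 h2 ⟨x, hx, hxA⟩ => h.van l h1 (h2.mono he) ⟨x, hx, fun hx' => hxA (hA hx')⟩,
    fun l h1 h2 => h.cl l h1 (h2.mono he)⟩

theorem ClAt.add {j : ℕ} {ε : ℝ} {A : Set X} {b b' : List X → ZMod 2} (h : ClAt j ε A b)
    (h' : ClAt j ε A b') : ClAt j ε A (fun l => b l + b' l) :=
  ⟨fun l h1 h2 h3 => by rw [h.van l h1 h2 h3, h'.van l h1 h2 h3, add_zero],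
    fun l h1 h2 => by rw [dl_add, h.cl l h1 h2, h'.cl l h1 h2, add_zero]⟩

theorem ClAt.zero (j : ℕ) (ε : ℝ) (A : Set X) : ClAt j ε A (fun _ => 0) :=
  ⟨fun _ _ _ _ => rfl, fun l _ _ => dl_zero l⟩

theorem ClAt.congr {j : ℕ} {ε : ℝ} {A : Set X} {b b' : List X → ZMod 2} (h : ClAt j ε A b)
    (hb : ∀ l : List X, l.length = j + 1 → Sm ε l → b l = b' l) : ClAt j ε A b' :=
  ⟨fun l h1 h2 h3 => by rw [← hb l h1 h2]; exact h.van l h1 h2 h3,
    fun l h1 h2 => by
      rw [← h.cl l h1 h2]
      exact dl_congr fun l' hs hl => (hb l' (by omega) (h2.sublist hs)).symm⟩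

theorem ExAt.mono {j : ℕ} {A A' : Set X} {b : List X → ZMod 2} (h : ExAt j A b)
    (hA : A ⊆ A') : ExAt j A' b := by
  obtain ⟨ε, hε, a, h1, h2, h3⟩ := h
  exact ⟨ε, hε, a, fun l hl ⟨x, hx, hxA⟩ => h1 l hl ⟨x, hx, fun hx' => hxA (hA hx')⟩, h2, h3⟩

theorem ExAt.add {j : ℕ} {A : Set X} {b b' : List X → ZMod 2} (h : ExAt j A b)
    (h' : ExAt j A b') : ExAt j A (fun l => b l + b' l) := by
  obtain ⟨ε, hε, a, h1, h2, h3⟩ := h
  obtain ⟨ε', hε', a', h1', h2', h3'⟩ := h'
  refine ⟨min ε ε', lt_min hε hε', fun l => a l + a' l, fun l hl hx => ?_, ?_, fun l hl hs => ?_⟩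
  · show a l + a' l = 0
    rw [h1 l hl hx, h1' l hl hx, add_zero]
  · show a [] + a' [] = 0
    rw [h2, h2', add_zero]
  · rw [dl_add, h3 l hl (hs.mono (min_le_left _ _)), h3' l hl (hs.mono (min_le_right _ _))]

theorem ExAt.zero (j : ℕ) (A : Set X) : ExAt j A (fun _ => 0) :=
  ⟨1, one_pos, fun _ => 0, fun _ _ _ => rfl, rfl, fun l _ _ => dl_zero l⟩

theorem ExAt.congr {j : ℕ} {A : Set X} {b b' : List X → ZMod 2} (h : ExAt j A b) {ε : ℝ}
    (hε : 0 < ε) (hb : ∀ l : List X, l.length = j + 1 → Sm ε l → b l = b' l) : ExAt j A b' := by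
  obtain ⟨ε₁, hε₁, a, h1, h2, h3⟩ := h
  exact ⟨min ε ε₁, lt_min hε hε₁, a, h1, h2, fun l hl hs => by
    rw [h3 l hl (hs.mono (min_le_right _ _)), hb l hl (hs.mono (min_le_left _ _))]⟩

end metric

end Crest.Agent.R224.AS
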