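/-
R224 / S0346, topological half, plan B (Alexander-Spanier zigzag), node N5 (helper846):
scales, chart balls, labels with bounded multiplicity on compact subsets of a metric manifold.
-/
import Mathlib

set_option autoImplicit false

open Set Metric Topology Filter

namespace Crest.Agent.R224.ASG

/-- Small open embedded copies of `ℝⁿ` around a point of a metric manifold. -/
theorem chart_at {n : ℕ} {E : Type*} [MetricSpace E] [ChartedSpace (EuclideanSpace ℝ (Fin n)) E]
    (y : E) {s : ℝ} (hs : 0 < s) :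
    ∃ e : (Fin n → ℝ) → E, IsOpenEmbedding e ∧ e 0 = y ∧ range e ⊆ ball y s := by
  set h : EuclideanSpace ℝ (Fin n) ≃ₜ (Fin n → ℝ) :=
    (EuclideanSpace.equiv (Fin n) ℝ).toHomeomorph with hh
  set ψ : OpenPartialHomeomorph E (Fin n → ℝ) :=
    (chartAt (EuclideanSpace ℝ (Fin n)) y).trans h.toOpenPartialHomeomorph with hψ
  have hys : y ∈ ψ.source := by
    rw [hψ]
    simp
  have hyt : ψ y ∈ ψ.target := ψ.map_source hys
  have hopen : IsOpen (ψ.target ∩ ψ.symm ⁻¹' ball y s) :=
    ψ.isOpen_inter_preimage_symm isOpen_ball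
  have hmem : ψ y ∈ ψ.target ∩ ψ.symm ⁻¹' ball y s := by
    refine ⟨hyt, ?_⟩
    rw [mem_preimage, ψ.left_inv hys]
    exact mem_ball_self hs
  obtain ⟨ρ, hρ, hball⟩ := Metric.isOpen_iff.1 hopen _ hmem
  set u : OpenPartialHomeomorph (Fin n → ℝ) (Fin n → ℝ) :=
    OpenPartialHomeomorph.univBall (ψ y) ρ with hu
  have hut : u.target = ball (ψ y) ρ := OpenPartialHomeomorph.univBall_target _ hρ
  have hus : u.source = univ := OpenPartialHomeomorph.univBall_source _ _
  have humem : ∀ x, u x ∈ ball (ψ y) ρ := by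
    intro x
    rw [← hut]
    exact u.map_source (by rw [hus]; trivial)
  have hsrc : (u.trans ψ.symm).source = univ := by
    rw [OpenPartialHomeomorph.trans_source, hus, univ_inter, eq_univ_iff_forall]
    intro x
    exact (hball (humem x)).1
  refine ⟨u.trans ψ.symm, OpenPartialHomeomorph.isOpenEmbedding _ hsrc, ?_, ?_⟩
  · rw [OpenPartialHomeomorph.coe_trans, Function.comp_apply, hu,
      OpenPartialHomeomorph.univBall_apply_zero, ψ.left_inv hys]
  · rintro _ ⟨x, rfl⟩
    rw [OpenPartialHomeomorph.coe_trans, Function.comp_apply]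
    exact (hball (humem x)).2

/-- CHART BALLS at a uniform scale over a compact set. -/
theorem chart_balls {n : ℕ} {E : Type*} [MetricSpace E]
    [ChartedSpace (EuclideanSpace ℝ (Fin n)) E] {K : Set E} (hK : IsCompact K)
    {s : ℝ} (hs : 0 < s) :
    ∃ s' : ℝ, 0 < s' ∧ s' ≤ s ∧ ∀ x ∈ K, ∃ e : (Fin n → ℝ) → E, IsOpenEmbedding e ∧
      ball x s' ⊆ e '' ball 0 1 ∧ range e ⊆ ball x s := by
  have h1 : ∀ y : E, ∃ e : (Fin n → ℝ) → E, ∃ ρ : ℝ, 0 < ρ ∧ ρ ≤ s / 2 ∧ IsOpenEmbedding e ∧
      ball y (2 * ρ) ⊆ e '' ball 0 1 ∧ range e ⊆ ball y (s / 2) := by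
    intro y
    obtain ⟨e, he, he0, her⟩ := chart_at (n := n) y (half_pos hs)
    have hop : IsOpen (e '' ball 0 1) := he.isOpenMap _ isOpen_ball
    have hmem : y ∈ e '' ball 0 1 := ⟨0, mem_ball_self one_pos, he0⟩
    obtain ⟨ρ, hρ, hρ'⟩ := Metric.isOpen_iff.1 hop y hmem
    refine ⟨e, min (ρ / 2) (s / 2), lt_min (half_pos hρ) (half_pos hs), min_le_right _ _, he,
      ?_, her⟩
    refine (ball_subset_ball ?_).trans hρ'
    have := min_le_left (ρ / 2) (s / 2)
    linarith
  choose e ρ hρ hρs he hin hout using h1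
  obtain ⟨t, -, ht⟩ := hK.elim_nhds_subcover (fun y => ball y (ρ y))
    (fun y _ => ball_mem_nhds y (hρ y))
  rcases t.eq_empty_or_nonempty with rfl | hne
  · refine ⟨s, hs, le_rfl, fun x hx => ?_⟩
    have := ht hx
    simp at this
  · refine ⟨min s (t.inf' hne ρ), lt_min hs ?_, min_le_left _ _, ?_⟩
    · rw [Finset.lt_inf'_iff]
      exact fun y _ => hρ y
    · intro x hx
      obtain ⟨y, hy, hxy⟩ := mem_iUnion₂.1 (ht hx)
      rw [mem_ball] at hxy
      have h2 : min s (t.inf' hne ρ) ≤ ρ y := (min_le_right _ _).trans (Finset.inf'_le ρ hy)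
      refine ⟨e y, he y, ?_, ?_⟩
      · refine Subset.trans ?_ (hin y)
        intro z hz
        rw [mem_ball] at hz ⊢
        calc dist z y ≤ dist z x + dist x y := dist_triangle _ _ _
          _ < 2 * ρ y := by linarith
      · refine (hout y).trans ?_
        intro z hz
        rw [mem_ball] at hz ⊢
        calc dist z x ≤ dist z y + dist y x := dist_triangle _ _ _
          _ < s := by
            rw [dist_comm y x]
            have := hρs y
            linarith

/-- LABELS WITH BOUNDED MULTIPLICITY: the bound `D` does not depend on the scale `r`. -/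
theorem labels {n : ℕ} {E : Type*} [MetricSpace E]
    [ChartedSpace (EuclideanSpace ℝ (Fin n)) E] {K : Set E} (hK : IsCompact K) :
    ∃ D : ℕ, ∀ r : ℝ, 0 < r → ∃ lam : E → E, (range lam).Finite ∧
      (∀ x ∈ K, dist x (lam x) < r) ∧
      ∃ δ : ℝ, 0 < δ ∧ ∀ x ∈ K, (lam '' ball x δ).Finite ∧ (lam '' ball x δ).ncard ≤ D := by
  classical
  rcases isEmpty_or_nonempty E with hE | hE
  · exact ⟨0, fun r _ => ⟨id, Set.toFinite _, fun x => (hE.false x).elim, 1, one_pos,
      fun x => (hE.false x).elim⟩⟩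
  have h1 : ∀ y : E, ∃ e : (Fin n → ℝ) → E, IsOpenEmbedding e ∧ e 0 = y := by
    intro y
    obtain ⟨e, he, he0, -⟩ := chart_at (n := n) y one_pos
    exact ⟨e, he, he0⟩
  choose e he he0 using h1
  -- the compact sets `Q a` and the coordinates
  set Q : E → Set E := fun a => e a '' closedBall 0 1 with hQ
  have hQc : ∀ a, IsCompact (Q a) := fun a => (isCompact_closedBall _ _).image (he a).continuous
  have hinj : ∀ a, Function.Injective (e a) := fun a => (he a).injective
  set f : E → E → (Fin n → ℝ) := fun a => Function.invFun (e a) with hf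
  have hfe : ∀ a v, f a (e a v) = v := fun a v => Function.leftInverse_invFun (hinj a) v
  have hef : ∀ a, ∀ x ∈ Q a, e a (f a x) = x ∧ f a x ∈ closedBall (0 : Fin n → ℝ) 1 := by
    rintro a _ ⟨v, hv, rfl⟩
    rw [hfe]
    exact ⟨rfl, hv⟩
  have hfc : ∀ a, ∀ x ∈ Q a, ContinuousAt (f a) x := by
    rintro a _ ⟨v, hv, rfl⟩
    have h2 : Tendsto (f a) (map (e a) (𝓝 v)) (𝓝 v) := by
      rw [tendsto_map'_iff]
      have : f a ∘ e a = id := by
        funext w
        exact hfe a w
      rw [this]
      exact tendsto_id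
    rw [(he a).map_nhds_eq] at h2
    rw [ContinuousAt, hfe]
    exact h2
  obtain ⟨t, -, ht⟩ := hK.elim_nhds_subcover (fun y => Q y) (fun y _ => by
    have h3 : IsOpen (e y '' ball 0 1) := (he y).isOpenMap _ isOpen_ball
    refine mem_of_superset (h3.mem_nhds ⟨0, mem_ball_self one_pos, he0 y⟩) ?_
    exact image_mono ball_subset_closedBall)
  refine ⟨1 + t.card * 3 ^ n, fun r hr => ?_⟩
  -- choose `N`
  have h4 : ∀ a : E, ∃ d : ℝ, 0 < d ∧ ∀ v ∈ closedBall (0 : Fin n → ℝ) 1,
      ∀ w ∈ closedBall (0 : Fin n → ℝ) 1, dist v w < d → dist (e a v) (e a w) < r := by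
    intro a
    have := (isCompact_closedBall (0 : Fin n → ℝ) 1).uniformContinuousOn_of_continuous
      (he a).continuous.continuousOn
    rw [Metric.uniformContinuousOn_iff] at this
    obtain ⟨d, hd, h⟩ := this r hr
    exact ⟨d, hd, h⟩
  choose d hd hde using h4
  obtain ⟨N, hN0, hN⟩ : ∃ N : ℕ, 0 < N ∧ ∀ a ∈ t, 1 / (N : ℝ) < d a := by
    rcases t.eq_empty_or_nonempty with rfl | hne
    · exact ⟨1, one_pos, fun a ha => by simp at ha⟩
    · have hm : 0 < t.inf' hne d := by
        rw [Finset.lt_inf'_iff]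
        exact fun y _ => hd y
      obtain ⟨N, hN⟩ := exists_nat_one_div_lt hm
      refine ⟨N + 1, Nat.succ_pos _, fun a ha => ?_⟩
      push_cast
      exact hN.trans_le (Finset.inf'_le d ha)
  have hNr : (0 : ℝ) < N := by exact_mod_cast hN0
  -- the selection of a chart and the cells
  set P : E → Prop := fun x => ∃ a ∈ t, x ∈ Q a with hP
  set sel : E → E := fun x => if h : P x then Classical.choose h else x with hsel
  have hselm : ∀ x, P x → sel x ∈ t ∧ x ∈ Q (sel x) := by
    intro x hx
    have : sel x = Classical.choose hx := by rw [hsel]; exact dif_pos hx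
    rw [this]
    exact Classical.choose_spec hx
  set cell : E → Option (E × (Fin n → ℤ)) := fun x =>
    if P x then some (sel x, fun i => ⌊(N : ℝ) * f (sel x) x i⌋) else none with hcell
  have hcellP : ∀ x, P x → cell x = some (sel x, fun i => ⌊(N : ℝ) * f (sel x) x i⌋) := by
    intro x hx
    rw [hcell]
    exact if_pos hx
  have hcelln : ∀ x, ¬ P x → cell x = none := by
    intro x hx
    rw [hcell]
    exact if_neg hx
  set lam : E → E := fun x => Function.invFun cell (cell x) with hlam
  have hlamcell : ∀ x, cell (lam x) = cell x := fun x => Function.invFun_eq ⟨x, rfl⟩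
  refine ⟨lam, ?_, ?_, ?_⟩
  · -- finite range
    have hfin : (range cell).Finite := by
      have : range cell ⊆ insert none (some '' ((t : Set E) ×ˢ
          Icc (fun _ : Fin n => -(N : ℤ)) (fun _ => (N : ℤ)))) := by
        rintro _ ⟨x, rfl⟩
        by_cases hx : P x
        · rw [hcellP x hx]
          right
          refine ⟨_, ⟨(hselm x hx).1, ?_⟩, rfl⟩
          have h5 := (hef _ x (hselm x hx).2).2
          rw [mem_closedBall, dist_zero_right] at h5
          have h6 : ∀ i, |f (sel x) x i| ≤ 1 := fun i => by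
            have := norm_le_pi_norm (f (sel x) x) i
            rw [Real.norm_eq_abs] at this
            exact this.trans h5
          refine ⟨fun i => ?_, fun i => ?_⟩
          · show -(N : ℤ) ≤ ⌊(N : ℝ) * f (sel x) x i⌋
            rw [Int.le_floor]
            push_cast
            have := (abs_le.1 (h6 i)).1
            nlinarith
          · show ⌊(N : ℝ) * f (sel x) x i⌋ ≤ (N : ℤ)
            have h7 := (abs_le.1 (h6 i)).2
            have h8 := Int.floor_le ((N : ℝ) * f (sel x) x i)
            have h9 : (⌊(N : ℝ) * f (sel x) x i⌋ : ℝ) ≤ (N : ℤ) := by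
              push_cast
              nlinarith
            exact_mod_cast h9
        · rw [hcelln x hx]
          left; rfl
      exact Finite.subset (((t.finite_toSet.prod (finite_Icc _ _)).image _).insert _) this
    refine (hfin.image (Function.invFun cell)).subset ?_
    rintro _ ⟨x, rfl⟩
    exact ⟨_, ⟨x, rfl⟩, rfl⟩
  · -- closeness
    intro x hx
    have hPx : P x := by
      obtain ⟨a, ha, hxa⟩ := mem_iUnion₂.1 (ht hx)
      exact ⟨a, ha, hxa⟩
    have h5 := hlamcell x
    rw [hcellP x hPx] at h5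
    have hPl : P (lam x) := by
      by_contra h
      rw [hcelln _ h] at h5
      exact absurd h5 (by simp)
    rw [hcellP _ hPl] at h5
    simp only [Option.some.injEq, Prod.mk.injEq] at h5
    obtain ⟨h6, h7⟩ := h5
    obtain ⟨hs1, hs2⟩ := hselm x hPx
    obtain ⟨hl1, hl2⟩ := hselm _ hPl
    rw [h6] at hl2 h7
    obtain ⟨e1, b1⟩ := hef _ x hs2
    obtain ⟨e2, b2⟩ := hef _ _ hl2
    have h8 := hde (sel x) _ b1 _ b2 ?_
    · rw [e1, e2] at h8
      exact h8
    · refine lt_of_le_of_lt ?_ (hN _ hs1)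
      rw [dist_pi_le_iff (by positivity)]
      intro i
      have h9 : ⌊(N : ℝ) * f (sel x) (lam x) i⌋ = ⌊(N : ℝ) * f (sel x) x i⌋ := congrFun h7 i
      have h10 := Int.abs_sub_lt_one_of_floor_eq_floor h9
      rw [← mul_sub, abs_mul, abs_of_pos hNr] at h10
      rw [Real.dist_eq, abs_sub_comm, le_div_iff₀ hNr]
      linarith
  · -- multiplicity
    have h5 : ∀ x : E, ∃ U : Set E, IsOpen U ∧ x ∈ U ∧ ∀ y ∈ U, cell y ∈
        insert none ((t ×ˢ Fintype.piFinset (fun _ : Fin n => ({-1, 0, 1} : Finset ℤ))).image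
          (fun p => some (p.1, fun i => ⌊(N : ℝ) * f p.1 x i⌋ + p.2 i))) := by
      intro x
      have h6 : ∀ a ∈ t, ∀ᶠ y in 𝓝 x, y ∈ Q a → ∀ i, |(N : ℝ) * f a y i - (N : ℝ) * f a x i| < 1 := by
        intro a _
        by_cases hxa : x ∈ Q a
        · have h7 := Metric.continuousAt_iff.1 (hfc a x hxa) (1 / N) (by positivity)
          obtain ⟨ρ, hρ, h8⟩ := h7
          filter_upwards [ball_mem_nhds x hρ] with y hy _ i
          have h9 := h8 hy
          rw [dist_pi_lt_iff (by positivity)] at h9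
          have h10 := h9 i
          rw [Real.dist_eq, lt_div_iff₀ hNr] at h10
          rw [← mul_sub, abs_mul, abs_of_pos hNr, mul_comm]
          exact h10
        · filter_upwards [(hQc a).isClosed.isOpen_compl.mem_nhds hxa] with y hy hy'
          exact absurd hy' hy
      have h7 : ∀ᶠ y in 𝓝 x, ∀ a ∈ t, y ∈ Q a →
          ∀ i, |(N : ℝ) * f a y i - (N : ℝ) * f a x i| < 1 :=
        (Finset.eventually_all t).2 h6
      obtain ⟨U, hU, hUo, hxU⟩ := _root_.eventually_nhds_iff.1 h7
      refine ⟨U, hUo, hxU, fun y hy => ?_⟩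
      by_cases hPy : P y
      · obtain ⟨hs1, hs2⟩ := hselm y hPy
        rw [hcellP y hPy]
        apply Finset.mem_insert_of_mem
        rw [Finset.mem_image]
        refine ⟨(sel y, fun i => ⌊(N : ℝ) * f (sel y) y i⌋ - ⌊(N : ℝ) * f (sel y) x i⌋), ?_, ?_⟩
        · rw [Finset.mem_product, Fintype.mem_piFinset]
          refine ⟨hs1, fun i => ?_⟩
          have h8 := hU y hy _ hs1 hs2 i
          have h9 := abs_lt.1 h8
          have f1 := Int.floor_le ((N : ℝ) * f (sel y) y i)
          have f2 := Int.lt_floor_add_one ((N : ℝ) * f (sel y) y i)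
          have f3 := Int.floor_le ((N : ℝ) * f (sel y) x i)
          have f4 := Int.lt_floor_add_one ((N : ℝ) * f (sel y) x i)
          have g1 : ((⌊(N : ℝ) * f (sel y) y i⌋ : ℤ) : ℝ) - ((⌊(N : ℝ) * f (sel y) x i⌋ : ℤ) : ℝ) < 2 := by
            linarith
          have g2 : (-2 : ℝ) < ((⌊(N : ℝ) * f (sel y) y i⌋ : ℤ) : ℝ) -
              ((⌊(N : ℝ) * f (sel y) x i⌋ : ℤ) : ℝ) := by
            linarith
          have g3 : ⌊(N : ℝ) * f (sel y) y i⌋ - ⌊(N : ℝ) * f (sel y) x i⌋ < 2 := by exact_mod_cast g1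
          have g4 : -2 < ⌊(N : ℝ) * f (sel y) y i⌋ - ⌊(N : ℝ) * f (sel y) x i⌋ := by exact_mod_cast g2
          simp only [Finset.mem_insert, Finset.mem_singleton]
          omega
        · simp
      · rw [hcelln y hPy]
        exact Finset.mem_insert_self _ _
    choose U hUo hxU hU using h5
    obtain ⟨δ, hδ, hδU⟩ := lebesgue_number_lemma_of_metric hK (c := U) hUo
      (fun x _ => mem_iUnion.2 ⟨x, hxU x⟩)
    refine ⟨δ, hδ, fun x hx => ?_⟩
    obtain ⟨y, hy⟩ := hδU x hx
    set F := insert none ((t ×ˢ Fintype.piFinset (fun _ : Fin n => ({-1, 0, 1} : Finset ℤ))).image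
          (fun p => some (p.1, fun i => ⌊(N : ℝ) * f p.1 y i⌋ + p.2 i))) with hF
    have hsub : lam '' ball x δ ⊆ ((F.image (Function.invFun cell) : Finset E) : Set E) := by
      rintro _ ⟨z, hz, rfl⟩
      rw [Finset.mem_coe, Finset.mem_image]
      exact ⟨cell z, hU y z (hy hz), rfl⟩
    refine ⟨(Finset.finite_toSet _).subset hsub, ?_⟩
    calc (lam '' ball x δ).ncard ≤ ((F.image (Function.invFun cell) : Finset E) : Set E).ncard :=
          ncard_le_ncard hsub (Finset.finite_toSet _)
      _ = (F.image (Function.invFun cell)).card := ncard_coe_finset _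
      _ ≤ F.card := Finset.card_image_le
      _ ≤ _ := Finset.card_insert_le _ _
      _ ≤ t.card * 3 ^ n + 1 := by
          apply Nat.add_le_add_right
          refine Finset.card_image_le.trans ?_
          rw [Finset.card_product, Fintype.card_piFinset]
          apply Nat.mul_le_mul_left
          simp
      _ = 1 + t.card * 3 ^ n := by ring

end Crest.Agent.R224.ASG
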