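/-
R224 / S0346, topological half, plan B, node N5 (helper846): centred charts with uniform scales.
-/
import Crest.Agent.R224.T.ASDefs
import Crest.Agent.R224.T.ASGeo

set_option autoImplicit false

open Set Metric Topology Filter

namespace Crest.Agent.R224.AS

/-- uniform openness of an open embedding over a compact ball -/
theorem unif_open {n : ℕ} {E : Type} [MetricSpace E] {e : (Fin n → ℝ) → E} (he : IsOpenEmbedding e)
    {r : ℝ} (hr : 0 < r) :
    ∃ ρ : ℝ, 0 < ρ ∧ ∀ v ∈ closedBall (0 : Fin n → ℝ) 1, ball (e v) ρ ⊆ e '' closedBall v r := by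
  have h1 : ∀ v : Fin n → ℝ, ∃ ρ : ℝ, 0 < ρ ∧ ball (e v) (2 * ρ) ⊆ e '' ball v (r / 2) := by
    intro v
    have h2 : IsOpen (e '' ball v (r / 2)) := he.isOpenMap _ isOpen_ball
    obtain ⟨ρ, hρ, h⟩ := Metric.isOpen_iff.1 h2 (e v) ⟨v, mem_ball_self (half_pos hr), rfl⟩
    refine ⟨ρ / 2, half_pos hρ, ?_⟩
    rwa [mul_div_cancel₀ _ two_ne_zero]
  choose ρ hρ hsub using h1
  obtain ⟨t, -, ht⟩ := (isCompact_closedBall (0 : Fin n → ℝ) 1).elim_nhds_subcover
    (fun v => ball v (r / 2) ∩ e ⁻¹' ball (e v) (ρ v))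
    (fun v _ => inter_mem (ball_mem_nhds v (half_pos hr))
      (he.continuous.continuousAt.preimage_mem_nhds (ball_mem_nhds _ (hρ v))))
  have hne : t.Nonempty := by
    rw [Finset.nonempty_iff_ne_empty]
    rintro rfl
    have := ht (mem_closedBall_self zero_le_one)
    simp at this
  refine ⟨t.inf' hne ρ, ?_, ?_⟩
  · rw [Finset.lt_inf'_iff]
    exact fun y _ => hρ y
  · intro v hv
    obtain ⟨w, hw, hvw, hvw'⟩ := mem_iUnion₂.1 (ht hv)
    rw [mem_preimage, mem_ball] at hvw'
    rw [mem_ball] at hvw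
    have h3 : t.inf' hne ρ ≤ ρ w := Finset.inf'_le ρ hw
    have h4 : ball (e v) (t.inf' hne ρ) ⊆ ball (e w) (2 * ρ w) := by
      intro z hz
      rw [mem_ball] at hz ⊢
      calc dist z (e w) ≤ dist z (e v) + dist (e v) (e w) := dist_triangle _ _ _
        _ < 2 * ρ w := by linarith
    refine (h4.trans (hsub w)).trans (image_mono ?_)
    intro z hz
    rw [mem_ball] at hz
    rw [mem_closedBall]
    calc dist z v ≤ dist z w + dist w v := dist_triangle _ _ _
      _ ≤ r := by rw [dist_comm w v]; linarith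

theorem nCharts : NCharts := by
  intro E _ _ Ω hΩ
  classical
  have h1 : ∀ y : E, ∃ e : (Fin 4 → ℝ) → E, IsOpenEmbedding e ∧ e 0 = y := by
    intro y
    obtain ⟨e, he, he0, -⟩ := ASG.chart_at (n := 4) y one_pos
    exact ⟨e, he, he0⟩
  choose f hf hf0 using h1
  obtain ⟨t, -, ht⟩ := hΩ.elim_nhds_subcover (fun y => f y '' closedBall 0 1) (fun y _ => by
    have h3 : IsOpen (f y '' ball 0 1) := (hf y).isOpenMap _ isOpen_ball
    refine mem_of_superset (h3.mem_nhds ⟨0, mem_ball_self one_pos, hf0 y⟩) ?_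
    exact image_mono ball_subset_closedBall)
  have h2 : ∀ i : E, ∃ a : E, ∃ v : Fin 4 → ℝ, i ∈ Ω → a ∈ t ∧ v ∈ closedBall (0 : Fin 4 → ℝ) 1 ∧
      f a v = i := by
    intro i
    by_cases hi : i ∈ Ω
    · obtain ⟨a, ha, v, hv, rfl⟩ := mem_iUnion₂.1 (ht hi)
      exact ⟨a, v, fun _ => ⟨ha, hv, rfl⟩⟩
    · exact ⟨i, 0, fun h => absurd h hi⟩
  choose a v hav using h2
  refine ⟨fun i w => f (a i) (v i + w), ?_, ?_, ?_⟩
  · intro i _
    exact (hf (a i)).comp (Homeomorph.addLeft (v i)).isOpenEmbedding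
  · intro ρ hρ
    have h4 : ∀ b : E, ∃ d : ℝ, 0 < d ∧ d ≤ 1 ∧ ∀ v ∈ closedBall (0 : Fin 4 → ℝ) 1,
        ∀ w ∈ closedBall (0 : Fin 4 → ℝ) d, dist (f b (v + w)) (f b v) < ρ := by
      intro b
      have := (isCompact_closedBall (0 : Fin 4 → ℝ) 2).uniformContinuousOn_of_continuous
        (hf b).continuous.continuousOn
      rw [Metric.uniformContinuousOn_iff] at this
      obtain ⟨d, hd, h⟩ := this ρ hρ
      refine ⟨min (d / 2) 1, lt_min (half_pos hd) one_pos, min_le_right _ _, ?_⟩
      intro v hv w hw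
      rw [mem_closedBall, dist_zero_right] at hv hw
      have hw1 := hw.trans (min_le_left _ _)
      have hw2 := hw.trans (min_le_right _ _)
      refine h (v + w) ?_ v ?_ ?_
      · rw [mem_closedBall, dist_zero_right]
        exact (norm_add_le _ _).trans (by linarith)
      · rw [mem_closedBall, dist_zero_right]
        linarith
      · rw [dist_eq_norm, add_sub_cancel_left]
        linarith
    choose d hd hd1 hdd using h4
    rcases t.eq_empty_or_nonempty with rfl | hne
    · exact ⟨1, one_pos, fun i hi => by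
        have := (hav i hi).1
        simp at this⟩
    · refine ⟨t.inf' hne d, ?_, ?_⟩
      · rw [Finset.lt_inf'_iff]
        exact fun y _ => hd y
      · rintro i hi _ ⟨w, hw, rfl⟩
        obtain ⟨ha, hv, hi'⟩ := hav i hi
        rw [mem_ball]
        have h5 := hdd (a i) (v i) hv w (by
          rw [mem_closedBall] at hw ⊢
          exact hw.trans (Finset.inf'_le d ha))
        rw [hi'] at h5
        exact h5
  · intro r hr
    have h4 : ∀ b : E, ∃ ρ : ℝ, 0 < ρ ∧ ∀ v ∈ closedBall (0 : Fin 4 → ℝ) 1,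
        ball (f b v) ρ ⊆ f b '' closedBall v r := fun b => unif_open (hf b) hr
    choose d hd hdd using h4
    rcases t.eq_empty_or_nonempty with rfl | hne
    · exact ⟨1, one_pos, fun i hi => by
        have := (hav i hi).1
        simp at this⟩
    · refine ⟨t.inf' hne d, ?_, ?_⟩
      · rw [Finset.lt_inf'_iff]
        exact fun y _ => hd y
      · intro i hi z hz
        obtain ⟨ha, hv, hi'⟩ := hav i hi
        have h5 : z ∈ ball (f (a i) (v i)) (d (a i)) := by
          rw [hi']
          rw [mem_ball] at hz ⊢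
          exact hz.trans_le (Finset.inf'_le d ha)
        obtain ⟨u, hu, rfl⟩ := hdd (a i) (v i) hv h5
        refine ⟨u - v i, ?_, ?_⟩
        · rw [mem_closedBall] at hu ⊢
          rw [dist_zero_right, ← dist_eq_norm]
          exact hu
        · show f (a i) (v i + (u - v i)) = f (a i) u
          rw [add_sub_cancel]

end Crest.Agent.R224.AS
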