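/-
R224 / S0346, topological half, plan B (helper846): comparison of the classes of closed 4-cochains
in two charts.
-/
import Crest.Agent.R224.T.ASDefs
import Crest.Agent.R224.T.ASBasic

set_option autoImplicit false

open Set Metric Topology Filter

namespace Crest.Agent.R224.AS

/-- second alternative of `NGen4` -/
def Gen4b : Prop := ∀ (E : Type) [MetricSpace E] (e : V 4 → E), IsOpenEmbedding e →
    ∀ r : ℝ, 0 < r → ∃ ε > 0, ∃ b : List E → ZMod 2,
      ClAt 4 ε (e '' closedBall 0 r) b ∧ ¬ Ex4 e b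

/-- exact in the smaller chart implies exact in the bigger chart -/
theorem ex4_of_sub (hE : NEx4) {E : Type} [MetricSpace E] {e e' : V 4 → E}
    (he : IsOpenEmbedding e) (he' : IsOpenEmbedding e') {r r₁ r' ε : ℝ} (hr : 0 ≤ r) (hr₁ : r < r₁)
    (hr' : 0 ≤ r') (hsub : e '' closedBall 0 r₁ ⊆ e' '' closedBall 0 r') (hε : 0 < ε)
    {b : List E → ZMod 2} (hb : ClAt 4 ε (e '' closedBall 0 r) b) (h : Ex4 e b) : Ex4 e' b := by
  have h1 : ExAt 4 (e '' closedBall 0 r₁) b := (hE E e he r r₁ ε hr hr₁ hε b hb).1 h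
  have hsub' : e '' closedBall 0 r ⊆ e' '' closedBall 0 r' :=
    (image_mono (closedBall_subset_closedBall hr₁.le)).trans hsub
  have hb' : ClAt 4 ε (e' '' closedBall 0 r') b := hb.mono le_rfl hsub'
  have h2 : ExAt 4 (e' '' closedBall 0 (r' + 1)) b :=
    h1.mono (hsub.trans (image_mono (closedBall_subset_closedBall (by linarith))))
  exact (hE E e' he' r' (r' + 1) ε hr' (by linarith) hε b hb').2 h2

/-- COMPARISON OF CHARTS: the class of a closed 4-cochain with support in a small ball of `e` is the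
same in `e` and in `e'`. -/
theorem ex4_comp (hE : NEx4) (hA : NEx4Add) (hG : Gen4b) {E : Type} [MetricSpace E]
    {e e' : V 4 → E} (he : IsOpenEmbedding e) (he' : IsOpenEmbedding e') {r r₁ r' r₀ ε : ℝ}
    (hr : 0 ≤ r) (hr₁ : r < r₁) (hr' : 0 ≤ r') (hsub : e '' closedBall 0 r₁ ⊆ e' '' closedBall 0 r')
    (hr₀ : 0 < r₀) (hsub₀ : e' '' closedBall 0 r₀ ⊆ e '' closedBall 0 r) (hε : 0 < ε)
    {b : List E → ZMod 2} (hb : ClAt 4 ε (e '' closedBall 0 r) b) : Ex4 e b ↔ Ex4 e' b := by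
  refine ⟨ex4_of_sub hE he he' hr hr₁ hr' hsub hε hb, fun h => ?_⟩
  by_contra hn
  obtain ⟨ε₀, hε₀, b₀, hb₀, hn₀⟩ := hG E e' he' r₀ hr₀
  have hb₀' : ClAt 4 ε₀ (e '' closedBall 0 r) b₀ := hb₀.mono le_rfl hsub₀
  have hn₀' : ¬ Ex4 e b₀ := fun h0 =>
    hn₀ (ex4_of_sub hE he he' hr hr₁ hr' hsub hε₀ hb₀' h0)
  have hε1 : 0 < min ε ε₀ := lt_min hε hε₀
  have c1 : ClAt 4 (min ε ε₀) (e '' closedBall 0 r) b := hb.mono (min_le_left _ _) le_rfl
  have c2 : ClAt 4 (min ε ε₀) (e '' closedBall 0 r) b₀ := hb₀'.mono (min_le_right _ _) le_rfl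
  have hsum : Ex4 e (fun l => b l + b₀ l) :=
    (hA E e he r (min ε ε₀) hr hε1 b b₀ c1 c2).2 (iff_of_false hn hn₀')
  have hsum' : Ex4 e' (fun l => b l + b₀ l) :=
    ex4_of_sub hE he he' hr hr₁ hr' hsub hε1 (c1.add c2) hsum
  have hsubr : e '' closedBall 0 r ⊆ e' '' closedBall 0 r' :=
    (image_mono (closedBall_subset_closedBall hr₁.le)).trans hsub
  have h3 := (hA E e' he' r' (min ε ε₀) hr' hε1 b b₀ (c1.mono le_rfl hsubr)
    (c2.mono le_rfl hsubr)).1 hsum'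
  exact hn₀ (h3.1 h)

/-- additivity of the classes over a finite sum -/
theorem ex4_sum (hA : NEx4Add) {E : Type} [MetricSpace E] {e : V 4 → E}
    (he : IsOpenEmbedding e) {r ε : ℝ} (hr : 0 ≤ r) (hε : 0 < ε) {ι : Type} [DecidableEq ι]
    (s : Finset ι) (b : ι → List E → ZMod 2)
    (hb : ∀ i ∈ s, ClAt 4 ε (e '' closedBall 0 r) (b i)) (cl : ι → ZMod 2)
    (hcl : ∀ i ∈ s, (cl i = 0 ↔ Ex4 e (b i))) :
    ((∑ i ∈ s, cl i) = 0 ↔ Ex4 e (fun l => ∑ i ∈ s, b i l)) ∧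
      ClAt 4 ε (e '' closedBall 0 r) (fun l => ∑ i ∈ s, b i l) := by
  induction s using Finset.induction_on with
  | empty =>
    simp only [Finset.sum_empty, true_iff]
    exact ⟨⟨0, fun _ => 0, fun _ _ _ => rfl, rfl, fun _ => ⟨univ, univ_mem, fun l _ _ => dl_zero l⟩⟩,
      ClAt.zero _ _ _⟩
  | insert a s ha ih =>
    obtain ⟨h1, h2⟩ := ih (fun i hi => hb i (Finset.mem_insert_of_mem hi))
      (fun i hi => hcl i (Finset.mem_insert_of_mem hi))
    have h3 := hb a (Finset.mem_insert_self _ _)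
    have h4 := hcl a (Finset.mem_insert_self _ _)
    have h5 := hA E e he r ε hr hε (b a) _ h3 h2
    simp only [Finset.sum_insert ha]
    refine ⟨?_, h3.add h2⟩
    rw [h5, ← h4, ← h1]
    generalize (∑ i ∈ s, cl i) = u
    generalize cl a = v
    revert u v
    decide

end Crest.Agent.R224.AS
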