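/-
R224 / S0346 : the descent of the Alexander-Spanier ladder (helper602).
-/
import Crest.Agent.R224.T.ASBasic

set_option autoImplicit false

noncomputable section

open Set Metric Topology

namespace Crest.Agent.R224.AS

section bds

variable {J : Type} [Fintype J] [DecidableEq J]

theorem bdS_congr {Φ Ψ : Finset J → ZMod 2} {σ : Finset J}
    (h : ∀ j, j ∉ σ → Φ (insert j σ) = Ψ (insert j σ)) : bdS Φ σ = bdS Ψ σ :=
  Finset.sum_congr rfl fun j hj => h j (by simpa using hj)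

theorem bdS_add (Φ Ψ : Finset J → ZMod 2) (σ : Finset J) :
    bdS (fun τ => Φ τ + Ψ τ) σ = bdS Φ σ + bdS Ψ σ := Finset.sum_add_distrib

theorem bdS_eq_zero {Φ : Finset J → ZMod 2} {σ : Finset J}
    (h : ∀ j, j ∉ σ → Φ (insert j σ) = 0) : bdS Φ σ = 0 :=
  Finset.sum_eq_zero fun j hj => h j (by simpa using hj)

theorem bdS_bdS (Φ : Finset J → ZMod 2) (σ : Finset J) : bdS (bdS Φ) σ = 0 := by
  unfold bdS
  rw [Finset.sum_sigma' (s := σᶜ) (t := fun j => (insert j σ)ᶜ)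
    (f := fun j i => Φ (insert i (insert j σ)))]
  refine Finset.sum_involution (fun a _ => ⟨a.2, a.1⟩) ?_ ?_ ?_ ?_
  · rintro ⟨j, i⟩ _
    show Φ (insert i (insert j σ)) + Φ (insert j (insert i σ)) = 0
    rw [Finset.insert_comm, two_add]
  · rintro ⟨j, i⟩ hji _ he
    simp only [Finset.mem_sigma, Finset.mem_compl, Finset.mem_insert, not_or] at hji
    exact hji.2.1 (congrArg Sigma.fst he)
  · rintro ⟨j, i⟩ hji
    simp only [Finset.mem_sigma, Finset.mem_compl, Finset.mem_insert, not_or] at hji ⊢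
    exact ⟨hji.2.2, fun h => hji.2.1 h.symm, hji.1⟩
  · rintro ⟨j, i⟩ _
    rfl

theorem dl_bdS {X : Type} (Φ : Finset J → List X → ZMod 2) (σ : Finset J) (l : List X) :
    dl (fun l' => bdS (fun τ => Φ τ l') σ) l = bdS (fun τ => dl (Φ τ) l) σ := by
  unfold bdS
  rw [dl_sum]

end bds

theorem exists_pos_le {ι : Type*} [Finite ι] (f : ι → ℝ) (hf : ∀ i, 0 < f i) :
    ∃ ε > 0, ∀ i, ε ≤ f i := by
  rcases isEmpty_or_nonempty ι with h | h
  · exact ⟨1, one_pos, fun i => (h.false i).elim⟩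
  · obtain ⟨i, hi⟩ := Finite.exists_min f
    exact ⟨f i, hf i, hi⟩

/-- the data of the descent -/
structure Ctx {E J : Type} [MetricSpace E] [Fintype J] [DecidableEq J] (q : ℕ)
    (c : List E → ZMod 2) (lam : E → J) (ch : J → V 4 → E) (r : ℕ → ℝ) (L : ℕ) (η : ℝ)
    (near : J → J → Prop) (Q₀ : Finset J → Prop) : Prop where
  ηpos : 0 < η
  emb : ∀ j, IsOpenEmbedding (ch j)
  rpos : ∀ k, 0 < r k
  r2 : ∀ k, 2 * r k ≤ r (k + 1)
  nest : ∀ k < L, ∀ i j, near i j → ch i '' closedBall 0 (2 * r k) ⊆ ch j '' closedBall 0 (r (k + 1))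
  closed : ∀ l : List E, l.length = q + 2 → Sm η l → dl c l = 0
  supp : ∀ (p : ℕ) (σ : Finset J) (l : List E), l.length = q + p + 1 → Sm η l →
    cp lam c p σ l ≠ 0 → Q₀ σ ∧ ∀ j ∈ σ, ∀ x ∈ l, x ∈ ch j '' closedBall 0 (r 0)
  Q0near : ∀ σ, Q₀ σ → ∀ i ∈ σ, ∀ j ∈ σ, near i j
  Q0sub : ∀ σ τ, Q₀ τ → σ ⊆ τ → Q₀ σ

/-- the state of the descent at `p` -/
structure Lev {E J : Type} [MetricSpace E] [Fintype J] [DecidableEq J] (q : ℕ)
    (c : List E → ZMod 2) (lam : E → J) (ch : J → V 4 → E) (r : ℕ → ℝ)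
    (Q : Finset J → Prop) (p k : ℕ) (ε : ℝ) (b b' : Finset J → List E → ZMod 2) : Prop where
  εpos : 0 < ε
  off : ∀ σ l, b σ l ≠ 0 → σ.card = p + 1 ∧ Q σ
  sup : ∀ σ l, l.length = q + p → Sm ε l → b σ l ≠ 0 → ∀ j ∈ σ, ∀ x ∈ l,
    x ∈ ch j '' closedBall 0 (r k)
  rel : ∀ σ l, σ.card = p + 1 → l.length = q + p + 1 → Sm ε l →
    cp lam c p σ l = dl (b σ) l + bdS (fun τ => b' τ l) σ

section desc

variable {E J : Type} [MetricSpace E] [Fintype J] [DecidableEq J] {q : ℕ}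
  {c : List E → ZMod 2} {lam : E → J} {ch : J → V 4 → E} {r : ℕ → ℝ} {L : ℕ} {η : ℝ}
  {near : J → J → Prop} {Q₀ : Finset J → Prop}

theorem Ctx.rmono (hC : Ctx q c lam ch r L η near Q₀) : Monotone r :=
  monotone_nat_of_le_succ fun k => by
    have h1 := hC.rpos k
    have h2 := hC.r2 k
    linarith

theorem Ctx.rlt (hC : Ctx q c lam ch r L η near Q₀) (k : ℕ) : r k < r (k + 1) := by
  have h1 := hC.rpos k
  have h2 := hC.r2 k
  linarith

theorem Ctx.ball_mono (hC : Ctx q c lam ch r L η near Q₀) {k k' : ℕ} (h : k ≤ k') (j : J) :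
    ch j '' closedBall 0 (r k) ⊆ ch j '' closedBall 0 (r k') :=
  image_mono (closedBall_subset_closedBall (hC.rmono h))

/-- the right hand side to be solved at `p`, when `b` is the solution at `p + 1` -/
def gg (c : List E → ZMod 2) (lam : E → J) (p : ℕ) (b : Finset J → List E → ZMod 2)
    (σ : Finset J) : List E → ZMod 2 :=
  fun l => cp lam c p σ l + bdS (fun τ => b τ l) σ

theorem gg_closed (h2 : NL2) (hC : Ctx q c lam ch r L η near Q₀) {Q : Finset J → Prop}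
    {p k : ℕ} {ε : ℝ} {b b' : Finset J → List E → ZMod 2}
    (hL : Lev q c lam ch r Q (p + 1) k ε b b') {σ : Finset J} (hσ : σ.card = p + 1)
    {l : List E} (hl : l.length = q + p + 2) (hs : Sm (min ε η) l) :
    dl (gg c lam p b σ) l = 0 := by
  unfold gg
  rw [dl_add, dl_bdS]
  rw [h2 E J lam c q η hC.closed p σ l hl (hs.mono (min_le_right _ _)), ← bdS_add]
  rw [bdS_congr (Ψ := bdS fun τ => b' τ l), bdS_bdS]
  intro j hj
  rw [hL.rel (insert j σ) l (by rw [Finset.card_insert_of_notMem hj, hσ]) (by omega)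
    (hs.mono (min_le_left _ _))]
  show dl (b (insert j σ)) l + bdS (fun τ => b' τ l) (insert j σ) + dl (b (insert j σ)) l = _
  rw [add_right_comm, two_add, zero_add]

theorem gg_clAt (h2 : NL2) (hC : Ctx q c lam ch r L η near Q₀) {Q : Finset J → Prop}
    {p k : ℕ} {ε : ℝ} {b b' : Finset J → List E → ZMod 2}
    (hL : Lev q c lam ch r Q (p + 1) k ε b b') {σ : Finset J} (hσ : σ.card = p + 1)
    {j : J} (hj : j ∈ σ) :
    ClAt (q + p) (min ε η) (ch j '' closedBall 0 (r k)) (gg c lam p b σ) := by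
  refine ⟨fun l hl hs ⟨x, hx, hxA⟩ => ?_, fun l hl hs => gg_closed h2 hC hL hσ hl hs⟩
  unfold gg
  have e1 : cp lam c p σ l = 0 := by
    by_contra hne
    exact hxA (hC.ball_mono (Nat.zero_le k) j
      ((hC.supp p σ l hl (hs.mono (min_le_right _ _)) hne).2 j hj x hx))
  have e2 : bdS (fun τ => b τ l) σ = 0 := bdS_eq_zero fun i _ => by
    by_contra hne
    exact hxA (hL.sup (insert i σ) l (by omega) (hs.mono (min_le_left _ _)) hne j
      (Finset.mem_insert_of_mem hj) x hx)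
  rw [e1, e2, add_zero]

theorem gg_zero (hC : Ctx q c lam ch r L η near Q₀) {Q : Finset J → Prop}
    (hQsub : ∀ σ τ, Q τ → σ ⊆ τ → Q σ) (hQ0 : ∀ σ, Q₀ σ → Q σ)
    {p k : ℕ} {ε : ℝ} {b b' : Finset J → List E → ZMod 2}
    (hL : Lev q c lam ch r Q (p + 1) k ε b b') {σ : Finset J} (hσ : ¬ Q σ)
    {l : List E} (hl : l.length = q + p + 1) (hs : Sm (min ε η) l) :
    gg c lam p b σ l = 0 := by
  unfold gg
  have e1 : cp lam c p σ l = 0 := by
    by_contra hne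
    exact hσ (hQ0 _ (hC.supp p σ l hl (hs.mono (min_le_right _ _)) hne).1)
  have e2 : bdS (fun τ => b τ l) σ = 0 := bdS_eq_zero fun i _ => by
    by_contra hne
    exact hσ (hQsub _ _ (hL.off _ _ hne).2 (Finset.subset_insert i σ))
  rw [e1, e2, add_zero]

/-- one step, if all right hand sides can be solved -/
theorem solve (hC : Ctx q c lam ch r L η near Q₀) {Q : Finset J → Prop}
    (hQsub : ∀ σ τ, Q τ → σ ⊆ τ → Q σ) (hQ0 : ∀ σ, Q₀ σ → Q σ)
    (hQn : ∀ σ, Q σ → ∀ i ∈ σ, ∀ j ∈ σ, near i j)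
    {p k : ℕ} (hk : k < L) {ε : ℝ} {b b' : Finset J → List E → ZMod 2}
    (hL : Lev q c lam ch r Q (p + 1) k ε b b')
    (hsol : ∀ σ, σ.card = p + 1 → Q σ → ∀ j ∈ σ,
      ExAt (q + p) (ch j '' closedBall 0 (2 * r k)) (gg c lam p b σ)) :
    ∃ (ε₁ : ℝ) (a : Finset J → List E → ZMod 2), Lev q c lam ch r Q p (k + 1) ε₁ a b := by
  classical
  have key : ∀ σ : Finset J, ∃ ε₁ : ℝ, 0 < ε₁ ∧ ∃ a : List E → ZMod 2,
      (∀ l, a l ≠ 0 → σ.card = p + 1 ∧ Q σ) ∧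
      (∀ l, l.length = q + p → a l ≠ 0 → ∀ j ∈ σ, ∀ x ∈ l, x ∈ ch j '' closedBall 0 (r (k + 1))) ∧
      (σ.card = p + 1 → ∀ l, l.length = q + p + 1 → Sm ε₁ l → dl a l = gg c lam p b σ l) := by
    intro σ
    by_cases hσ : σ.card = p + 1 ∧ Q σ
    · obtain ⟨hcard, hQ⟩ := hσ
      obtain ⟨j, hj⟩ : σ.Nonempty := by
        rw [← Finset.card_pos]; omega
      obtain ⟨ε₁, hε₁, a, h1, h2, h3⟩ := hsol σ hcard hQ j hj
      refine ⟨ε₁, hε₁, a, fun _ _ => ⟨hcard, hQ⟩, fun l hl hne i hi x hx => ?_,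
        fun _ l hl hs => h3 l hl hs⟩
      refine hC.nest k hk j i (hQn σ hQ j hj i hi) ?_
      by_contra hxA
      exact hne (h1 l hl ⟨x, hx, hxA⟩)
    · refine ⟨min ε η, lt_min hL.εpos hC.ηpos, fun _ => 0, fun _ h => (h rfl).elim,
        fun _ _ h => (h rfl).elim, fun hcard l hl hs => ?_⟩
      rw [dl_zero, gg_zero hC hQsub hQ0 hL (fun hQ => hσ ⟨hcard, hQ⟩) hl hs]
  choose ε₁ hε₁ a h1 h2 h3 using key
  obtain ⟨ε₂, hε₂, hle⟩ := exists_pos_le ε₁ hε₁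
  refine ⟨ε₂, a, hε₂, fun σ l hne => h1 σ l hne, fun σ l hl _ hne => h2 σ l hl hne,
    fun σ l hcard hl hs => ?_⟩
  rw [h3 σ hcard l hl (hs.mono (hle σ))]
  unfold gg
  rw [add_assoc, two_add, add_zero]

/-- generic step -/
theorem step (hW : NLocW) (h2 : NL2) (hC : Ctx q c lam ch r L η near Q₀) {Q : Finset J → Prop}
    (hQsub : ∀ σ τ, Q τ → σ ⊆ τ → Q σ) (hQ0 : ∀ σ, Q₀ σ → Q σ)
    (hQn : ∀ σ, Q σ → ∀ i ∈ σ, ∀ j ∈ σ, near i j)
    {p k : ℕ} (hk : k < L) (hp : q + p ≠ 4) {ε : ℝ} {b b' : Finset J → List E → ZMod 2}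
    (hL : Lev q c lam ch r Q (p + 1) k ε b b') :
    ∃ (ε₁ : ℝ) (a : Finset J → List E → ZMod 2), Lev q c lam ch r Q p (k + 1) ε₁ a b := by
  refine solve hC hQsub hQ0 hQn hk hL fun σ hσ hQ j hj => ?_
  have hr := hC.rpos k
  exact hW E (ch j) (hC.emb j) (q + p) hp (r k) (2 * r k) (min ε η) hr.le (by linarith)
    (lt_min hL.εpos hC.ηpos) _ (gg_clAt h2 hC hL hσ hj)

end desc

end Crest.Agent.R224.AS
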