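/-
R224 / S0346 : the correction step (degree 4) of the descent (helper602).
-/
import Crest.Agent.R224.T.ASDesc

set_option autoImplicit false

noncomputable section

open Set Metric Topology

namespace Crest.Agent.R224.AS

open Classical in
/-- class of a closed 4-cochain in a chart -/
def clv {E : Type} (e : V 4 → E) (b : List E → ZMod 2) : ZMod 2 := if Ex4 e b then 0 else 1

theorem clv_zero_iff {E : Type} (e : V 4 → E) (b : List E → ZMod 2) : clv e b = 0 ↔ Ex4 e b := by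
  unfold clv
  split_ifs with h
  · simp [h]
  · simp [h]

theorem clv_congr_iff {E : Type} {e e' : V 4 → E} {b b' : List E → ZMod 2}
    (h : Ex4 e b ↔ Ex4 e' b') : clv e b = clv e' b' := by
  unfold clv
  by_cases hx : Ex4 e b
  · rw [if_pos hx, if_pos (h.1 hx)]
  · rw [if_neg hx, if_neg fun hx' => hx (h.2 hx')]

section corr

variable {E J : Type} [MetricSpace E] [Fintype J] [DecidableEq J] {q : ℕ}
  {c : List E → ZMod 2} {lam : E → J} {ch : J → V 4 → E} {r : ℕ → ℝ} {L : ℕ} {η : ℝ}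
  {near : J → J → Prop} {Q₀ : Finset J → Prop}

theorem ClAt.sum {j : ℕ} {ε : ℝ} {A : Set E} {ι : Type*} (s : Finset ι)
    (b : ι → List E → ZMod 2) (h : ∀ i ∈ s, ClAt j ε A (b i)) :
    ClAt j ε A (fun l => ∑ i ∈ s, b i l) := by
  classical
  induction s using Finset.induction_on with
  | empty => simpa using ClAt.zero j ε A
  | insert a s ha ih =>
    simp only [Finset.sum_insert ha]
    exact (h a (Finset.mem_insert_self _ _)).add
      (ih fun i hi => h i (Finset.mem_insert_of_mem hi))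

theorem clv_add (hA : NEx4Add) {e : V 4 → E} (he : IsOpenEmbedding e) {r ε : ℝ} (hr : 0 ≤ r)
    (hε : 0 < ε) {b₁ b₂ : List E → ZMod 2} (h₁ : ClAt 4 ε (e '' closedBall 0 r) b₁)
    (h₂ : ClAt 4 ε (e '' closedBall 0 r) b₂) :
    clv e (fun l => b₁ l + b₂ l) = clv e b₁ + clv e b₂ := by
  have h := hA E e he r ε hr hε b₁ b₂ h₁ h₂
  unfold clv
  by_cases a : Ex4 e b₁ <;> by_cases b : Ex4 e b₂ <;> simp only [a, b, h] <;> simp <;> decide

theorem ex4_of_exAt (hE : NEx4) {e : V 4 → E} (he : IsOpenEmbedding e) {r r' ε : ℝ} (hr : 0 ≤ r)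
    (hr' : r < r') (hε : 0 < ε) {b : List E → ZMod 2} (h : ClAt 4 ε (e '' closedBall 0 r) b)
    (hx : ExAt 4 (e '' closedBall 0 r') b) : Ex4 e b :=
  (hE E e he r r' ε hr hr' hε b h).2 hx

theorem clv_eq_zero_of_small (hE : NEx4) {e : V 4 → E} (he : IsOpenEmbedding e) {r ε : ℝ}
    (hr : 0 ≤ r) (hε : 0 < ε) {b : List E → ZMod 2}
    (h : ∀ l : List E, l.length = 5 → Sm ε l → b l = 0) : clv e b = 0 := by
  rw [clv_zero_iff]
  have h0 : ClAt 4 ε (e '' closedBall 0 r) b :=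
    (ClAt.zero 4 ε _).congr fun l hl hs => (h l hl hs).symm
  exact ex4_of_exAt hE he hr (by linarith : r < r + 1) hε h0
    ((ExAt.zero 4 _).congr hε fun l hl hs => (h l hl hs).symm)

theorem clv_sum (hE : NEx4) (hA : NEx4Add) {e : V 4 → E} (he : IsOpenEmbedding e) {r ε : ℝ}
    (hr : 0 ≤ r) (hε : 0 < ε) {ι : Type*} (s : Finset ι) (b : ι → List E → ZMod 2)
    (h : ∀ i ∈ s, ClAt 4 ε (e '' closedBall 0 r) (b i)) :
    clv e (fun l => ∑ i ∈ s, b i l) = ∑ i ∈ s, clv e (b i) := by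
  classical
  induction s using Finset.induction_on with
  | empty => simpa using clv_eq_zero_of_small hE he hr hε fun l _ _ => rfl
  | insert a s ha ih =>
    simp only [Finset.sum_insert ha]
    have h' : ∀ i ∈ s, ClAt 4 ε (e '' closedBall 0 r) (b i) :=
      fun i hi => h i (Finset.mem_insert_of_mem hi)
    rw [clv_add hA he hr hε (h a (Finset.mem_insert_self _ _)) (ClAt.sum s b h'), ih h']

/-- the class does not depend on the chart -/
theorem clv_indep (hE : NEx4) (hC : Ctx q c lam ch r L η near Q₀) {k : ℕ} (hk : k < L)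
    {i j : J} (hij : near i j) (hji : near j i) {ε : ℝ} (hε : 0 < ε) {b : List E → ZMod 2}
    (hi : ClAt 4 ε (ch i '' closedBall 0 (r k)) b) (hj : ClAt 4 ε (ch j '' closedBall 0 (r k)) b) :
    clv (ch i) b = clv (ch j) b := by
  have main : ∀ i j, near i j → ClAt 4 ε (ch i '' closedBall 0 (r k)) b →
      ClAt 4 ε (ch j '' closedBall 0 (r k)) b → Ex4 (ch i) b → Ex4 (ch j) b := by
    intro i j hij hi hj hx
    have hr := hC.rpos k
    have h1 := (hE E (ch i) (hC.emb i) (r k) (2 * r k) ε hr.le (by linarith) hε b hi).1 hx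
    exact (hE E (ch j) (hC.emb j) (r k) (r (k + 1)) ε hr.le (hC.rlt k) hε b hj).2
      (h1.mono (hC.nest k hk i j hij))
  exact clv_congr_iff ⟨main i j hij hi hj, main j i hji hj hi⟩

/-- correction: after adding closed 4-cochains to `b`, all right hand sides at `m` have class 0 -/
theorem correct (hE : NEx4) (hA : NEx4Add) (hG : NGen4) (hV : NViet) (h2 : NL2)
    (hC : Ctx q c lam ch r L η near Q₀)
    {m : ℕ} (hm : 1 ≤ m) (hqm : q + m = 4) {k : ℕ} (hk : k + 1 < L)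
    (f : ℕ → J → J) (N : ℕ) (hf0 : ∀ σ, Q₀ σ → ∀ j ∈ σ, f 0 j = j) (hfN : ∀ j j', f N j = f N j')
    (hfn : ∀ σ, Q₀ σ → ∀ k < N, ∀ i ∈ σ.image (f k) ∪ σ.image (f (k + 1)),
      ∀ j ∈ σ.image (f k) ∪ σ.image (f (k + 1)), near i j)
    {ε : ℝ} {b b' : Finset J → List E → ZMod 2}
    (hL : Lev q c lam ch r Q₀ (m + 1) k ε b b') :
    ∃ (ε₁ : ℝ) (b₁ : Finset J → List E → ZMod 2),
      Lev q c lam ch r (fun σ => ∀ i ∈ σ, ∀ j ∈ σ, near i j) (m + 1) (k + 1) ε₁ b₁ b' ∧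
      ∀ σ, σ.card = m + 1 → (∀ i ∈ σ, ∀ j ∈ σ, near i j) → ∀ j ∈ σ,
        Ex4 (ch j) (gg c lam m b₁ σ) := by
  classical
  set Q₁ : Finset J → Prop := fun σ => ∀ i ∈ σ, ∀ j ∈ σ, near i j with hQ₁
  have hQ01 : ∀ σ, Q₀ σ → Q₁ σ := hC.Q0near
  have hQ1sub : ∀ σ τ, Q₁ τ → σ ⊆ τ → Q₁ σ := fun σ τ h hs i hi j hj => h i (hs hi) j (hs hj)
  -- `b` as a `Q₁`-level
  have hLQ : Lev q c lam ch r Q₁ (m + 1) (k + 1) ε b b' :=
    ⟨hL.εpos, fun σ l h => ⟨(hL.off σ l h).1, hQ01 _ (hL.off σ l h).2⟩,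
      fun σ l h1 h2 h3 j hj x hx => hC.ball_mono (Nat.le_succ k) j (hL.sup σ l h1 h2 h3 j hj x hx),
      hL.rel⟩
  rcases hG with hall | hgen
  · refine ⟨ε, b, hLQ, fun σ hσ hQ j hj => ?_⟩
    have := gg_clAt h2 hC hLQ hσ hj
    rw [hqm] at this
    exact hall E (ch j) (hC.emb j) _ _ (lt_min hL.εpos hC.ηpos) _ this
  -- the class chain
  have hε' : 0 < min ε η := lt_min hL.εpos hC.ηpos
  have hrk := hC.rpos k
  have gcl : ∀ σ : Finset J, σ.card = m + 1 → ∀ j ∈ σ,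
      ClAt 4 (min ε η) (ch j '' closedBall 0 (r k)) (gg c lam m b σ) := fun σ hσ j hj => by
    have := gg_clAt h2 hC hL hσ hj
    rwa [hqm] at this
  have gz : ∀ σ : Finset J, ¬ Q₀ σ → ∀ l : List E, l.length = 5 → Sm (min ε η) l →
      gg c lam m b σ l = 0 := fun σ hσ l hl hs =>
    gg_zero hC hC.Q0sub (fun _ h => h) hL hσ (by omega) hs
  set C : Finset J → ZMod 2 := fun σ =>
    if h : σ.card = m + 1 ∧ Q₀ σ ∧ σ.Nonempty then clv (ch h.2.2.choose) (gg c lam m b σ) else 0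
    with hCdef
  have Cval : ∀ σ : Finset J, σ.card = m + 1 → ∀ j ∈ σ, C σ = clv (ch j) (gg c lam m b σ) := by
    intro σ hσ j hj
    by_cases hQ : Q₀ σ
    · have h : σ.card = m + 1 ∧ Q₀ σ ∧ σ.Nonempty := ⟨hσ, hQ, ⟨j, hj⟩⟩
      have hi := h.2.2.choose_spec
      simp only [hCdef, dif_pos h]
      exact clv_indep hE hC (by omega) (hQ01 _ hQ _ hi _ hj) (hQ01 _ hQ _ hj _ hi) hε'
        (gcl σ hσ _ hi) (gcl σ hσ _ hj)
    · have h : ¬ (σ.card = m + 1 ∧ Q₀ σ ∧ σ.Nonempty) := fun h => hQ h.2.1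
      simp only [hCdef, dif_neg h]
      exact (clv_eq_zero_of_small hE (hC.emb j) hrk.le hε' (gz σ hQ)).symm
  have Cne : ∀ σ, C σ ≠ 0 → σ.card = m + 1 ∧ Q₀ σ := by
    intro σ h
    by_contra hn
    apply h
    have : ¬ (σ.card = m + 1 ∧ Q₀ σ ∧ σ.Nonempty) := fun h => hn ⟨h.1, h.2.1⟩
    simp only [hCdef, dif_neg this]
  have Ccyc : ∀ ρ : Finset J, ρ.card = m → bdS C ρ = 0 := by
    intro ρ hρ
    obtain ⟨j₀, hj₀⟩ : ρ.Nonempty := by rw [← Finset.card_pos]; omega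
    have e1 : bdS C ρ = ∑ j ∈ ρᶜ, clv (ch j₀) (gg c lam m b (insert j ρ)) :=
      Finset.sum_congr rfl fun j hj => Cval _ (by
        rw [Finset.card_insert_of_notMem (by simpa using hj), hρ]) j₀ (Finset.mem_insert_of_mem hj₀)
    have hcl : ∀ j ∈ ρᶜ, ClAt 4 (min ε η) (ch j₀ '' closedBall 0 (r k))
        (gg c lam m b (insert j ρ)) := fun j hj => gcl _ (by
      rw [Finset.card_insert_of_notMem (by simpa using hj), hρ]) j₀ (Finset.mem_insert_of_mem hj₀)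
    rw [e1, ← clv_sum hE hA (hC.emb j₀) hrk.le hε' _ _ hcl, clv_zero_iff]
    refine ex4_of_exAt hE (hC.emb j₀) hrk.le (hC.rlt k) hε' (ClAt.sum _ _ hcl) ?_
    obtain ⟨m', rfl⟩ : ∃ m', m = m' + 1 := ⟨m - 1, by omega⟩
    refine ⟨min ε η, hε', fun l => if Sm η l then cp lam c m' ρ l else 0, ?_, ?_, ?_⟩
    · rintro l hl ⟨x, hx, hxA⟩
      show (if Sm η l then cp lam c m' ρ l else 0) = 0
      split_ifs with hs
      · by_contra hne
        exact hxA (hC.ball_mono (Nat.zero_le _) j₀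
          ((hC.supp m' ρ l (by omega) hs hne).2 j₀ hj₀ x hx))
      · rfl
    · show (if Sm η ([] : List E) then cp lam c m' ρ [] else 0) = 0
      cases m' <;> simp [cp, Kop]
    · intro l hl hs
      have e2 : dl (fun l => if Sm η l then cp lam c m' ρ l else 0) l = dl (cp lam c m' ρ) l :=
        dl_congr fun l' hl' _ => if_pos ((hs.mono (min_le_right _ _)).sublist hl')
      rw [e2, h2 E J lam c q η hC.closed m' ρ l (by omega) (hs.mono (min_le_right _ _))]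
      have e3 : ∑ j ∈ ρᶜ, gg c lam (m' + 1) b (insert j ρ) l
          = bdS (fun τ => cp lam c (m' + 1) τ l) ρ + bdS (bdS fun τ => b τ l) ρ := by
        rw [← bdS_add]
        rfl
      show _ = ∑ j ∈ ρᶜ, gg c lam (m' + 1) b (insert j ρ) l
      rw [e3, bdS_bdS, add_zero]
  obtain ⟨D, hD1, hD2⟩ := hV J m hm C (fun σ h => (Cne σ h).1) Ccyc f N
    (fun σ h => hf0 σ (Cne σ h).2) hfN
  have hDn : ∀ τ, D τ ≠ 0 → Q₁ τ := by
    intro τ h i hi j hj
    obtain ⟨σ, hσ, k', hk', hsub⟩ := (hD1 τ h).2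
    exact hfn σ (Cne σ hσ).2 k' hk' i (hsub hi) j (hsub hj)
  -- the closed 4-cochains
  have key : ∀ τ : Finset J, ∃ ε₂ : ℝ, 0 < ε₂ ∧ ∃ d : List E → ZMod 2,
      (∀ l, d l ≠ 0 → τ.card = m + 2 ∧ Q₁ τ) ∧
      (∀ j ∈ τ, ClAt 4 ε₂ (ch j '' closedBall 0 (r 1)) d ∧ clv (ch j) d = D τ) ∧
      (∀ l : List E, l.length = 6 → Sm ε₂ l → dl d l = 0) := by
    intro τ
    by_cases hτ : D τ = 0
    · refine ⟨1, one_pos, fun _ => 0, fun _ h => (h rfl).elim, fun j _ => ⟨ClAt.zero _ _ _, ?_⟩,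
        fun l _ _ => dl_zero l⟩
      rw [hτ]
      exact clv_eq_zero_of_small hE (hC.emb j) hrk.le one_pos fun _ _ _ => rfl
    · have hcard := (hD1 τ hτ).1
      have hQ := hDn τ hτ
      obtain ⟨i, hi⟩ : τ.Nonempty := by rw [← Finset.card_pos]; omega
      obtain ⟨ε₂, hε₂, u, hu1, hu2⟩ := hgen E (ch i) (hC.emb i) (r 0) (hC.rpos 0)
      have h1 : ∀ j ∈ τ, ClAt 4 ε₂ (ch j '' closedBall 0 (r 1)) u := fun j hj =>
        hu1.mono le_rfl (Subset.trans (image_mono (closedBall_subset_closedBall (by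
          have := hC.rpos 0; linarith))) (hC.nest 0 (by omega) i j (hQ i hi j hj)))
      have hD : D τ = 1 := by
        have : ∀ a : ZMod 2, a ≠ 0 → a = 1 := by decide
        exact this _ hτ
      refine ⟨ε₂, hε₂, u, fun _ _ => ⟨hcard, hQ⟩, fun j hj => ⟨h1 j hj, ?_⟩,
        fun l hl hs => hu1.cl l hl hs⟩
      rw [← clv_indep hE hC (by omega) (hQ i hi j hj) (hQ j hj i hi) hε₂ (h1 i hi) (h1 j hj), hD]
      unfold clv
      rw [if_neg hu2]
  choose ε₂ hε₂ d hd1 hd2 hd3 using key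
  obtain ⟨ε₃, hε₃, hle⟩ := exists_pos_le ε₂ hε₂
  have hLev : Lev q c lam ch r Q₁ (m + 1) (k + 1) (min ε ε₃) (fun τ l => b τ l + d τ l) b' := by
    refine ⟨lt_min hL.εpos hε₃, fun τ l hne => ?_, fun τ l hl hs hne j hj x hx => ?_,
      fun τ l hcard hl hs => ?_⟩
    · by_cases hb : b τ l = 0
      · have : d τ l ≠ 0 := by simpa [hb] using hne
        exact hd1 τ l this
      · exact hLQ.off τ l hb
    · by_cases hb : b τ l = 0
      · have hdl : d τ l ≠ 0 := by simpa [hb] using hne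
        by_contra hxA
        exact hdl ((hd2 τ j hj).1.van l (by omega)
          ((hs.mono (min_le_right _ _)).mono (hle τ))
          ⟨x, hx, fun hx' => hxA (hC.ball_mono (by omega) j hx')⟩)
      · exact hLQ.sup τ l hl (hs.mono (min_le_left _ _)) hb j hj x hx
    · rw [hL.rel τ l hcard hl (hs.mono (min_le_left _ _))]
      have : dl (fun l => b τ l + d τ l) l = dl (b τ) l + dl (d τ) l := dl_add _ _ _
      rw [this, hd3 τ l (by omega) ((hs.mono (min_le_right _ _)).mono (hle τ)), add_zero]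
  refine ⟨min ε ε₃, fun τ l => b τ l + d τ l, hLev, fun σ hσ hQ j hj => ?_⟩
  rw [← clv_zero_iff]
  have hr1 := hC.rpos (k + 1)
  have hε4 : 0 < min (min ε η) ε₃ := lt_min hε' hε₃
  have h1 : ClAt 4 (min (min ε η) ε₃) (ch j '' closedBall 0 (r (k + 1))) (gg c lam m b σ) :=
    (gcl σ hσ j hj).mono (min_le_left _ _) (hC.ball_mono (Nat.le_succ k) j)
  have h3 : ∀ i ∈ σᶜ, ClAt 4 (min (min ε η) ε₃) (ch j '' closedBall 0 (r (k + 1)))
      (d (insert i σ)) := fun i _ =>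
    ((hd2 (insert i σ) j (Finset.mem_insert_of_mem hj)).1).mono
      ((min_le_right _ _).trans (hle _)) (hC.ball_mono (by omega) j)
  have e1 : (fun l => gg c lam m b σ l + ∑ i ∈ σᶜ, d (insert i σ) l)
      = gg c lam m (fun τ l => b τ l + d τ l) σ := by
    funext l
    unfold gg
    rw [bdS_add, ← add_assoc]
    rfl
  rw [← e1, clv_add hA (hC.emb j) hr1.le hε4 h1 (ClAt.sum _ _ h3),
    clv_sum hE hA (hC.emb j) hr1.le hε4 _ _ h3, ← Cval σ hσ j hj]
  have e2 : ∑ i ∈ σᶜ, clv (ch j) (d (insert i σ)) = bdS D σ :=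
    Finset.sum_congr rfl fun i _ => (hd2 (insert i σ) j (Finset.mem_insert_of_mem hj)).2
  rw [e2, hD2 σ hσ, two_add]

/-- the step at degree 4 -/
theorem step4 (hE : NEx4) (hA : NEx4Add) (hG : NGen4) (hV : NViet) (h2 : NL2)
    (hC : Ctx q c lam ch r L η near Q₀)
    {m : ℕ} (hm : 1 ≤ m) (hqm : q + m = 4) {k : ℕ} (hk : k + 1 < L)
    (f : ℕ → J → J) (N : ℕ) (hf0 : ∀ σ, Q₀ σ → ∀ j ∈ σ, f 0 j = j) (hfN : ∀ j j', f N j = f N j')
    (hfn : ∀ σ, Q₀ σ → ∀ k < N, ∀ i ∈ σ.image (f k) ∪ σ.image (f (k + 1)),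
      ∀ j ∈ σ.image (f k) ∪ σ.image (f (k + 1)), near i j)
    {ε : ℝ} {b b' : Finset J → List E → ZMod 2}
    (hL : Lev q c lam ch r Q₀ (m + 1) k ε b b') :
    ∃ (ε₁ : ℝ) (a b₁ : Finset J → List E → ZMod 2),
      Lev q c lam ch r (fun σ => ∀ i ∈ σ, ∀ j ∈ σ, near i j) m (k + 2) ε₁ a b₁ := by
  obtain ⟨ε₁, b₁, hL1, hx⟩ := correct hE hA hG hV h2 hC hm hqm hk f N hf0 hfN hfn hL
  obtain ⟨ε₂, a, h⟩ := solve hC (Q := fun σ => ∀ i ∈ σ, ∀ j ∈ σ, near i j)
    (fun σ τ h hs i hi j hj => h i (hs hi) j (hs hj)) hC.Q0near (fun _ h => h) hk hL1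
    (fun σ hσ hQ j hj => by
      have hr := hC.rpos (k + 1)
      have h1 := gg_clAt h2 hC hL1 hσ hj
      rw [hqm] at h1 ⊢
      exact (hE E (ch j) (hC.emb j) (r (k + 1)) (2 * r (k + 1)) _ hr.le (by linarith)
        (lt_min hL1.εpos hC.ηpos) _ h1).1 (hx σ hσ hQ j hj))
  exact ⟨ε₂, a, b₁, h⟩

end corr

end Crest.Agent.R224.AS
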