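/-
R224 / S0346 : compactly supported Alexander-Spanier cohomology of a contractible 4-manifold
vanishes in degrees 1, 2, 3, from the nodes of ASDefs (helper602).
-/
import Crest.Agent.R224.T.ASCorr

set_option autoImplicit false

noncomputable section

open Set Metric Topology

namespace Crest.Agent.R224.AS

section finish

variable {E J : Type} [MetricSpace E] [Fintype J] [DecidableEq J] {q : ℕ}
  {c : List E → ZMod 2} {lam : E → J} {ch : J → V 4 → E} {r : ℕ → ℝ} {L : ℕ} {η : ℝ}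
  {near : J → J → Prop} {Q₀ : Finset J → Prop}

theorem descend (hW : NLocW) (h2 : NL2) (hC : Ctx q c lam ch r L η near Q₀) {Q : Finset J → Prop}
    (hQsub : ∀ σ τ, Q τ → σ ⊆ τ → Q σ) (hQ0 : ∀ σ, Q₀ σ → Q σ)
    (hQn : ∀ σ, Q σ → ∀ i ∈ σ, ∀ j ∈ σ, near i j) :
    ∀ (t p k : ℕ) (ε : ℝ) (b b' : Finset J → List E → ZMod 2),
      Lev q c lam ch r Q (p + t) k ε b b' → (∀ p', p ≤ p' → p' < p + t → q + p' ≠ 4) → k + t ≤ L →
      ∃ (ε₁ : ℝ) (a a' : Finset J → List E → ZMod 2), Lev q c lam ch r Q p (k + t) ε₁ a a' := by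
  intro t
  induction t with
  | zero => intro p k ε b b' h _ _; exact ⟨ε, b, b', h⟩
  | succ t ih =>
    intro p k ε b b' h hp hk
    obtain ⟨ε₁, a, h1⟩ := step hW h2 hC hQsub hQ0 hQn (p := p + t) (k := k) (by omega)
      (hp (p + t) (by omega) (by omega)) h
    obtain ⟨ε₂, a₂, a₂', h2'⟩ := ih p (k + 1) ε₁ a b h1 (fun p' h1 h2 => hp p' h1 (by omega))
      (by omega)
    exact ⟨ε₂, a₂, a₂', by rwa [add_right_comm, add_assoc] at h2'⟩

theorem finish (h1 : NL1) {Q : Finset J → Prop} {k : ℕ} {ε : ℝ}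
    {b b' : Finset J → List E → ZMod 2} (hL : Lev q c lam ch r Q 0 k ε b b') :
    ∃ a : List E → ZMod 2,
      (∀ l : List E, l.length = q → (∃ x ∈ l, x ∉ ⋃ j, ch j '' closedBall 0 (r k)) → a l = 0) ∧
      ∀ l : List E, l.length = q + 1 → Sm ε l → dl a l = c l := by
  classical
  refine ⟨fun l => if Sm ε l then ∑ j : J, b {j} l else 0, ?_, ?_⟩
  · rintro l hl ⟨x, hx, hxA⟩
    show (if Sm ε l then ∑ j : J, b {j} l else 0) = 0
    split_ifs with hs
    · refine Finset.sum_eq_zero fun j _ => ?_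
      by_contra hne
      exact hxA (mem_iUnion.2 ⟨j, hL.sup {j} l (by omega) hs hne j (by simp) x hx⟩)
    · rfl
  · intro l hl hs
    have e1 : dl (fun l => if Sm ε l then ∑ j : J, b {j} l else 0) l
        = ∑ j : J, dl (b {j}) l := by
      rw [← dl_sum]
      exact dl_congr fun l' hl' _ => if_pos (hs.sublist hl')
    have hne : l ≠ [] := by
      rintro rfl
      simp at hl
    rw [e1, ← h1 E J lam c l hne]
    unfold bdS
    simp only [Finset.compl_empty, insert_empty_eq]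
    have e2 : ∀ j : J, cp lam c 0 {j} l = dl (b {j}) l + bdS (fun τ => b' τ l) {j} :=
      fun j => hL.rel {j} l (by simp) (by omega) hs
    simp only [e2]
    rw [Finset.sum_add_distrib]
    have e3 : ∑ j : J, bdS (fun τ => b' τ l) {j} = bdS (bdS fun τ => b' τ l) ∅ := by
      unfold bdS
      simp only [Finset.compl_empty, insert_empty_eq]
    rw [e3, bdS_bdS, add_zero]

end finish

theorem scales {E : Type} [MetricSpace E] (Ω : Set E) (e : E → V 4 → E)
    (hU1 : ∀ ρ : ℝ, 0 < ρ → ∃ r : ℝ, 0 < r ∧ ∀ i ∈ Ω, e i '' closedBall 0 r ⊆ ball i ρ)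
    (hU2 : ∀ r : ℝ, 0 < r → ∃ ρ : ℝ, 0 < ρ ∧ ∀ i ∈ Ω, ball i ρ ⊆ e i '' closedBall 0 r) :
    ∀ L : ℕ, ∃ (r : ℕ → ℝ) (ρ : ℝ), 0 < ρ ∧ (∀ k, 0 < r k) ∧ (∀ k, 2 * r k ≤ r (k + 1)) ∧
      ∀ k < L, ∀ i ∈ Ω, ∀ j ∈ Ω, dist i j < ρ →
        e i '' closedBall 0 (2 * r k) ⊆ e j '' closedBall 0 (r (k + 1)) := by
  intro L
  induction L with
  | zero =>
    refine ⟨fun k => 2 ^ k, 1, one_pos, fun k => by positivity, fun k => by
      show (2 : ℝ) * 2 ^ k ≤ 2 ^ (k + 1)
      rw [pow_succ]; linarith, fun k hk => absurd hk (by omega)⟩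
  | succ L ih =>
    obtain ⟨r, ρ, hρ, hr, hr2, hn⟩ := ih
    obtain ⟨ρ', hρ', h1⟩ := hU2 (r 0) (hr 0)
    obtain ⟨s, hs, h2⟩ := hU1 (ρ' / 2) (by linarith)
    have h0 := hr 0
    refine ⟨fun k => Nat.casesOn k (min (s / 2) (r 0 / 2)) r, min ρ (ρ' / 2),
      lt_min hρ (by linarith), fun k => ?_, fun k => ?_, fun k hk i hi j hj hij => ?_⟩
    · cases k with
      | zero => exact lt_min (by linarith) (by linarith)
      | succ k => exact hr k
    · cases k with
      | zero =>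
        show 2 * min (s / 2) (r 0 / 2) ≤ r 0
        have := min_le_right (s / 2) (r 0 / 2)
        linarith
      | succ k => exact hr2 k
    · cases k with
      | zero =>
        show e i '' closedBall 0 (2 * min (s / 2) (r 0 / 2)) ⊆ e j '' closedBall 0 (r 0)
        have h3 : 2 * min (s / 2) (r 0 / 2) ≤ s := by
          have := min_le_left (s / 2) (r 0 / 2)
          linarith
        refine (image_mono (closedBall_subset_closedBall h3)).trans ((h2 i hi).trans ?_)
        refine Subset.trans (fun x hx => ?_) (h1 j hj)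
        rw [mem_ball] at hx ⊢
        have h4 := hij.trans_le (min_le_right _ _)
        have h5 := dist_triangle x i j
        linarith
      | succ k => exact hn k (by omega) i hi j hj (hij.trans_le (min_le_left _ _))

theorem nHc (hW : NLocW) (hE : NEx4) (hA : NEx4Add) (hG : NGen4) (hV : NViet) (h1 : NL1)
    (h2 : NL2) (h4 : NL4) (hCh : NCharts) (hLb : NLabels) : NHc := by
  classical
  intro E _ _ _ q hq1 hq3 K hK c hc hcl
  have : LocallyCompactSpace E := ChartedSpace.locallyCompactSpace (EuclideanSpace ℝ (Fin 4)) E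
  -- contraction
  obtain ⟨p₀, ⟨F⟩⟩ := id_nullhomotopic E
  -- compact neighbourhood
  obtain ⟨K₀, hK₀, hKK₀⟩ := exists_compact_superset hK
  set K₁ : Set E := K₀ ∪ {p₀} with hK₁def
  have hK₁ : IsCompact K₁ := hK₀.union isCompact_singleton
  have hK₁ne : K₁.Nonempty := ⟨p₀, Or.inr rfl⟩
  obtain ⟨δ₁, hδ₁, hthick⟩ := hK.exists_thickening_subset_open isOpen_interior hKK₀
  have hnear : ∀ x y : E, y ∈ K → dist x y < δ₁ → x ∈ K₁ := fun x y hy hxy =>
    Or.inl (interior_subset (hthick (mem_thickening_iff.2 ⟨y, hy, hxy⟩)))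
  -- uniform closedness
  obtain ⟨ε₀, hε₀, hcl0⟩ : ∃ ε₀ > 0, ∀ l : List E, l.length = q + 2 → Sm ε₀ l → dl c l = 0 := by
    choose U hU hU' using hcl
    obtain ⟨δ, hδ, hleb⟩ := lebesgue_number_lemma_of_metric (s := K) (c := fun x : E => interior (U x))
      hK (fun _ => isOpen_interior) (fun x _ => mem_iUnion.2 ⟨x, mem_interior_iff_mem_nhds.2 (hU x)⟩)
    refine ⟨δ, hδ, fun l hl hs => ?_⟩
    by_contra hne
    obtain ⟨l', hsub, hlen, hne'⟩ := exists_face_of_dl_ne hne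
    have hl'K : ∀ x ∈ l', x ∈ K := fun x hx => by
      by_contra hxK
      exact hne' (hc l' (by omega) ⟨x, hx, hxK⟩)
    obtain ⟨y, hy⟩ : ∃ y, y ∈ l' := List.exists_mem_of_length_pos (by omega)
    obtain ⟨z, hz⟩ := hleb y (hl'K y hy)
    exact hne (hU' z l hl fun x hx => interior_subset
      (hz (mem_ball.2 (hs x hx y (hsub.subset hy)))))
  -- the compact track and its charts
  set Ω : Set E := F '' (univ ×ˢ K₁) with hΩdef
  have hΩ : IsCompact Ω := (isCompact_univ.prod hK₁).image F.continuous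
  obtain ⟨e, hemb, hU1, hU2⟩ := hCh E Ω hΩ
  obtain ⟨M, hM⟩ := hLb E K₁ hK₁
  obtain ⟨m, hm, hqm⟩ : ∃ m, 1 ≤ m ∧ q + m = 4 := ⟨4 - q, by omega, by omega⟩
  obtain ⟨r, ρ, hρ, hr, hr2, hnest⟩ := scales Ω e hU1 hU2 (M + m + 3)
  obtain ⟨ρ₀, hρ₀, hball⟩ := hU2 (r 0) (hr 0)
  -- uniform continuity of the contraction
  obtain ⟨δ₂, hδ₂, huc⟩ := (Metric.uniformContinuousOn_iff.1
    ((isCompact_univ.prod hK₁).uniformContinuousOn_of_continuous F.continuous.continuousOn)) ρ hρ
  obtain ⟨N', hN'⟩ := exists_nat_one_div_lt hδ₂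
  set N : ℕ := N' + 1 with hN
  set ρs : ℝ := min ρ δ₂ with hρs
  have hρs0 : 0 < ρs := lt_min hρ hδ₂
  set ρl : ℝ := min (ρs / 3) (ρ₀ / 2) with hρl
  have hρl0 : 0 < ρl := lt_min (by linarith) (by linarith)
  obtain ⟨n, lam, pos, η₀, hη₀, hpos, hlam, hmult⟩ := hM ρl hρl0
  have hposK : ∀ i, pos i ∈ K₁ := fun i => (hpos i).resolve_right hK₁ne.ne_empty
  set η : ℝ := min (min ε₀ δ₁) (min η₀ ρl) with hηdef
  have hη : 0 < η := lt_min (lt_min hε₀ hδ₁) (lt_min hη₀ hρl0)
  have hηε : η ≤ ε₀ := (min_le_left _ _).trans (min_le_left _ _)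
  have hηδ : η ≤ δ₁ := (min_le_left _ _).trans (min_le_right _ _)
  have hηη : η ≤ η₀ := (min_le_right _ _).trans (min_le_left _ _)
  have hηρ : η ≤ ρl := (min_le_right _ _).trans (min_le_right _ _)
  -- times
  have hN0 : (0 : ℝ) < N := by rw [hN]; positivity
  let τ : ℕ → unitInterval := fun k => ⟨min ((k : ℝ) / N) 1, le_min (by positivity) zero_le_one,
    min_le_right _ _⟩
  have hτ0 : τ 0 = 0 := by
    apply Subtype.ext
    show min (((0 : ℕ) : ℝ) / N) 1 = 0
    simp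
  have hτN : τ N = 1 := by
    apply Subtype.ext
    show min ((N : ℝ) / N) 1 = 1
    rw [div_self hN0.ne', min_self]
  have hτd : ∀ k, dist (τ k) (τ (k + 1)) < δ₂ := by
    intro k
    have h3 : dist (τ k) (τ (k + 1)) = |min ((k : ℝ) / N) 1 - min (((k + 1 : ℕ) : ℝ) / N) 1| := rfl
    have h5 : |min ((k : ℝ) / N) 1 - min (((k + 1 : ℕ) : ℝ) / N) 1| ≤
        max |(k : ℝ) / N - ((k + 1 : ℕ) : ℝ) / N| |(1 : ℝ) - 1| := abs_min_sub_min_le_max _ _ _ _
    have h6 : (k : ℝ) / N - ((k + 1 : ℕ) : ℝ) / N = - (1 / N) := by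
      push_cast
      field_simp
      ring
    rw [h6, abs_neg, sub_self, abs_zero, abs_of_pos (by positivity : (0:ℝ) < 1 / N),
      max_eq_left (by positivity)] at h5
    rw [h3]
    refine lt_of_le_of_lt h5 ?_
    rw [hN]
    push_cast
    exact hN'
  -- labels
  let J : Type := Fin (n + 1) × Fin (N + 1)
  let pos' : J → E := fun j => F (τ j.2, pos j.1)
  let lamJ : E → J := fun x => (lam x, 0)
  have hpos'Ω : ∀ j, pos' j ∈ Ω := fun j => ⟨(τ j.2, pos j.1), ⟨mem_univ _, hposK _⟩, rfl⟩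
  have hpos'0 : ∀ j : J, j.2 = 0 → pos' j = pos j.1 := by
    intro j hj
    show F (τ j.2, pos j.1) = pos j.1
    rw [hj]
    show F (τ 0, pos j.1) = pos j.1
    rw [hτ0]
    exact F.apply_zero _
  let near : J → J → Prop := fun i j => dist (pos' i) (pos' j) < ρ
  let Q₀ : Finset J → Prop := fun σ => (∀ j ∈ σ, j.2 = 0) ∧
    ∀ i ∈ σ, ∀ j ∈ σ, dist (pos i.1) (pos j.1) < ρs
  have hfacts : ∀ (p : ℕ) (σ : Finset J) (l : List E), l.length = q + p + 1 → Sm η l →
      cp lamJ c p σ l ≠ 0 → σ.card = p + 1 ∧ (∀ j ∈ σ, ∃ x ∈ l, lamJ x = j) ∧ ∀ x ∈ l, x ∈ K₁ := by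
    intro p σ l hl hs hne
    obtain ⟨h5, h6, l', hsub, hlen, hne'⟩ := h4 E J lamJ c q p σ l hl hne
    refine ⟨h5, h6, fun x hx => ?_⟩
    obtain ⟨y, hy⟩ : ∃ y, y ∈ l' := List.exists_mem_of_length_pos (by omega)
    have hyK : y ∈ K := by
      by_contra hyK
      exact hne' (hc l' hlen ⟨y, hy, hyK⟩)
    exact hnear x y hyK ((hs x hx y (hsub.subset hy)).trans_le hηδ)
  have hCtx : Ctx q c lamJ (fun j => e (pos' j)) r (M + m + 3) η near Q₀ := by
    refine ⟨hη, fun j => hemb _ (hpos'Ω j), hr, hr2, fun k hk i j hij =>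
      hnest k hk _ (hpos'Ω i) _ (hpos'Ω j) hij, fun l hl hs => hcl0 l hl (hs.mono hηε), ?_, ?_, ?_⟩
    · intro p σ l hl hs hne
      obtain ⟨-, hlab, hin⟩ := hfacts p σ l hl hs hne
      have h20 : ∀ j ∈ σ, j.2 = 0 := by
        intro j hj
        obtain ⟨x, -, rfl⟩ := hlab j hj
        rfl
      have hd : ∀ j ∈ σ, ∃ x ∈ l, dist x (pos j.1) < ρl := by
        intro j hj
        obtain ⟨x, hx, rfl⟩ := hlab j hj
        exact ⟨x, hx, hlam x (hin x hx)⟩
      have hρl1 : ρl ≤ ρs / 3 := min_le_left _ _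
      have hρl2 : ρl ≤ ρ₀ / 2 := min_le_right _ _
      refine ⟨⟨h20, fun i hi j hj => ?_⟩, fun j hj x hx => ?_⟩
      · obtain ⟨x, hx, hxi⟩ := hd i hi
        obtain ⟨y, hy, hyj⟩ := hd j hj
        have h5 := hs x hx y hy
        have h6 := dist_triangle4 (pos i.1) x y (pos j.1)
        rw [dist_comm (pos i.1) x] at h6
        linarith
      · obtain ⟨y, hy, hyj⟩ := hd j hj
        apply hball _ (hpos'Ω j)
        rw [mem_ball, hpos'0 j (h20 j hj)]
        have h5 := hs x hx y hy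
        have h6 := dist_triangle x y (pos j.1)
        linarith
    · intro σ hσ i hi j hj
      show dist (pos' i) (pos' j) < ρ
      rw [hpos'0 i (hσ.1 i hi), hpos'0 j (hσ.1 j hj)]
      exact (hσ.2 i hi j hj).trans_le (min_le_left _ _)
    · intro σ τ h hs
      exact ⟨fun j hj => h.1 j (hs hj), fun i hi j hj => h.2 i (hs hi) j (hs hj)⟩
  -- top of the ladder
  have htop : ∀ (σ : Finset J) (l : List E), l.length = q + (m + 1 + M) + 1 → Sm η l →
      cp lamJ c (m + 1 + M) σ l = 0 := by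
    intro σ l hl hs
    by_contra hne
    obtain ⟨hcard, hlab, hin⟩ := hfacts _ σ l hl hs hne
    have hle := hmult l hin (hs.mono hηη)
    have h5 : σ ⊆ ((l.map lam).toFinset).image fun i => ((i, 0) : J) := by
      intro j hj
      obtain ⟨x, hx, rfl⟩ := hlab j hj
      exact Finset.mem_image.2 ⟨lam x, by simpa using ⟨x, hx, rfl⟩, rfl⟩
    have h6 := (Finset.card_le_card h5).trans Finset.card_image_le
    omega
  have hL0 : Lev q c lamJ (fun j => e (pos' j)) r Q₀ (m + 1 + M) 0 η (fun _ _ => 0)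
      (fun _ _ => 0) := by
    refine ⟨hη, fun σ l h => (h rfl).elim, fun σ l _ _ h => (h rfl).elim, fun σ l _ hl hs => ?_⟩
    rw [htop σ l hl hs, dl_zero, zero_add]
    exact (bdS_eq_zero fun _ _ => rfl).symm
  obtain ⟨ε₁, a₁, a₁', hL1⟩ := descend hW h2 hCtx hCtx.Q0sub (fun _ h => h) hCtx.Q0near M (m + 1) 0
    _ _ _ hL0 (fun p' h5 h6 => by omega) (by omega)
  -- the prism maps
  let f : ℕ → J → J := fun k j => if h : k < N then (j.1, ⟨k, by omega⟩) else (0, Fin.last N)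
  have hposf : ∀ k ≤ N, ∀ j : J, pos' (f k j) = F (τ k, pos j.1) := by
    intro k hk j
    by_cases h : k < N
    · simp only [f, dif_pos h, pos']
    · have hkN : k = N := by omega
      subst hkN
      simp only [f, dif_neg h, pos', Fin.val_last]
      rw [hτN]
      exact (F.apply_one (pos 0)).trans (F.apply_one (pos j.1)).symm
  obtain ⟨ε₂, a₂, a₂', hL2⟩ := step4 hE hA hG hV h2 hCtx hm hqm (k := 0 + M) (by omega) f N
    (fun σ hσ j hj => by
      have h5 : 0 < N := by omega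
      have h6 := hσ.1 j hj
      simp only [f, dif_pos h5]
      exact Prod.ext rfl h6.symm)
    (fun j j' => by simp only [f, lt_irrefl, dif_neg, not_false_iff])
    (fun σ hσ k hk i hi j hj => by
      have key : ∀ i, i ∈ σ.image (f k) ∪ σ.image (f (k + 1)) → ∃ t, (t = τ k ∨ t = τ (k + 1)) ∧
          ∃ i' ∈ σ, pos' i = F (t, pos i'.1) := by
        intro i hi
        rcases Finset.mem_union.1 hi with hi | hi
        · obtain ⟨i', hi', rfl⟩ := Finset.mem_image.1 hi
          exact ⟨τ k, Or.inl rfl, i', hi', hposf k (by omega) i'⟩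
        · obtain ⟨i', hi', rfl⟩ := Finset.mem_image.1 hi
          exact ⟨τ (k + 1), Or.inr rfl, i', hi', hposf (k + 1) (by omega) i'⟩
      obtain ⟨t, ht, i', hi', e1⟩ := key i hi
      obtain ⟨s, hs, j', hj', e2⟩ := key j hj
      show dist (pos' i) (pos' j) < ρ
      rw [e1, e2]
      refine huc _ ⟨mem_univ _, hposK _⟩ _ ⟨mem_univ _, hposK _⟩ ?_
      rw [Prod.dist_eq, max_lt_iff]
      refine ⟨?_, (hσ.2 i' hi' j' hj').trans_le (min_le_right _ _)⟩
      show dist t s < δ₂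
      have h7 := hτd k
      rcases ht with rfl | rfl <;> rcases hs with rfl | rfl
      · rwa [dist_self]
      · exact h7
      · rwa [dist_comm]
      · rwa [dist_self]) hL1
  obtain ⟨ε₃, a₃, a₃', hL3⟩ := descend hW h2 hCtx
    (Q := fun σ => ∀ i ∈ σ, ∀ j ∈ σ, near i j)
    (fun σ τ h hs i hi j hj => h i (hs hi) j (hs hj)) hCtx.Q0near (fun _ h => h) m 0 _ _ _ _
    (by rw [Nat.zero_add]; exact hL2) (fun p' h5 h6 => by omega) (by omega)
  obtain ⟨b, hb1, hb2⟩ := finish h1 hL3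
  refine ⟨_, b, ?_, hb1, fun x => ⟨ball x (ε₃ / 2), ball_mem_nhds x (by
    have := hL3.εpos; linarith), fun l hl hlU => hb2 l hl fun y hy z hz => ?_⟩⟩
  · exact isCompact_iUnion fun j => (isCompact_closedBall _ _).image (hCtx.emb j).continuous
  · have h5 := mem_ball.1 (hlU y hy)
    have h6 := mem_ball.1 (hlU z hz)
    have h7 := dist_triangle_right y z x
    linarith

end Crest.Agent.R224.AS
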