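/-
R224 / S0346, topological half, plan B, node N5 (helper846): labels with bounded multiplicity.
-/
import Crest.Agent.R224.T.ASDefs
import Crest.Agent.R224.T.ASGeo

set_option autoImplicit false

open Set Metric Topology Filter

namespace Crest.Agent.R224.AS

theorem nLabels (E : Type) [Nonempty E] [MetricSpace E]
    [ChartedSpace (EuclideanSpace ℝ (Fin 4)) E] (Ω : Set E) (hΩ : IsCompact Ω) :
    ∃ M : ℕ, ∀ ρ : ℝ, 0 < ρ → ∃ (n : ℕ) (lam : E → Fin (n + 1))
    (pos : Fin (n + 1) → E) (η : ℝ), 0 < η ∧ (∀ i, pos i ∈ Ω ∨ Ω = ∅) ∧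
    (∀ x ∈ Ω, dist x (pos (lam x)) < ρ) ∧
    ∀ l : List E, (∀ x ∈ l, x ∈ Ω) → Sm η l → ((l.map lam).toFinset).card ≤ M := by
  classical
  obtain ⟨D, hD⟩ := ASG.labels (n := 4) hΩ
  refine ⟨D, fun ρ hρ => ?_⟩
  obtain ⟨lam0, hfin, hclose, δ, hδ, hmult⟩ := hD (ρ / 2) (half_pos hρ)
  set F : Finset E := hfin.toFinset with hF
  have hmemF : ∀ x, lam0 x ∈ F := fun x => by rw [hF, Finite.mem_toFinset]; exact ⟨x, rfl⟩
  set φ : F ≃ Fin F.card := F.equivFin with hφ
  set lab : E → Fin (F.card + 1) := fun x => (φ ⟨lam0 x, hmemF x⟩).castSucc with hlab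
  have hlabinj : ∀ x y, lab x = lab y → lam0 x = lam0 y := by
    intro x y h
    have h1 := Fin.castSucc_injective _ h
    have h2 := φ.injective h1
    exact congrArg Subtype.val h2
  obtain ⟨x0⟩ := ‹Nonempty E›
  have hpos : ∀ i : Fin (F.card + 1), ∃ p : E, (p ∈ Ω ∨ Ω = ∅) ∧
      ((∃ x ∈ Ω, lab x = i) → p ∈ Ω ∧ lab p = i) := by
    intro i
    by_cases h : ∃ x ∈ Ω, lab x = i
    · obtain ⟨x, hx, hxi⟩ := h
      exact ⟨x, Or.inl hx, fun _ => ⟨hx, hxi⟩⟩
    · rcases Ω.eq_empty_or_nonempty with h0 | ⟨p, hp⟩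
      · exact ⟨x0, Or.inr h0, fun h' => absurd h' h⟩
      · exact ⟨p, Or.inl hp, fun h' => absurd h' h⟩
  choose pos hpos1 hpos2 using hpos
  refine ⟨F.card, lab, pos, δ, hδ, hpos1, ?_, ?_⟩
  · intro x hx
    obtain ⟨h1, h2⟩ := hpos2 (lab x) ⟨x, hx, rfl⟩
    have h3 := hlabinj _ _ h2
    have h4 := hclose x hx
    have h5 := hclose _ h1
    rw [h3] at h5
    calc dist x (pos (lab x)) ≤ dist x (lam0 x) + dist (lam0 x) (pos (lab x)) :=
          dist_triangle _ _ _
      _ < ρ := by rw [dist_comm (lam0 x)]; linarith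
  · intro l hl hsm
    rcases l with _ | ⟨y, l⟩
    · simp
    · have hy : y ∈ Ω := hl y (List.mem_cons_self ..)
      obtain ⟨hfin1, hcard⟩ := hmult y hy
      have hsub : ((List.map lab (y :: l)).toFinset : Set (Fin (F.card + 1))) ⊆
          lab '' ball y δ := by
        intro i hi
        rw [Finset.mem_coe, List.mem_toFinset, List.mem_map] at hi
        obtain ⟨x, hx, rfl⟩ := hi
        exact ⟨x, hsm x hx y (List.mem_cons_self ..), rfl⟩
      have hinj : ((lab '' ball y δ).ncard) ≤ (lam0 '' ball y δ).ncard := by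
        set g : Fin (F.card + 1) → E := fun i =>
          if h : ∃ x, lab x = i then lam0 (Classical.choose h) else x0 with hg
        have hgl : ∀ x, g (lab x) = lam0 x := by
          intro x
          have h : ∃ x', lab x' = lab x := ⟨x, rfl⟩
          have h1 : g (lab x) = lam0 (Classical.choose h) := by rw [hg]; exact dif_pos h
          rw [h1]
          exact hlabinj _ _ (Classical.choose_spec h)
        apply ncard_le_ncard_of_injOn g ?_ ?_ hfin1
        · rintro _ ⟨x, hx, rfl⟩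
          rw [hgl]
          exact ⟨x, hx, rfl⟩
        · rintro _ ⟨x, hx, rfl⟩ _ ⟨x', hx', rfl⟩ h
          rw [hgl, hgl] at h
          show (φ ⟨lam0 x, hmemF x⟩).castSucc = (φ ⟨lam0 x', hmemF x'⟩).castSucc
          congr 3
      calc ((List.map lab (y :: l)).toFinset).card
          = ((List.map lab (y :: l)).toFinset : Set (Fin (F.card + 1))).ncard :=
            (ncard_coe_finset _).symm
        _ ≤ (lab '' ball y δ).ncard := ncard_le_ncard hsub (Set.toFinite _)
        _ ≤ _ := hinj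
        _ ≤ D := hcard

end Crest.Agent.R224.AS
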