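/-
R224 / S0346, topological half, plan B : the ladder (nodes NL1, NL2, NL4 of ASDefs)  (helper876).
-/
import Crest.Agent.R224.T.ASBasic

set_option autoImplicit false
set_option linter.unusedSectionVars false

noncomputable section

open Set Metric Topology

namespace Crest.Agent.R224.AS

namespace Lad

variable {X J : Type} [Fintype J] [DecidableEq J]

/-- `∂ K + K ∂ = id` on non-empty lists -/
theorem bdS_Kop (lam : X → J) (Φ : Finset J → List X → ZMod 2) (σ : Finset J) (x : X)
    (l : List X) :
    bdS (fun τ => Kop lam Φ τ (x :: l)) σ + Kop lam (fun ρ l' => bdS (fun τ => Φ τ l') ρ) σ (x :: l)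
      = Φ σ (x :: l) := by
  by_cases hx : lam x ∈ σ
  · -- the label is in σ
    have h1 : bdS (fun τ => Kop lam Φ τ (x :: l)) σ =
        ∑ j ∈ σᶜ, Φ (insert j (σ.erase (lam x))) (x :: l) := by
      unfold bdS
      refine Finset.sum_congr rfl fun j hj => ?_
      have hj' : j ∉ σ := by simpa using hj
      have hne : j ≠ lam x := fun h => hj' (h ▸ hx)
      simp only [Kop]
      rw [if_pos (Finset.mem_insert_of_mem hx), Finset.erase_insert_of_ne hne]
    have h2 : Kop lam (fun ρ l' => bdS (fun τ => Φ τ l') ρ) σ (x :: l) =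
        ∑ j ∈ (σ.erase (lam x))ᶜ, Φ (insert j (σ.erase (lam x))) (x :: l) := by
      simp only [Kop]
      rw [if_pos hx]
      rfl
    have h3 : (σ.erase (lam x))ᶜ = insert (lam x) σᶜ := by
      ext j
      simp only [Finset.mem_compl, Finset.mem_erase, Finset.mem_insert]
      tauto
    rw [h1, h2, h3, Finset.sum_insert (by simpa using hx), Finset.insert_erase hx]
    have e : ∀ a b : ZMod 2, a + (b + a) = b := by decide
    exact e _ _
  · have h2 : Kop lam (fun ρ l' => bdS (fun τ => Φ τ l') ρ) σ (x :: l) = 0 := by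
      simp only [Kop]
      rw [if_neg hx]
    have h1 : bdS (fun τ => Kop lam Φ τ (x :: l)) σ = Φ σ (x :: l) := by
      unfold bdS
      rw [Finset.sum_eq_single (lam x)]
      · simp only [Kop]
        rw [if_pos (Finset.mem_insert_self _ _), Finset.erase_insert hx]
      · intro j hj hne
        simp only [Kop]
        rw [if_neg]
        simp only [Finset.mem_insert, not_or]
        exact ⟨fun h => hne h.symm, hx⟩
      · intro h
        exact absurd (by simpa using hx) h
    rw [h1, h2, add_zero]

/-- start of the ladder -/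
def Phi0 (c : List X → ZMod 2) (σ : Finset J) (l : List X) : ZMod 2 := if σ = ∅ then c l else 0

theorem cp_zero (lam : X → J) (c : List X → ZMod 2) : cp lam c 0 = Kop lam (Phi0 c) := rfl

theorem cp_succ (lam : X → J) (c : List X → ZMod 2) (p : ℕ) :
    cp lam c (p + 1) = Kop lam (fun σ => dl (cp lam c p σ)) := rfl

theorem bdS_Phi0 (c : List X → ZMod 2) (σ : Finset J) (l : List X) :
    bdS (fun τ => Phi0 c τ l) σ = 0 := by
  unfold bdS Phi0
  refine Finset.sum_eq_zero fun j _ => ?_
  exact if_neg (Finset.insert_ne_empty _ _)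

theorem Kop_zero (lam : X → J) (σ : Finset J) (l : List X) :
    Kop lam (fun _ _ => 0) σ l = 0 := by
  cases l with
  | nil => rfl
  | cons x l => simp [Kop]

theorem bdS_cp_zero (lam : X → J) (c : List X → ZMod 2) (σ : Finset J) (x : X) (l : List X) :
    bdS (fun τ => cp lam c 0 τ (x :: l)) σ = Phi0 c σ (x :: l) := by
  have h := bdS_Kop lam (Phi0 c) σ x l
  have h2 : (fun ρ l' => bdS (fun τ => Phi0 c τ l') ρ : Finset J → List X → ZMod 2) =
      fun _ _ => 0 := by
    funext ρ l'; exact bdS_Phi0 c ρ l'
  rw [h2, Kop_zero, add_zero] at h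
  exact h

theorem dl_bdS (Φ : Finset J → List X → ZMod 2) (σ : Finset J) (l : List X) :
    dl (fun l' => bdS (fun τ => Φ τ l') σ) l = bdS (fun τ => dl (Φ τ) l) σ := by
  unfold bdS
  exact dl_sum _ _ _

end Lad

open Lad

theorem nL1 : NL1 := by
  intro X J _ _ lam c l hl
  cases l with
  | nil => exact absurd rfl hl
  | cons x l =>
    rw [bdS_cp_zero]
    simp [Phi0]

/-- the two statements of the induction -/
theorem nL2_aux {X J : Type} [PseudoMetricSpace X] [Fintype J] [DecidableEq J] (lam : X → J)
    (c : List X → ZMod 2) (q : ℕ) (ε : ℝ)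
    (hc : ∀ l : List X, l.length = q + 2 → Sm ε l → dl c l = 0) (p : ℕ) :
    (∀ (σ : Finset J) (l : List X), l.length = q + p + 2 → Sm ε l →
      bdS (fun τ => dl (cp lam c p τ) l) σ = 0) ∧
    (∀ (σ : Finset J) (l : List X), l.length = q + p + 2 → Sm ε l →
      dl (cp lam c p σ) l = bdS (fun τ => cp lam c (p + 1) τ l) σ) := by
  have step : ∀ p, (∀ (σ : Finset J) (l : List X), l.length = q + p + 2 → Sm ε l →
      bdS (fun τ => dl (cp lam c p τ) l) σ = 0) →
      ∀ (σ : Finset J) (l : List X), l.length = q + p + 2 → Sm ε l →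
      dl (cp lam c p σ) l = bdS (fun τ => cp lam c (p + 1) τ l) σ := by
    intro p hp σ l hl hs
    cases l with
    | nil => simp at hl
    | cons x l =>
      have h := bdS_Kop lam (fun σ => dl (cp lam c p σ)) σ x l
      rw [← cp_succ] at h
      have h2 : Kop lam (fun ρ l' => bdS (fun τ => dl (cp lam c p τ) l') ρ) σ (x :: l) = 0 := by
        simp only [Kop]
        split_ifs with hx
        · exact hp _ _ hl hs
        · rfl
      rw [h2, add_zero] at h
      exact h.symm
  suffices H : ∀ (σ : Finset J) (l : List X), l.length = q + p + 2 → Sm ε l →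
      bdS (fun τ => dl (cp lam c p τ) l) σ = 0 from ⟨H, step p H⟩
  induction p with
  | zero =>
    intro σ l hl hs
    rw [← dl_bdS]
    rw [dl_congr (ψ := Phi0 c σ)]
    · by_cases hσ : σ = ∅
      · have : Phi0 (J := J) c σ = c := by funext l'; simp [Phi0, hσ]
        rw [this]
        exact hc l hl hs
      · have : Phi0 (J := J) c σ = fun _ => 0 := by funext l'; simp [Phi0, hσ]
        rw [this, dl_zero]
    · intro l' _ hl'
      cases l' with
      | nil => simp at hl'; omega
      | cons x l' => exact bdS_cp_zero lam c σ x l'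
  | succ p ih =>
    intro σ l hl hs
    rw [← dl_bdS]
    rw [dl_congr (ψ := dl (cp lam c p σ)), dl_dl]
    intro l' h1 h2
    exact (step p ih σ l' (by omega) (hs.sublist h1)).symm

theorem nL2 : NL2 := by
  intro X J _ _ _ lam c q ε hc p σ l hl hs
  exact (nL2_aux lam c q ε hc p).2 σ l hl hs

theorem nL4 : NL4 := by
  intro X J _ _ lam c q p
  induction p with
  | zero =>
    intro σ l hl hne
    cases l with
    | nil => exact absurd rfl hne
    | cons x l =>
      rw [cp_zero] at hne
      simp only [Kop, Phi0] at hne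
      split_ifs at hne with hx he
      · have hσ : σ = {lam x} := by
          rw [← Finset.insert_erase hx, he]; rfl
        subst hσ
        refine ⟨by simp, ?_, x :: l, List.Sublist.refl _, by simpa using hl, hne⟩
        intro j hj
        exact ⟨x, by simp, (Finset.mem_singleton.1 hj).symm⟩
      all_goals exact absurd rfl hne
  | succ p ih =>
    intro σ l hl hne
    cases l with
    | nil => exact absurd rfl hne
    | cons x l =>
      rw [cp_succ] at hne
      simp only [Kop] at hne
      split_ifs at hne with hx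
      · obtain ⟨l', h1, h2, h3⟩ := exists_face_of_dl_ne hne
        obtain ⟨h4, h5, l'', h6, h7, h8⟩ := ih (σ.erase (lam x)) l' (by simp at h2 hl; omega) h3
        refine ⟨?_, ?_, l'', h6.trans h1, h7, h8⟩
        · rw [Finset.card_erase_of_mem hx] at h4
          have := Finset.card_pos.2 ⟨_, hx⟩
          omega
        · intro j hj
          by_cases hjx : j = lam x
          · exact ⟨x, by simp, hjx.symm⟩
          · obtain ⟨y, hy, hyj⟩ := h5 j (Finset.mem_erase.2 ⟨hjx, hj⟩)
            exact ⟨y, h1.subset hy, hyj⟩
      · exact absurd rfl hne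

end Crest.Agent.R224.AS
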