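/-
R224 / topological half : Alexander-Spanier cochains as functions on lists, mod 2 (helper641).

* `LC X = List X → ZMod 2`; a `q`-cochain is (the restriction of) such a function to lists of length
  `q + 1`.
* `dl` the coboundary, `pr f g` the prism operator of two maps.
-/
import Mathlib

set_option autoImplicit false

noncomputable section

namespace Crest.Agent.R224.T641

/-- cochains on lists -/
abbrev LC (X : Type*) := List X → ZMod 2

variable {X Y : Type*}

/-- coboundary -/
def dl : LC X → LC X
  | _, [] => 0
  | c, x :: l => c l + dl (fun m => c (x :: m)) l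

/-- prism operator: sum of `c (f x₀, …, f xⱼ, g xⱼ, …, g x_q)` -/
def pr (f g : X → Y) : LC Y → LC X
  | _, [] => 0
  | c, x :: l => c (f x :: g x :: l.map g) + pr f g (fun m => c (f x :: m)) l

@[simp] theorem dl_nil (c : LC X) : dl c [] = 0 := by simp [dl]

@[simp] theorem dl_cons (c : LC X) (x : X) (l : List X) :
    dl c (x :: l) = c l + dl (fun m => c (x :: m)) l := by simp [dl]

@[simp] theorem pr_nil (f g : X → Y) (c : LC Y) : pr f g c [] = 0 := by simp [pr]

@[simp] theorem pr_cons (f g : X → Y) (c : LC Y) (x : X) (l : List X) :
    pr f g c (x :: l) = c (f x :: g x :: l.map g) + pr f g (fun m => c (f x :: m)) l := by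
  simp [pr]

theorem two_eq_zero (a : ZMod 2) : a + a = 0 := CharTwo.add_self_eq_zero a

theorem eq_iff_add (a b : ZMod 2) : a = b ↔ a + b = 0 := by
  constructor
  · rintro rfl; exact two_eq_zero _
  · intro h
    have : a + b + b = b := by rw [h, zero_add]
    rw [add_assoc, two_eq_zero, add_zero] at this
    exact this

theorem dl_add (c d : LC X) (l : List X) :
    dl (fun m => c m + d m) l = dl c l + dl d l := by
  induction l generalizing c d with
  | nil => simp
  | cons x l ih =>
    simp only [dl_cons]
    rw [ih (fun m => c (x :: m)) (fun m => d (x :: m))]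
    ring

theorem dl_zero (l : List X) : dl (fun _ => 0) l = 0 := by
  induction l with
  | nil => simp
  | cons x l ih => simp only [dl_cons]; rw [ih]; simp

theorem pr_add (f g : X → Y) (c d : LC Y) (l : List X) :
    pr f g (fun m => c m + d m) l = pr f g c l + pr f g d l := by
  induction l generalizing c d with
  | nil => simp
  | cons x l ih =>
    simp only [pr_cons]
    rw [ih (fun m => c (f x :: m)) (fun m => d (f x :: m))]
    ring

theorem pr_zero (f g : X → Y) (l : List X) : pr f g (fun _ => 0) l = 0 := by
  induction l with
  | nil => simp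
  | cons x l ih => simp only [pr_cons]; rw [ih]; simp

/-- the value of `dl c` on `l` only depends on the values of `c` on sublists of length one less -/
theorem dl_congr {c d : LC X} {l : List X}
    (h : ∀ m, m.Sublist l → m.length + 1 = l.length → c m = d m) : dl c l = dl d l := by
  induction l generalizing c d with
  | nil => simp
  | cons x l ih =>
    simp only [dl_cons]
    rw [h l (List.sublist_cons_self x l) rfl, ih]
    intro m hm hl
    exact h _ (hm.cons_cons x) (by simp only [List.length_cons]; omega)

theorem dl_eq_zero {c : LC X} {l : List X}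
    (h : ∀ m, m.Sublist l → m.length + 1 = l.length → c m = 0) : dl c l = 0 := by
  rw [dl_congr (d := fun _ => 0) h, dl_zero]

/-- the value of `pr f g c` on `l` only depends on the values of `c` on the prism lists -/
theorem pr_congr {f g : X → Y} {c d : LC Y} {l : List X}
    (h : ∀ m, (∀ y ∈ m, ∃ x ∈ l, y = f x ∨ y = g x) → (∀ x ∈ l, f x ∈ m ∨ g x ∈ m) →
      m.length = l.length + 1 → c m = d m) : pr f g c l = pr f g d l := by
  induction l generalizing c d with
  | nil => simp
  | cons x l ih =>
    simp only [pr_cons]
    rw [h, ih]
    · intro m h1 h2 h3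
      apply h
      · intro y hy
        rcases List.mem_cons.1 hy with rfl | hy
        · exact ⟨x, by simp, Or.inl rfl⟩
        · obtain ⟨z, hz, hz'⟩ := h1 y hy
          exact ⟨z, by simp [hz], hz'⟩
      · intro z hz
        rcases List.mem_cons.1 hz with rfl | hz
        · exact Or.inl (by simp)
        · rcases h2 z hz with h | h
          · exact Or.inl (by simp [h])
          · exact Or.inr (by simp [h])
      · simp [h3]
    · intro y hy
      simp only [List.mem_cons, List.mem_map] at hy
      rcases hy with rfl | rfl | ⟨z, hz, rfl⟩
      · exact ⟨x, by simp, Or.inl rfl⟩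
      · exact ⟨x, by simp, Or.inr rfl⟩
      · exact ⟨z, by simp [hz], Or.inr rfl⟩
    · intro z hz
      rcases List.mem_cons.1 hz with rfl | hz
      · exact Or.inl (by simp)
      · exact Or.inr (by simp only [List.mem_cons, List.mem_map]; exact Or.inr (Or.inr ⟨z, hz, rfl⟩))
    · simp

theorem pr_eq_zero {f g : X → Y} {c : LC Y} {l : List X}
    (h : ∀ m, (∀ y ∈ m, ∃ x ∈ l, y = f x ∨ y = g x) → (∀ x ∈ l, f x ∈ m ∨ g x ∈ m) →
      m.length = l.length + 1 → c m = 0) : pr f g c l = 0 := by
  rw [pr_congr (d := fun _ => 0) h, pr_zero]

/-- pull-back commutes with the coboundary -/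
theorem dl_map (g : X → Y) (c : LC Y) (l : List X) :
    dl (fun m => c (m.map g)) l = dl c (l.map g) := by
  induction l generalizing c with
  | nil => simp
  | cons x l ih =>
    simp only [dl_cons, List.map_cons]
    rw [← ih]

/-- `δδ = 0` -/
theorem dl_dl (c : LC X) (l : List X) : dl (dl c) l = 0 := by
  induction l generalizing c with
  | nil => simp
  | cons x l ih =>
    simp only [dl_cons]
    rw [dl_add, ih, add_zero, two_eq_zero]

/-- the homotopy formula (holds identically) -/
theorem homotopy (f g : X → Y) (c : LC Y) (l : List X) :
    dl (pr f g c) l + pr f g (dl c) l = c (l.map f) + c (l.map g) := by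
  induction l generalizing c with
  | nil => simp [two_eq_zero]
  | cons x l ih =>
    have e1 : (fun m => pr f g c (x :: m)) =
        fun m => c (f x :: g x :: m.map g) + pr f g (fun m => c (f x :: m)) m := by
      funext m; simp
    have e2 : (fun m => dl c (f x :: m)) = fun m => c m + dl (fun m => c (f x :: m)) m := by
      funext m; simp
    rw [dl_cons, e1, dl_add, pr_cons, e2, pr_add]
    have e3 := ih (fun m => c (f x :: m))
    have e4 := dl_map g (fun m => c (f x :: g x :: m)) l
    beta_reduce at e3 e4
    rw [e4]
    simp only [dl_cons, List.map_cons]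
    have e5 : dl (pr f g fun m => c (f x :: m)) l =
        pr f g (dl fun m => c (f x :: m)) l + (c (f x :: l.map f) + c (f x :: l.map g)) := by
      rw [← e3]
      have := two_eq_zero (pr f g (dl fun m => c (f x :: m)) l)
      linear_combination (-1 : ZMod 2) * this
    rw [e5]
    have t1 := two_eq_zero (pr f g c l)
    have t2 := two_eq_zero (pr f g (dl fun m => c (f x :: m)) l)
    have t3 := two_eq_zero (c (f x :: l.map g))
    have t4 := two_eq_zero (dl (fun m => c (f x :: g x :: m)) (l.map g))
    linear_combination t1 + t2 + t3 + t4

end Crest.Agent.R224.T641
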