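/-
R224 / topological half : finitely supported cohomology of the cubical lattice (helper641).

For a set `V` with a reflexive relation `R` (smallness) we consider cochains on lists of pairwise
`R`-related elements with finite support.  Passing from `V` to `V × ℤ` shifts the degree by one.
-/
import Crest.Agent.R224.T.LC

set_option autoImplicit false

noncomputable section

namespace Crest.Agent.R224.T641

variable {V : Type}

/-- small lists -/
def sm (R : V → V → Prop) (l : List V) : Prop := ∀ x ∈ l, ∀ y ∈ l, R x y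

/-- closed `q`-cochain with support in `K` -/
structure Cyc (R : V → V → Prop) (q : ℕ) (K : Finset V) (c : LC V) : Prop where
  cl : ∀ l, sm R l → l.length = q + 2 → dl c l = 0
  supp : ∀ l, sm R l → l.length = q + 1 → c l ≠ 0 → ∀ x ∈ l, x ∈ K

/-- coboundary of a finitely supported cochain -/
def Cob (R : V → V → Prop) (q : ℕ) (c : LC V) : Prop :=
  ∃ (f : LC V) (K : Finset V), (∀ l, sm R l → l.length = q → f l ≠ 0 → l ≠ [] ∧ ∀ x ∈ l, x ∈ K) ∧
    ∀ l, sm R l → l.length = q + 1 → c l = dl f l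

def Van (R : V → V → Prop) (q : ℕ) : Prop := ∀ K c, Cyc R q K c → Cob R q c

def One (R : V → V → Prop) (q : ℕ) : Prop :=
  ∀ K c d, Cyc R q K c → Cyc R q K d → Cob R q c ∨ Cob R q d ∨ Cob R q (fun l => c l + d l)

/-- product relation -/
def RZ (R : V → V → Prop) (z w : V × ℤ) : Prop := R z.1 w.1 ∧ |z.2 - w.2| ≤ 1

def tau (k : ℤ) (z : V × ℤ) : V × ℤ := (z.1, max z.2 k)

theorem sm_sublist {R : V → V → Prop} {l m : List V} (h : sm R l) (hm : m.Sublist l) : sm R m :=
  fun x hx y hy => h x (hm.subset hx) y (hm.subset hy)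

theorem sm_tau {R : V → V → Prop} (k : ℤ) {l m : List (V × ℤ)} (h : sm (RZ R) l)
    (hm : ∀ y ∈ m, ∃ x ∈ l, y = tau k x ∨ y = tau (k + 1) x) : sm (RZ R) m := by
  intro y hy z hz
  obtain ⟨a, ha, hay⟩ := hm y hy
  obtain ⟨b, hb, hbz⟩ := hm z hz
  obtain ⟨h1, h2⟩ := h a ha b hb
  have h2' := abs_le.1 h2
  refine ⟨?_, ?_⟩
  · rcases hay with rfl | rfl <;> rcases hbz with rfl | rfl <;> exact h1
  · rcases hay with rfl | rfl <;> rcases hbz with rfl | rfl <;>
    · simp only [tau, abs_le]
      rcases le_total a.2 k with e1 | e1 <;> rcases le_total b.2 k with e2 | e2 <;>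
      rcases le_total a.2 (k+1) with e3 | e3 <;> rcases le_total b.2 (k+1) with e4 | e4 <;>
      simp only [max_eq_left, max_eq_right, e1, e2, e3, e4] <;> constructor <;> omega

theorem sm_tau' {R : V → V → Prop} (k : ℤ) {l : List (V × ℤ)} (h : sm (RZ R) l) :
    sm (RZ R) (l.map (tau k)) := by
  apply sm_tau k h
  intro y hy
  obtain ⟨x, hx, rfl⟩ := List.mem_map.1 hy
  exact ⟨x, hx, Or.inl rfl⟩

/-- the partial sums of the prism operators: levels `A, A+1, ..., A+n-1` -/
def PP (A : ℤ) (n : ℕ) (c : LC (V × ℤ)) : LC (V × ℤ) := fun l =>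
  ∑ k ∈ Finset.range n, pr (tau (A + k)) (tau (A + k + 1)) c l

theorem dl_sum {ι : Type} (s : Finset ι) (c : ι → LC V) (l : List V) :
    dl (fun m => ∑ k ∈ s, c k m) l = ∑ k ∈ s, dl (c k) l := by
  classical
  induction s using Finset.induction_on with
  | empty => simp [dl_zero]
  | insert a s ha ih =>
    rw [Finset.sum_insert ha, ← ih, ← dl_add]
    congr 1
    funext m
    rw [Finset.sum_insert ha]

/-- `e c` : the fibre integral -/
def ee (A : ℤ) (n : ℕ) (c : LC (V × ℤ)) : LC V := fun l =>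
  PP A n c (l.map fun v => (v, A))

theorem PP_homotopy (A : ℤ) (n : ℕ) (c : LC (V × ℤ)) (l : List (V × ℤ)) :
    dl (PP A n c) l + PP A n (dl c) l = c (l.map (tau A)) + c (l.map (tau (A + n))) := by
  unfold PP
  rw [dl_sum, ← Finset.sum_add_distrib]
  have h : ∀ k ∈ Finset.range n, dl (pr (tau (A + k)) (tau (A + k + 1)) c) l +
      pr (tau (A + k)) (tau (A + k + 1)) (dl c) l =
      c (l.map (tau (A + k))) + c (l.map (tau (A + k + 1))) := fun k _ => homotopy _ _ _ _
  rw [Finset.sum_congr rfl h]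
  clear h
  induction n with
  | zero => simp [two_eq_zero]
  | succ n ih =>
    rw [Finset.sum_range_succ, ih]
    have := two_eq_zero (c (l.map (tau (A + n))))
    have e : A + ((n + 1 : ℕ) : ℤ) = A + n + 1 := by push_cast; ring
    rw [e]
    linear_combination this

theorem PP_add (A : ℤ) (n : ℕ) (c d : LC (V × ℤ)) (l : List (V × ℤ)) :
    PP A n (fun m => c m + d m) l = PP A n c l + PP A n d l := by
  unfold PP
  rw [← Finset.sum_add_distrib]
  exact Finset.sum_congr rfl fun k _ => pr_add _ _ _ _ _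

/-- a closed cochain is killed by `PP ∘ dl` on small lists -/
theorem PP_dl {R : V → V → Prop} {q : ℕ} {K : Finset (V × ℤ)} {c : LC (V × ℤ)}
    (h : Cyc (RZ R) q K c) (A : ℤ) (n : ℕ) {l : List (V × ℤ)} (hl : sm (RZ R) l)
    (hq : l.length = q + 1) : PP A n (dl c) l = 0 := by
  unfold PP
  refine Finset.sum_eq_zero fun k _ => pr_eq_zero ?_
  intro m h1 _ h3
  exact h.cl m (sm_tau _ hl h1) (by omega)

theorem levels {K : Finset (V × ℤ)} : ∃ (A : ℤ) (n : ℕ), ∀ z ∈ K, A < z.2 ∧ z.2 < A + n := by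
  classical
  induction K using Finset.induction_on with
  | empty => exact ⟨0, 0, by simp⟩
  | insert z K hz ih =>
    obtain ⟨A, n, h⟩ := ih
    refine ⟨min A (z.2 - 1), (max (A + n) (z.2 + 1) - min A (z.2 - 1)).toNat, ?_⟩
    intro w hw
    have e : (((max (A + n) (z.2 + 1) - min A (z.2 - 1)).toNat : ℕ) : ℤ) =
        max (A + n) (z.2 + 1) - min A (z.2 - 1) := by
      rw [Int.toNat_of_nonneg]
      have h1 : min A (z.2 - 1) ≤ z.2 - 1 := min_le_right _ _
      have h2 : z.2 + 1 ≤ max (A + n) (z.2 + 1) := le_max_right _ _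
      linarith
    rw [e]
    rcases Finset.mem_insert.1 hw with rfl | hw
    · constructor
      · exact lt_of_le_of_lt (min_le_right _ _) (by omega)
      · have : w.2 + 1 ≤ max (A + n) (w.2 + 1) := le_max_right _ _
        omega
    · obtain ⟨h1, h2⟩ := h w hw
      constructor
      · exact lt_of_le_of_lt (min_le_left _ _) h1
      · have : A + n ≤ max (A + n) (z.2 + 1) := le_max_left _ _
        omega

/-! ### one step -/

theorem pr_map' {X Y W : Type} (f g : X → Y) (h : W → X) (c : LC Y) (l : List W) :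
    pr f g c (l.map h) = pr (fun w => f (h w)) (fun w => g (h w)) c l := by
  induction l generalizing c with
  | nil => simp
  | cons x l ih =>
    simp only [List.map_cons, pr_cons, ih, List.map_map]
    rfl

theorem pr_ext {X Y : Type} {f g f' g' : X → Y} (c : LC Y) {l : List X}
    (h : ∀ x ∈ l, f x = f' x ∧ g x = g' x) : pr f g c l = pr f' g' c l := by
  induction l generalizing c with
  | nil => simp
  | cons x l ih =>
    have hx := h x (by simp)
    have hl : ∀ y ∈ l, f y = f' y ∧ g y = g' y := fun y hy => h y (by simp [hy])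
    simp only [pr_cons]
    rw [ih _ hl, hx.1, hx.2, List.map_congr_left fun y hy => (hl y hy).2]

/-- support of the prism sums -/
theorem PP_supp {R : V → V → Prop} {q : ℕ} {K : Finset (V × ℤ)} {c : LC (V × ℤ)}
    (h : Cyc (RZ R) (q + 1) K c) (A : ℤ) (n : ℕ) {l : List (V × ℤ)} (hl : sm (RZ R) l)
    (hq : l.length = q + 1) (h0 : PP A n c l ≠ 0) : ∀ x ∈ l, ∃ z ∈ K, z.1 = x.1 := by
  intro x hx
  by_contra hcon
  push Not at hcon
  apply h0
  unfold PP
  refine Finset.sum_eq_zero fun k _ => pr_eq_zero ?_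
  intro m h1 h2 h3
  by_contra hm
  have := h.supp m (sm_tau _ hl h1) (by omega) hm
  rcases h2 x hx with h4 | h4
  · exact hcon _ (this _ h4) rfl
  · exact hcon _ (this _ h4) rfl

theorem PP_top {R : V → V → Prop} {q : ℕ} {K : Finset (V × ℤ)} {c : LC (V × ℤ)}
    (h : Cyc (RZ R) (q + 1) K c) {A : ℤ} {n : ℕ} (hK : ∀ z ∈ K, A < z.2 ∧ z.2 < A + n)
    {l : List (V × ℤ)} (hl : sm (RZ R) l)
    (hq : l.length = q + 1) {x : V × ℤ} (hx : x ∈ l) (hxn : A + n ≤ x.2) : PP A n c l = 0 := by
  unfold PP
  refine Finset.sum_eq_zero fun k hk => pr_eq_zero ?_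
  intro m h1 h2 h3
  by_contra hm
  have h5 := h.supp m (sm_tau _ hl h1) (by omega) hm
  have hk' : k < n := Finset.mem_range.1 hk
  have e1 : tau (A + k) x = x := by
    unfold tau
    rw [max_eq_left (by omega)]
  have e2 : tau (A + k + 1) x = x := by
    unfold tau
    rw [max_eq_left (by omega)]
  have h6 := h2 x hx
  rw [e1, e2, or_self] at h6
  have := (hK x (h5 x h6)).2
  omega

theorem PP_bot {c : LC (V × ℤ)} {A : ℤ} {n : ℕ} {l : List (V × ℤ)} (hl : ∀ x ∈ l, x.2 ≤ A) :
    PP A n c l = ee A n c (l.map Prod.fst) := by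
  unfold ee PP
  refine Finset.sum_congr rfl fun k _ => ?_
  rw [List.map_map, pr_map']
  refine pr_ext c ?_
  intro x hx
  have := hl x hx
  simp only [tau, Function.comp_apply, Prod.mk.injEq, true_and]
  constructor
  · rw [max_eq_right (by omega), max_eq_right (by omega)]
  · rw [max_eq_right (by omega), max_eq_right (by omega)]

/-- the main homotopy -/
theorem PP_cob {R : V → V → Prop} {q : ℕ} {K : Finset (V × ℤ)} {c : LC (V × ℤ)}
    (h : Cyc (RZ R) q K c) {A : ℤ} {n : ℕ} (hK : ∀ z ∈ K, A < z.2 ∧ z.2 < A + n)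
    {l : List (V × ℤ)} (hl : sm (RZ R) l) (hq : l.length = q + 1) : c l = dl (PP A n c) l := by
  have e := PP_homotopy A n c l
  rw [PP_dl h A n hl hq, add_zero] at e
  rw [e]
  have hne : l ≠ [] := by
    rintro rfl
    simp at hq
  have e1 : c (l.map (tau (A + n))) = 0 := by
    by_contra hm
    obtain ⟨x, hx⟩ := List.exists_mem_of_ne_nil l hne
    have := h.supp _ (sm_tau' (A + n) hl) (by simpa using hq) hm (tau (A + n) x)
      (List.mem_map.2 ⟨x, hx, rfl⟩)
    have := (hK _ this).2
    have h2 : A + n ≤ (tau (A + n) x).2 := le_max_right _ _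
    omega
  have e2 : c (l.map (tau A)) = c l := by
    by_cases hA : ∀ x ∈ l, A ≤ x.2
    · congr 1
      conv_rhs => rw [← List.map_id l]
      refine List.map_congr_left fun x hx => ?_
      unfold tau
      rw [max_eq_left (hA x hx)]
      rfl
    · push Not at hA
      obtain ⟨x, hx, hxA⟩ := hA
      have h1 : c l = 0 := by
        by_contra hm
        have := (hK _ (h.supp l hl hq hm x hx)).1
        omega
      have h2 : c (l.map (tau A)) = 0 := by
        by_contra hm
        have := h.supp _ (sm_tau' A hl) (by simpa using hq) hm (tau A x)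
          (List.mem_map.2 ⟨x, hx, rfl⟩)
        have := (hK _ this).1
        unfold tau at this
        simp only [max_eq_right hxA.le] at this
        omega
      rw [h1, h2]
  rw [e1, e2, add_zero]

theorem ee_cyc {R : V → V → Prop} {q : ℕ} {K : Finset (V × ℤ)} {c : LC (V × ℤ)}
    (h : Cyc (RZ R) (q + 1) K c) {A : ℤ} {n : ℕ} (hK : ∀ z ∈ K, A < z.2 ∧ z.2 < A + n) :
    Cyc R q (open Classical in K.image Prod.fst) (ee A n c) := by
  have hs : ∀ l : List V, sm R l → sm (RZ R) (l.map fun v => (v, A)) := by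
    intro l hl x hx y hy
    obtain ⟨a, ha, rfl⟩ := List.mem_map.1 hx
    obtain ⟨b, hb, rfl⟩ := List.mem_map.1 hy
    exact ⟨hl a ha b hb, by simp⟩
  constructor
  · intro l hl hq
    unfold ee
    rw [dl_map (fun v => (v, A)) (PP A n c) l]
    have hl' := hs l hl
    rw [← PP_cob h hK hl' (by simpa using hq)]
    by_contra hm
    have hne : l ≠ [] := by
      rintro rfl
      simp at hq
    obtain ⟨x, hx⟩ := List.exists_mem_of_ne_nil l hne
    have := h.supp _ hl' (by simpa using hq) hm (x, A) (List.mem_map.2 ⟨x, hx, rfl⟩)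
    have := (hK _ this).1
    simp at this
  · intro l hl hq h0 x hx
    obtain ⟨z, hz, hz'⟩ := PP_supp h A n (hs l hl) (by simpa using hq) h0 (x, A)
      (List.mem_map.2 ⟨x, hx, rfl⟩)
    classical
    exact Finset.mem_image.2 ⟨z, hz, hz'⟩

/-- cut-off pull-back -/
def cf (A : ℤ) (f : LC V) : LC (V × ℤ) := fun l =>
  open Classical in if ∃ z l', l = z :: l' ∧ z.2 ≤ A then f (l.map Prod.fst) else 0

theorem cf_dl_bot {q : ℕ} {A : ℤ} {f : LC V} (hf : q = 0 → f [] = 0)
    {l : List (V × ℤ)} (hq : l.length = q + 1) (hl : ∀ x ∈ l, x.2 ≤ A) :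
    dl (cf A f) l = dl f (l.map Prod.fst) := by
  rw [← dl_map]
  refine dl_congr ?_
  intro m hm hm'
  rcases m with _ | ⟨z, m⟩
  · have : q = 0 := by
      simp only [List.length_nil] at hm'
      omega
    simp only [cf, List.map_nil, hf this, ite_self]
  · have hz : z.2 ≤ A := hl z (hm.subset (by simp))
    unfold cf
    rw [if_pos ⟨z, m, rfl, hz⟩]

theorem cf_top {A : ℤ} {f : LC V} {l : List (V × ℤ)} (hl : ∀ x ∈ l, A < x.2) :
    dl (cf A f) l = 0 := by
  refine dl_eq_zero ?_
  intro m hm _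
  unfold cf
  rw [if_neg]
  rintro ⟨z, m', rfl, hz⟩
  have := hl z (hm.subset (by simp))
  omega

/-- local finiteness -/
def LF (R : V → V → Prop) : Prop := ∀ v, ∃ F : Finset V, ∀ w, R v w → w ∈ F

theorem LF_RZ {R : V → V → Prop} (h : LF R) : LF (RZ R) := by
  intro z
  obtain ⟨F, hF⟩ := h z.1
  refine ⟨F ×ˢ Finset.Icc (z.2 - 1) (z.2 + 1), ?_⟩
  intro w hw
  rw [Finset.mem_product]
  refine ⟨hF _ hw.1, ?_⟩
  have := abs_le.1 hw.2
  rw [Finset.mem_Icc]
  omega

theorem step {R : V → V → Prop} (hR : LF R) {q : ℕ} {K : Finset (V × ℤ)} {c : LC (V × ℤ)}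
    (h : Cyc (RZ R) (q + 1) K c) {A : ℤ} {n : ℕ} (hn : 2 ≤ n)
    (hK : ∀ z ∈ K, A < z.2 ∧ z.2 < A + n)
    (he : Cob R q (ee A n c)) : Cob (RZ R) (q + 1) c := by
  classical
  obtain ⟨f, Kf, hf, hcf⟩ := he
  have hf0 : q = 0 → f [] = 0 := by
    intro hq
    by_contra hne
    exact (hf [] (by intro x hx; simp at hx) (by simp [hq]) hne).1 rfl
  choose F hF using hR
  -- the finite support
  let KV : Finset V := K.image Prod.fst ∪ Kf.biUnion F
  refine ⟨fun l => PP A n c l + dl (cf A f) l, KV ×ˢ Finset.Icc A (A + n), ?_, ?_⟩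
  · intro l hl hq h0
    have hne : l ≠ [] := by
      rintro rfl
      simp at hq
    refine ⟨hne, ?_⟩
    have hfst : sm R (l.map Prod.fst) := by
      intro x hx y hy
      obtain ⟨a, ha, rfl⟩ := List.mem_map.1 hx
      obtain ⟨b, hb, rfl⟩ := List.mem_map.1 hy
      exact (hl a ha b hb).1
    -- levels
    have hlow : ∀ x ∈ l, A ≤ x.2 := by
      intro x hx
      by_contra hxA
      push Not at hxA
      have hall : ∀ y ∈ l, y.2 ≤ A := by
        intro y hy
        have := abs_le.1 (hl x hx y hy).2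
        omega
      apply h0
      beta_reduce
      rw [PP_bot hall, cf_dl_bot hf0 hq hall, ← hcf _ hfst (by simpa using hq)]
      exact two_eq_zero _
    have hhigh : ∀ x ∈ l, x.2 < A + n := by
      intro x hx
      by_contra hxA
      push Not at hxA
      apply h0
      beta_reduce
      rw [PP_top h hK hl hq hx hxA, cf_top, add_zero]
      intro y hy
      have := abs_le.1 (hl x hx y hy).2
      omega
    intro x hx
    rw [Finset.mem_product, Finset.mem_Icc]
    refine ⟨?_, hlow x hx, (hhigh x hx).le⟩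
    by_contra hxK
    have hxK' : x.1 ∉ K.image Prod.fst ∧ x.1 ∉ Kf.biUnion F := by
      simpa only [KV, Finset.mem_union, not_or] using hxK
    apply h0
    beta_reduce
    have e1 : PP A n c l = 0 := by
      by_contra hm
      obtain ⟨z, hz, hz'⟩ := PP_supp h A n hl hq hm x hx
      exact hxK'.1 (Finset.mem_image.2 ⟨z, hz, hz'⟩)
    have e2 : dl (cf A f) l = 0 := by
      refine dl_eq_zero ?_
      intro m hm hm'
      by_contra hm0
      have hm1 : f (m.map Prod.fst) ≠ 0 := by
        intro h0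
        apply hm0
        unfold cf
        split_ifs
        · exact h0
        · rfl
      have hms : sm R (m.map Prod.fst) := sm_sublist hfst (hm.map _)
      obtain ⟨h1, h2⟩ := hf _ hms (by rw [List.length_map]; omega) hm1
      obtain ⟨y, hy⟩ := List.exists_mem_of_ne_nil _ h1
      have hyK := h2 y hy
      have hyl : y ∈ l.map Prod.fst := (hm.map Prod.fst).subset hy
      have := hF y x.1 (hfst y hyl x.1 (List.mem_map.2 ⟨x, hx, rfl⟩))
      exact hxK'.2 (Finset.mem_biUnion.2 ⟨y, hyK, this⟩)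
    rw [e1, e2, add_zero]
  · intro l hl hq
    rw [dl_add, dl_dl, add_zero]
    exact PP_cob h hK hl hq

theorem levels2 {K : Finset (V × ℤ)} : ∃ (A : ℤ) (n : ℕ), 2 ≤ n ∧ ∀ z ∈ K, A < z.2 ∧ z.2 < A + n := by
  obtain ⟨A, n, h⟩ := levels (K := K)
  refine ⟨A, n + 2, by omega, fun z hz => ?_⟩
  have := h z hz
  push_cast
  omega

theorem van_step {R : V → V → Prop} (hR : LF R) {q : ℕ} (h : Van R q) : Van (RZ R) (q + 1) := by
  intro K c hc
  obtain ⟨A, n, hn, hK⟩ := levels2 (K := K)
  exact step hR hc hn hK (h _ _ (ee_cyc hc hK))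

theorem cyc_add {R : V → V → Prop} {q : ℕ} {K : Finset V} {c d : LC V} (hc : Cyc R q K c)
    (hd : Cyc R q K d) : Cyc R q K (fun l => c l + d l) := by
  constructor
  · intro l hl hq
    rw [dl_add, hc.cl l hl hq, hd.cl l hl hq, add_zero]
  · intro l hl hq h0
    by_cases h1 : c l = 0
    · refine hd.supp l hl hq ?_
      intro h2
      apply h0
      rw [h1, h2, add_zero]
    · exact hc.supp l hl hq h1

theorem one_step {R : V → V → Prop} (hR : LF R) {q : ℕ} (h : One R q) : One (RZ R) (q + 1) := by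
  intro K c d hc hd
  obtain ⟨A, n, hn, hK⟩ := levels2 (K := K)
  rcases h _ _ _ (ee_cyc hc hK) (ee_cyc hd hK) with h1 | h1 | h1
  · exact Or.inl (step hR hc hn hK h1)
  · exact Or.inr (Or.inl (step hR hd hn hK h1))
  · refine Or.inr (Or.inr (step hR (cyc_add hc hd) hn hK ?_))
    have : ee A n (fun l => c l + d l) = fun l => ee A n c l + ee A n d l := by
      funext l
      exact PP_add _ _ _ _ _
    rw [this]
    exact h1

/-! ### base cases -/

theorem van_zero {R : V → V → Prop} (hR : ∀ v, R v v) : Van (RZ R) 0 := by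
  intro K c hc
  refine ⟨fun _ => 0, ∅, fun l _ _ h => absurd rfl h, ?_⟩
  intro l hl hq
  rw [dl_zero]
  obtain ⟨z, rfl⟩ := List.length_eq_one_iff.1 (by simpa using hq)
  have key : ∀ k : ℕ, c [z] = c [(z.1, z.2 + k)] := by
    intro k
    induction k with
    | zero => simp
    | succ k ih =>
      rw [ih]
      have := hc.cl [(z.1, z.2 + k), (z.1, z.2 + ((k + 1 : ℕ) : ℤ))] (by
        intro x hx y hy
        simp only [List.mem_cons, List.not_mem_nil, or_false] at hx hy
        rcases hx with rfl | rfl <;> rcases hy with rfl | rfl <;>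
          refine ⟨hR _, ?_⟩ <;> simp only [abs_le] <;> push_cast <;> constructor <;> omega) rfl
      simp only [dl_cons, dl_nil, add_zero] at this
      rw [eq_iff_add, add_comm]
      simpa using this
  obtain ⟨A, n, hK⟩ := levels (K := K)
  rw [key (A + n - z.2).toNat]
  by_contra hm
  have hsm : sm (RZ R) [(z.1, z.2 + ((A + n - z.2).toNat : ℤ))] := by
    intro x hx y hy
    simp only [List.mem_cons, List.not_mem_nil, or_false] at hx hy
    subst hx; subst hy
    exact ⟨hR _, by simp⟩
  have := hK _ (hc.supp _ hsm rfl hm (z.1, z.2 + ((A + n - z.2).toNat : ℤ)) (List.mem_singleton.2 rfl))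
  have h2 : A + n - z.2 ≤ ((A + n - z.2).toNat : ℤ) := Int.self_le_toNat _
  simp only at this
  omega

def RU : Unit → Unit → Prop := fun _ _ => True

theorem van_unit {q : ℕ} (hq : 0 < q) : Van RU q := by
  intro K c hc
  refine ⟨fun l => c (() :: l), {()}, ?_, ?_⟩
  · intro l _ hl _
    refine ⟨?_, fun x _ => by simp⟩
    rintro rfl
    simp at hl
    omega
  · intro l hl hq
    have := hc.cl (() :: l) (fun _ _ _ _ => trivial) (by simp [hq])
    rw [dl_cons] at this
    rw [eq_iff_add]
    exact this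

theorem one_unit : One RU 0 := by
  intro K c d _ _
  have key : ∀ c : LC Unit, c [()] = 0 → Cob RU 0 c := by
    intro c hc
    refine ⟨fun _ => 0, ∅, fun l _ _ h => absurd rfl h, ?_⟩
    intro l _ hl
    rw [dl_zero]
    obtain ⟨z, rfl⟩ := List.length_eq_one_iff.1 (by simpa using hl)
    exact hc
  have h2 : ∀ a : ZMod 2, a = 0 ∨ a = 1 := by decide
  rcases h2 (c [()]) with h | h
  · exact Or.inl (key c h)
  · rcases h2 (d [()]) with h' | h'
    · exact Or.inr (Or.inl (key d h'))
    · refine Or.inr (Or.inr (key _ ?_))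
      beta_reduce
      rw [h, h']
      decide

theorem LF_RU : LF RU := fun _ => ⟨{()}, fun w _ => by simp⟩

end Crest.Agent.R224.T641
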