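/-
R224 / topological half : local computation of the compactly supported cohomology of `ℝ^n` in
Alexander-Spanier cochains (helper641).
-/
import Crest.Agent.R224.T.ZLoc

set_option autoImplicit false

noncomputable section

open Metric

namespace Crest.Agent.R224.T641

/-! ### invariance under isomorphisms, `Fin n → ℤ` -/

theorem cob_iso {V W : Type} {R : V → V → Prop} {R' : W → W → Prop} (e : V ≃ W)
    (he : ∀ x y, R x y ↔ R' (e x) (e y)) {q : ℕ} {c : LC W}
    (h : Cob R q (fun l => c (l.map e))) : Cob R' q c := by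
  classical
  obtain ⟨f, K, h1, h2⟩ := h
  have hsm : ∀ l : List W, sm R' l → sm R (l.map e.symm) := by
    intro l hl x hx y hy
    obtain ⟨a, ha, rfl⟩ := List.mem_map.1 hx
    obtain ⟨b, hb, rfl⟩ := List.mem_map.1 hy
    rw [he]
    simpa using hl a ha b hb
  refine ⟨fun l => f (l.map e.symm), K.image e, ?_, ?_⟩
  · intro l hl hq h0
    obtain ⟨h3, h4⟩ := h1 _ (hsm l hl) (by simpa using hq) h0
    refine ⟨by simpa using h3, fun x hx => ?_⟩
    exact Finset.mem_image.2 ⟨e.symm x, h4 _ (List.mem_map.2 ⟨x, hx, rfl⟩), by simp⟩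
  · intro l hl hq
    rw [dl_map, ← h2 _ (hsm l hl) (by simpa using hq)]
    simp [List.map_map]

theorem cyc_iso {V W : Type} {R : V → V → Prop} {R' : W → W → Prop} (e : V ≃ W)
    (he : ∀ x y, R x y ↔ R' (e x) (e y)) {q : ℕ} {K : Finset W} {c : LC W}
    (h : Cyc R' q K c) :
    Cyc R q (open Classical in K.image e.symm) (fun l => c (l.map e)) := by
  classical
  have hsm : ∀ l : List V, sm R l → sm R' (l.map e) := by
    intro l hl x hx y hy
    obtain ⟨a, ha, rfl⟩ := List.mem_map.1 hx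
    obtain ⟨b, hb, rfl⟩ := List.mem_map.1 hy
    rw [← he]
    exact hl a ha b hb
  constructor
  · intro l hl hq
    rw [dl_map]
    exact h.cl _ (hsm l hl) (by simpa using hq)
  · intro l hl hq h0 x hx
    have := h.supp _ (hsm l hl) (by simpa using hq) h0 (e x) (List.mem_map.2 ⟨x, hx, rfl⟩)
    exact Finset.mem_image.2 ⟨e x, this, by simp⟩

theorem van_iso {V W : Type} {R : V → V → Prop} {R' : W → W → Prop} (e : V ≃ W)
    (he : ∀ x y, R x y ↔ R' (e x) (e y)) {q : ℕ} (h : Van R q) : Van R' q :=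
  fun _ _ hc => cob_iso e he (h _ _ (cyc_iso e he hc))

theorem one_iso {V W : Type} {R : V → V → Prop} {R' : W → W → Prop} (e : V ≃ W)
    (he : ∀ x y, R x y ↔ R' (e x) (e y)) {q : ℕ} (h : One R q) : One R' q := by
  intro K c d hc hd
  rcases h _ _ _ (cyc_iso e he hc) (cyc_iso e he hd) with h1 | h1 | h1
  · exact Or.inl (cob_iso e he h1)
  · exact Or.inr (Or.inl (cob_iso e he h1))
  · exact Or.inr (Or.inr (cob_iso e he h1))

/-- cube relation on `ℤ^n` -/
def RF (n : ℕ) (v w : Fin n → ℤ) : Prop := ∀ a, |v a - w a| ≤ 1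

/-- splitting off the last coordinate -/
def splitE (n : ℕ) : (Fin n → ℤ) × ℤ ≃ (Fin (n + 1) → ℤ) where
  toFun z := Fin.snoc z.1 z.2
  invFun v := (fun i => v i.castSucc, v (Fin.last n))
  left_inv z := by
    ext <;> simp
  right_inv v := by
    funext i
    refine Fin.lastCases ?_ (fun i => ?_) i <;> simp

theorem splitE_rel (n : ℕ) (z w : (Fin n → ℤ) × ℤ) :
    RZ (RF n) z w ↔ RF (n + 1) (splitE n z) (splitE n w) := by
  constructor
  · rintro ⟨h1, h2⟩ a
    refine Fin.lastCases ?_ (fun i => ?_) a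
    · simpa [splitE] using h2
    · simpa [splitE] using h1 i
  · intro h
    refine ⟨fun i => ?_, ?_⟩
    · simpa [splitE] using h i.castSucc
    · simpa [splitE] using h (Fin.last n)

theorem LF_RF (n : ℕ) : LF (RF n) := by
  intro v
  refine ⟨Fintype.piFinset fun a => Finset.Icc (v a - 1) (v a + 1), fun w hw => ?_⟩
  rw [Fintype.mem_piFinset]
  intro a
  have := abs_le.1 (hw a)
  rw [Finset.mem_Icc]
  omega

def unitE : Unit ≃ (Fin 0 → ℤ) where
  toFun _ := Fin.elim0
  invFun _ := ()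
  left_inv _ := rfl
  right_inv v := by
    funext i
    exact i.elim0

theorem unitE_rel (x y : Unit) : RU x y ↔ RF 0 (unitE x) (unitE y) :=
  ⟨fun _ a => a.elim0, fun _ => trivial⟩

theorem one_RF (n : ℕ) : One (RF n) n := by
  induction n with
  | zero => exact one_iso unitE unitE_rel one_unit
  | succ n ih => exact one_iso (splitE n) (splitE_rel n) (one_step (LF_RF n) ih)

theorem van_RF (n q : ℕ) (h : q ≠ n) : Van (RF n) q := by
  induction n generalizing q with
  | zero => exact van_iso unitE unitE_rel (van_unit (by omega))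
  | succ n ih =>
    refine van_iso (splitE n) (splitE_rel n) ?_
    rcases q with _ | q
    · exact van_zero fun v a => by simp
    · exact van_step (LF_RF n) (ih q (by omega))

/-! ### transfer to `ℝ^n` -/

/-- small lists in a metric space -/
def Sm {X : Type} [PseudoMetricSpace X] (ε : ℝ) (l : List X) : Prop := ∀ x ∈ l, ∀ y ∈ l, dist x y < ε

/-- closed at scale `ε` with support in `A` -/
structure ClAt {X : Type} [PseudoMetricSpace X] (j : ℕ) (ε : ℝ) (A : Set X) (b : LC X) : Prop where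
  van : ∀ l, l.length = j + 1 → Sm ε l → (∃ x ∈ l, x ∉ A) → b l = 0
  cl : ∀ l, l.length = j + 2 → Sm ε l → dl b l = 0

/-- exact with support in `A` -/
def ExAt {X : Type} [PseudoMetricSpace X] (j : ℕ) (A : Set X) (b : LC X) : Prop :=
  ∃ ε > 0, ∃ a : LC X, (∀ l, l.length = j → (∃ x ∈ l, x ∉ A) → a l = 0) ∧ a [] = 0 ∧
    ∀ l, l.length = j + 1 → Sm ε l → dl a l = b l

/-- embedding of the lattice -/
def em {n : ℕ} (s : ℝ) (v : Fin n → ℤ) : Fin n → ℝ := fun a => s * (v a : ℝ)

/-- rounding -/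
def rh {n : ℕ} (s : ℝ) (x : Fin n → ℝ) : Fin n → ℤ := fun a => ⌊x a / s⌋

theorem dist_em_rh {n : ℕ} {s : ℝ} (hs : 0 < s) (x : Fin n → ℝ) : dist x (em s (rh s x)) ≤ s := by
  rw [dist_pi_le_iff hs.le]
  intro a
  rw [Real.dist_eq]
  unfold em rh
  have h1 := Int.floor_le (x a / s)
  have h2 := Int.lt_floor_add_one (x a / s)
  have h3 : s * (x a / s) = x a := by field_simp
  have h4 : s * (⌊x a / s⌋ : ℝ) ≤ s * (x a / s) := mul_le_mul_of_nonneg_left h1 hs.le
  have h5 : s * (x a / s) ≤ s * ((⌊x a / s⌋ : ℝ) + 1) := mul_le_mul_of_nonneg_left h2.le hs.le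
  rw [abs_le]
  constructor <;> nlinarith

theorem rh_rel {n : ℕ} {s : ℝ} (hs : 0 < s) {x y : Fin n → ℝ} (h : dist x y < s) :
    RF n (rh s x) (rh s y) := by
  intro a
  unfold rh
  have h0 := lt_of_le_of_lt (dist_le_pi_dist x y a) h
  rw [Real.dist_eq, abs_lt] at h0
  have hx1 := Int.floor_le (x a / s)
  have hx2 := Int.lt_floor_add_one (x a / s)
  have hy1 := Int.floor_le (y a / s)
  have hy2 := Int.lt_floor_add_one (y a / s)
  have e1 : x a / s - y a / s < 1 := by
    rw [← sub_div, div_lt_one hs]; exact h0.2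
  have e2 : -1 < x a / s - y a / s := by
    rw [← sub_div, lt_div_iff₀ hs]; linarith [h0.1]
  have f1 : ((⌊x a / s⌋ : ℤ) : ℝ) - ⌊y a / s⌋ < 2 := by linarith
  have f2 : (-2 : ℝ) < ((⌊x a / s⌋ : ℤ) : ℝ) - ⌊y a / s⌋ := by linarith
  have g1 : ⌊x a / s⌋ - ⌊y a / s⌋ < 2 := by exact_mod_cast f1
  have g2 : -2 < ⌊x a / s⌋ - ⌊y a / s⌋ := by exact_mod_cast f2
  rw [abs_le]
  omega

theorem dist_em {n : ℕ} {s : ℝ} (hs : 0 < s) {v w : Fin n → ℤ} (h : RF n v w) :
    dist (em s v) (em s w) ≤ s := by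
  rw [dist_pi_le_iff hs.le]
  intro a
  rw [Real.dist_eq]
  unfold em
  rw [← mul_sub, abs_mul, abs_of_pos hs]
  have : |(v a : ℝ) - w a| ≤ 1 := by
    have := h a
    have h2 : ((|v a - w a| : ℤ) : ℝ) ≤ 1 := by exact_mod_cast this
    simpa using h2
  calc s * |(v a : ℝ) - w a| ≤ s * 1 := mul_le_mul_of_nonneg_left this hs.le
    _ = s := mul_one s

/-- finite sets of lattice points of bounded norm -/
theorem em_fin {n : ℕ} {s : ℝ} (hs : 0 < s) (r : ℝ) :
    ∃ K : Finset (Fin n → ℤ), ∀ v, em s v ∈ closedBall (0 : Fin n → ℝ) r → v ∈ K := by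
  refine ⟨Fintype.piFinset fun _ => Finset.Icc (-⌈r / s⌉) ⌈r / s⌉, fun v hv => ?_⟩
  rw [Fintype.mem_piFinset]
  intro a
  rw [mem_closedBall, dist_zero_right] at hv
  have h1 := (norm_le_pi_norm (em s v) a).trans hv
  unfold em at h1
  rw [Real.norm_eq_abs, abs_le] at h1
  have h2 := Int.le_ceil (r / s)
  have h3 : s * (r / s) = r := by field_simp
  rw [Finset.mem_Icc]
  constructor
  · have : (-(⌈r / s⌉ : ℝ)) ≤ v a := by
      by_contra hcon
      push Not at hcon
      have := mul_lt_mul_of_pos_left hcon hs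
      have := mul_le_mul_of_nonneg_left h2 hs.le
      linarith [h1.1]
    exact_mod_cast this
  · have : (v a : ℝ) ≤ ⌈r / s⌉ := by
      by_contra hcon
      push Not at hcon
      have := mul_lt_mul_of_pos_left hcon hs
      have := mul_le_mul_of_nonneg_left h2 hs.le
      linarith [h1.2]
    exact_mod_cast this

/-- bounded norm of finite sets of lattice points -/
theorem em_bdd {n : ℕ} (s : ℝ) (K : Finset (Fin n → ℤ)) :
    ∃ r, ∀ v ∈ K, em s v ∈ closedBall (0 : Fin n → ℝ) r := by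
  classical
  induction K using Finset.induction_on with
  | empty => exact ⟨0, by simp⟩
  | insert v K hv ih =>
    obtain ⟨r, hr⟩ := ih
    refine ⟨max r ‖em s v‖, fun w hw => ?_⟩
    rcases Finset.mem_insert.1 hw with rfl | hw
    · rw [mem_closedBall, dist_zero_right]; exact le_max_right _ _
    · exact closedBall_subset_closedBall (le_max_left _ _) (hr w hw)

theorem sm_em {n : ℕ} {s ε : ℝ} (hs : 0 < s) (hε : s < ε) {l : List (Fin n → ℤ)}
    (hl : sm (RF n) l) : Sm ε (l.map (em s)) := by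
  intro x hx y hy
  obtain ⟨a, ha, rfl⟩ := List.mem_map.1 hx
  obtain ⟨b, hb, rfl⟩ := List.mem_map.1 hy
  exact lt_of_le_of_lt (dist_em hs (hl a ha b hb)) hε

theorem cyc_of_clAt {n j : ℕ} {s ε r : ℝ} (hs : 0 < s) (hε : s < ε) {b : LC (Fin n → ℝ)}
    (hb : ClAt j ε (closedBall 0 r) b) {K : Finset (Fin n → ℤ)}
    (hK : ∀ v, em s v ∈ closedBall (0 : Fin n → ℝ) r → v ∈ K) :
    Cyc (RF n) j K (fun l => b (l.map (em s))) := by
  constructor
  · intro l hl hq
    rw [dl_map]
    exact hb.cl _ (by simpa using hq) (sm_em hs hε hl)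
  · intro l hl hq h0 x hx
    by_contra hxK
    apply h0
    refine hb.van _ (by simpa using hq) (sm_em hs hε hl) ⟨em s x, List.mem_map.2 ⟨x, hx, rfl⟩, ?_⟩
    exact fun h => hxK (hK x h)

theorem exAt_of_cob {n j : ℕ} {s ε r : ℝ} (hs : 0 < s) (hε : 2 * s = ε) {b : LC (Fin n → ℝ)}
    (hb : ClAt j ε (closedBall 0 r) b) (h : Cob (RF n) j (fun l => b (l.map (em s)))) :
    ∃ R, ExAt j (closedBall (0 : Fin n → ℝ) R) b := by
  classical
  obtain ⟨f, K, hf, hcf⟩ := h
  obtain ⟨r', hr'⟩ := em_bdd s K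
  set R := max r r' + s with hR
  let σ : (Fin n → ℝ) → (Fin n → ℝ) := fun x => em s (rh s x)
  let a' : LC (Fin n → ℝ) := fun l => pr id σ b l + f (l.map (rh s))
  have hσ : ∀ x, dist x (σ x) ≤ s := fun x => dist_em_rh hs x
  -- smallness of prism lists
  have hprism : ∀ l m : List (Fin n → ℝ), Sm s l → (∀ y ∈ m, ∃ x ∈ l, y = id x ∨ y = σ x) →
      Sm ε m := by
    intro l m hl hm y hy z hz
    obtain ⟨x, hx, hxy⟩ := hm y hy
    obtain ⟨w, hw, hwz⟩ := hm z hz
    have hxw := hl x hx w hw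
    rcases hxy with hxy | hxy <;> rcases hwz with hwz | hwz <;> rw [hxy, hwz]
    · show dist x w < ε
      linarith
    · have := dist_triangle x w (σ w)
      show dist x (σ w) < ε
      linarith [hσ w]
    · have := dist_triangle (σ x) x w
      rw [dist_comm (σ x) x] at this
      show dist (σ x) w < ε
      linarith [hσ x]
    · have := dist_em hs (rh_rel hs hxw)
      show dist (em s (rh s x)) (em s (rh s w)) < ε
      linarith
  have hmap : ∀ l : List (Fin n → ℝ), Sm s l → sm (RF n) (l.map (rh s)) := by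
    intro l hl x hx y hy
    obtain ⟨u, hu, rfl⟩ := List.mem_map.1 hx
    obtain ⟨v, hv, rfl⟩ := List.mem_map.1 hy
    exact rh_rel hs (hl u hu v hv)
  -- support of a'
  have hsupp : ∀ m : List (Fin n → ℝ), m.length = j → Sm s m →
      (m = [] ∨ ∃ x ∈ m, x ∉ closedBall (0 : Fin n → ℝ) R) → a' m = 0 := by
    intro m hm hms hcase
    rcases hcase with rfl | ⟨x, hx, hxR⟩
    · have : f [] = 0 := by
        by_contra hne
        exact (hf [] (by intro x hx; simp at hx) (by simpa using hm) hne).1 rfl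
      simp [a', this]
    · have hxR' : R < dist x 0 := by
        rw [mem_closedBall] at hxR
        exact not_le.1 hxR
      have hσR : R - s < dist (σ x) 0 := by
        have := dist_triangle x (σ x) 0
        linarith [hσ x]
      have e1 : pr id σ b m = 0 := by
        refine pr_eq_zero ?_
        intro m' h1 h2 h3
        have hm'ε := hprism m m' hms h1
        refine hb.van m' (by omega) hm'ε ?_
        have hrR : r ≤ R - s := by rw [hR]; simp
        rcases h2 x hx with h4 | h4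
        · refine ⟨id x, h4, ?_⟩
          rw [mem_closedBall]
          simp only [id]
          linarith
        · refine ⟨σ x, h4, ?_⟩
          rw [mem_closedBall]
          linarith
      have e2 : f (m.map (rh s)) = 0 := by
        by_contra hne
        have := (hf _ (hmap m hms) (by simpa using hm) hne).2 (rh s x) (List.mem_map.2 ⟨x, hx, rfl⟩)
        have := hr' _ this
        rw [mem_closedBall] at this
        have hrR : r' ≤ R - s := by rw [hR]; simp
        have : dist (σ x) 0 ≤ r' := this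
        linarith
      simp only [a', e1, e2, add_zero]
  refine ⟨R, s, hs, fun l => if l ≠ [] ∧ Sm s l ∧ ∀ x ∈ l, x ∈ closedBall (0 : Fin n → ℝ) R
    then a' l else 0, ?_, ?_, ?_⟩
  · rintro l - ⟨x, hx, hxR⟩
    refine if_neg ?_
    rintro ⟨-, -, h⟩
    exact hxR (h x hx)
  · simp
  · intro l hl hls
    have e1 : dl (fun l => if l ≠ [] ∧ Sm s l ∧ ∀ x ∈ l, x ∈ closedBall (0 : Fin n → ℝ) R
        then a' l else 0) l = dl a' l := by
      refine dl_congr ?_
      intro m hm hml
      have hms : Sm s m := fun x hx y hy => hls x (hm.subset hx) y (hm.subset hy)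
      by_cases h : m ≠ [] ∧ Sm s m ∧ ∀ x ∈ m, x ∈ closedBall (0 : Fin n → ℝ) R
      · rw [if_pos h]
      · rw [if_neg h]
        rw [hsupp m (by omega) hms]
        by_contra hcon
        push Not at hcon
        exact h ⟨hcon.1, hms, hcon.2⟩
    rw [e1]
    show dl (fun l => pr id σ b l + f (l.map (rh s))) l = b l
    rw [dl_add, dl_map]
    have hl' := hmap l hls
    rw [← hcf _ hl' (by simpa using hl)]
    have hh := homotopy id σ b l
    have hz : pr id σ (dl b) l = 0 := by
      refine pr_eq_zero ?_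
      intro m' h1 _ h3
      exact hb.cl m' (by omega) (hprism l m' hls h1)
    rw [hz, add_zero] at hh
    rw [hh, List.map_id]
    beta_reduce
    rw [List.map_map]
    have e3 : b (l.map σ) = b (l.map (em s ∘ rh s)) := rfl
    rw [e3]
    have := two_eq_zero (b (l.map (em s ∘ rh s)))
    rw [add_assoc, this, add_zero]

theorem ClAt.mono {X : Type} [PseudoMetricSpace X] {j : ℕ} {ε ε' : ℝ} {A A' : Set X} {b : LC X}
    (h : ClAt j ε A b) (hε : ε' ≤ ε) (hA : A ⊆ A') : ClAt j ε' A' b := by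
  have hs : ∀ l : List X, Sm ε' l → Sm ε l := fun l hl x hx y hy => (hl x hx y hy).trans_le hε
  exact ⟨fun l h1 h2 ⟨x, hx, hxA⟩ => h.van l h1 (hs l h2) ⟨x, hx, fun hx' => hxA (hA hx')⟩,
    fun l h1 h2 => h.cl l h1 (hs l h2)⟩

theorem loc_ne {n j : ℕ} (hj : j ≠ n) {ε r : ℝ} (hε : 0 < ε) {b : LC (Fin n → ℝ)}
    (hb : ClAt j ε (closedBall 0 r) b) : ∃ R, ExAt j (closedBall (0 : Fin n → ℝ) R) b := by
  have hs : 0 < ε / 2 := by linarith
  obtain ⟨K, hK⟩ := em_fin (n := n) hs r
  exact exAt_of_cob hs (by ring) hb (van_RF n j hj K _ (cyc_of_clAt hs (by linarith) hb hK))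

theorem loc_eq {n : ℕ} {ε₁ ε₂ r₁ r₂ : ℝ} (hε₁ : 0 < ε₁) (hε₂ : 0 < ε₂) {b₁ b₂ : LC (Fin n → ℝ)}
    (h₁ : ClAt n ε₁ (closedBall 0 r₁) b₁) (h₂ : ClAt n ε₂ (closedBall 0 r₂) b₂) :
    (∃ R, ExAt n (closedBall (0 : Fin n → ℝ) R) b₁) ∨
    (∃ R, ExAt n (closedBall (0 : Fin n → ℝ) R) b₂) ∨
    (∃ R, ExAt n (closedBall (0 : Fin n → ℝ) R) (fun l => b₁ l + b₂ l)) := by
  set ε := min ε₁ ε₂ with hε
  set r := max r₁ r₂ with hr
  have hε0 : 0 < ε := lt_min hε₁ hε₂
  have g₁ : ClAt n ε (closedBall 0 r) b₁ :=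
    h₁.mono (min_le_left _ _) (closedBall_subset_closedBall (le_max_left _ _))
  have g₂ : ClAt n ε (closedBall 0 r) b₂ :=
    h₂.mono (min_le_right _ _) (closedBall_subset_closedBall (le_max_right _ _))
  have g₃ : ClAt n ε (closedBall 0 r) (fun l => b₁ l + b₂ l) := by
    refine ⟨fun l k1 k2 k3 => ?_, fun l k1 k2 => ?_⟩
    · rw [g₁.van l k1 k2 k3, g₂.van l k1 k2 k3, add_zero]
    · rw [dl_add, g₁.cl l k1 k2, g₂.cl l k1 k2, add_zero]
  have hs : 0 < ε / 2 := by linarith
  obtain ⟨K, hK⟩ := em_fin (n := n) hs r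
  rcases one_RF n K _ _ (cyc_of_clAt hs (by linarith) g₁ hK) (cyc_of_clAt hs (by linarith) g₂ hK)
    with h | h | h
  · exact Or.inl (exAt_of_cob hs (by ring) g₁ h)
  · exact Or.inr (Or.inl (exAt_of_cob hs (by ring) g₂ h))
  · exact Or.inr (Or.inr (exAt_of_cob hs (by ring) g₃ h))

end Crest.Agent.R224.T641
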