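/-
R224 / topological half : node N1 (helper641), in the form of T/ASDefs.lean.
-/
import Crest.Agent.R224.T.RLoc
import Crest.Agent.R224.T.ASDefs

set_option autoImplicit false

noncomputable section

open Metric

namespace Crest.Agent.R224.AS

theorem dl_eq_T641 {X : Type} (c : List X → ZMod 2) (l : List X) : T641.dl c l = dl c l := by
  induction l generalizing c with
  | nil => simp [dl]
  | cons x l ih =>
    rw [T641.dl_cons, ih]
    rfl

theorem clAt_T641 {X : Type} [PseudoMetricSpace X] {j : ℕ} {ε : ℝ} {A : Set X}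
    {b : List X → ZMod 2} (h : ClAt j ε A b) : T641.ClAt j ε A b :=
  ⟨h.van, fun l h1 h2 => by rw [dl_eq_T641]; exact h.cl l h1 h2⟩

theorem exAt_T641 {X : Type} [PseudoMetricSpace X] {j : ℕ} {A : Set X}
    {b : List X → ZMod 2} (h : T641.ExAt j A b) : ExAt j A b := by
  obtain ⟨ε, hε, a, h1, h2, h3⟩ := h
  exact ⟨ε, hε, a, h1, h2, fun l h4 h5 => by rw [← dl_eq_T641]; exact h3 l h4 h5⟩

theorem nLocNe : NLocNe := by
  intro n j hj r ε hε b hb
  obtain ⟨R, hR⟩ := T641.loc_ne hj hε (clAt_T641 hb)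
  exact ⟨R, exAt_T641 hR⟩

theorem nLocEq : NLocEq := by
  intro n r ε hε b₁ b₂ h₁ h₂
  rcases T641.loc_eq hε hε (clAt_T641 h₁) (clAt_T641 h₂) with ⟨R, hR⟩ | ⟨R, hR⟩ | ⟨R, hR⟩
  · exact Or.inl ⟨R, exAt_T641 hR⟩
  · exact Or.inr (Or.inl ⟨R, exAt_T641 hR⟩)
  · exact Or.inr (Or.inr ⟨R, exAt_T641 hR⟩)

end Crest.Agent.R224.AS
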