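/-
R224 / S0346 : filling of Vietoris cycles, node NViet (helper602).
-/
import Crest.Agent.R224.T.ASDesc

set_option autoImplicit false

noncomputable section

open Set

namespace Crest.Agent.R224.AS.Viet602

variable {J : Type} [Fintype J] [DecidableEq J]

/-- `1` iff `l` has no repetitions and its set of elements is `τ` -/
def ps : Finset J → List J → ZMod 2
  | τ, [] => if τ = ∅ then 1 else 0
  | τ, v :: l => if v ∈ τ then ps (τ.erase v) l else 0

theorem ps_ne {τ : Finset J} {l : List J} (h : ps τ l ≠ 0) : l.Nodup ∧ l.toFinset = τ := by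
  induction l generalizing τ with
  | nil =>
    simp only [ps] at h
    split_ifs at h with h0
    · simp [h0]
    · exact (h rfl).elim
  | cons v l ih =>
    simp only [ps] at h
    split_ifs at h with h0
    · obtain ⟨h1, h2⟩ := ih h
      refine ⟨List.nodup_cons.2 ⟨fun hv => ?_, h1⟩, ?_⟩
      · have : v ∈ τ.erase v := h2 ▸ List.mem_toFinset.2 hv
        exact (Finset.notMem_erase v τ) this
      · rw [List.toFinset_cons, h2, Finset.insert_erase h0]
    · exact (h rfl).elim

theorem ps_self {l : List J} (h : l.Nodup) : ps l.toFinset l = 1 := by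
  induction l with
  | nil => simp [ps]
  | cons v l ih =>
    rw [List.nodup_cons] at h
    simp only [ps, List.toFinset_cons, Finset.mem_insert_self, if_true]
    rw [Finset.erase_insert (by simpa using h.1), ih h.2]

theorem dl_ps (τ : Finset J) (l : List J) : dl (ps τ) l = bdS (fun τ => ps τ l) τ := by
  induction l generalizing τ with
  | nil =>
    rw [dl_nil]
    refine (bdS_eq_zero fun j _ => ?_).symm
    simp [ps]
  | cons v l ih =>
    rw [dl_cons]
    by_cases hv : v ∈ τ
    · have e1 : (fun l' => ps τ (v :: l')) = ps (τ.erase v) := by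
        funext l'
        simp [ps, hv]
      rw [e1, ih]
      have e2 : bdS (fun τ => ps τ l) (τ.erase v)
          = ps τ l + bdS (fun τ => ps τ (v :: l)) τ := by
        unfold bdS
        have hc : (τ.erase v)ᶜ = insert v τᶜ := by
          ext x
          simp only [Finset.mem_compl, Finset.mem_erase, Finset.mem_insert]
          tauto
        rw [hc, Finset.sum_insert (by simpa using hv), Finset.insert_erase hv]
        congr 1
        refine Finset.sum_congr rfl fun j hj => ?_
        have hj' : j ∉ τ := by simpa using hj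
        have hjv : j ≠ v := fun h => hj' (h ▸ hv)
        simp only [ps, Finset.mem_insert, hv, or_true, if_true]
        rw [Finset.erase_insert_of_ne hjv]
      rw [e2, ← add_assoc, two_add, zero_add]
    · have e1 : (fun l' => ps τ (v :: l')) = fun _ => 0 := by
        funext l'
        simp [ps, hv]
      rw [e1, dl_zero, add_zero]
      unfold bdS
      rw [Finset.sum_eq_single v]
      · simp only [ps, Finset.mem_insert_self, if_true]
        rw [Finset.erase_insert hv]
      · intro j _ hj
        simp [ps, hv, Ne.symm hj]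
      · intro h
        exact (h (by simpa using hv)).elim

theorem dl_nodup (χ : List J → ZMod 2) {l : List J} (h : l.Nodup) :
    dl χ l = ∑ i ∈ l.toFinset, χ (l.erase i) := by
  induction l generalizing χ with
  | nil => simp
  | cons v l ih =>
    rw [List.nodup_cons] at h
    rw [dl_cons, ih _ h.2, List.toFinset_cons, Finset.sum_insert (by simpa using h.1)]
    rw [List.erase_cons_head]
    congr 1
    refine Finset.sum_congr rfl fun i hi => ?_
    have : i ≠ v := fun hiv => h.1 (hiv ▸ List.mem_toFinset.1 hi)
    rw [List.erase_cons_tail (by simpa using this.symm)]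

theorem sort_erase [LinearOrder J] (σ : Finset J) (i : J) :
    (σ.sort (· ≤ ·)).erase i = (σ.erase i).sort (· ≤ ·) := by
  have hnd : (σ.sort (· ≤ ·)).Nodup := Finset.sort_nodup _ _
  have h1 : ((σ.sort (· ≤ ·)).erase i).toFinset = σ.erase i := by
    ext x
    rw [List.mem_toFinset, hnd.mem_erase_iff, Finset.mem_sort, Finset.mem_erase]
  have h2 : ((σ.sort (· ≤ ·)).erase i).Nodup := hnd.erase i
  have h3 : List.Pairwise (· ≤ ·) ((σ.sort (· ≤ ·)).erase i) :=
    (Finset.pairwise_sort σ (· ≤ ·)).sublist List.erase_sublist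
  rw [← h1]
  exact ((List.toFinset_sort (· ≤ ·) h2).2 h3).symm

theorem sum_dl_sort [LinearOrder J] (C : Finset J → ZMod 2) (hC : ∀ ρ, bdS C ρ = 0)
    (χ : List J → ZMod 2) : ∑ σ : Finset J, C σ * dl χ (σ.sort (· ≤ ·)) = 0 := by
  have e1 : ∀ σ : Finset J, dl χ (σ.sort (· ≤ ·))
      = ∑ i ∈ σ, χ ((σ.erase i).sort (· ≤ ·)) := by
    intro σ
    rw [dl_nodup χ (Finset.sort_nodup _ _), Finset.sort_toFinset]
    exact Finset.sum_congr rfl fun i _ => by rw [sort_erase]
  simp only [e1, Finset.mul_sum]
  have e2 : ∑ ρ : Finset J, ∑ i ∈ ρᶜ, C (insert i ρ) * χ (ρ.sort (· ≤ ·)) = 0 := by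
    refine Finset.sum_eq_zero fun ρ _ => ?_
    rw [← Finset.sum_mul]
    show bdS C ρ * _ = 0
    rw [hC, zero_mul]
  rw [← e2, Finset.sum_sigma', Finset.sum_sigma']
  refine Finset.sum_bij' (fun a _ => ⟨a.1.erase a.2, a.2⟩) (fun a _ => ⟨insert a.2 a.1, a.2⟩)
    ?_ ?_ ?_ ?_ ?_
  · rintro ⟨σ, i⟩ h
    simp only [Finset.mem_sigma, Finset.mem_univ, true_and, Finset.mem_compl] at h ⊢
    exact Finset.notMem_erase i σ
  · rintro ⟨ρ, i⟩ h
    simp only [Finset.mem_sigma, Finset.mem_univ, true_and, Finset.mem_compl] at h ⊢
    exact Finset.mem_insert_self i ρ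
  · rintro ⟨σ, i⟩ h
    simp only [Finset.mem_sigma, Finset.mem_univ, true_and] at h
    simp only [Finset.insert_erase h]
  · rintro ⟨ρ, i⟩ h
    simp only [Finset.mem_sigma, Finset.mem_univ, true_and, Finset.mem_compl] at h
    simp only [Finset.erase_insert h]
  · rintro ⟨σ, i⟩ h
    simp only [Finset.mem_sigma, Finset.mem_univ, true_and] at h
    simp only [Finset.insert_erase h]

theorem telescope (N : ℕ) (a : ℕ → ZMod 2) :
    ∑ k ∈ Finset.range N, (a k + a (k + 1)) = a 0 + a N := by
  induction N with
  | zero => simp [two_add]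
  | succ N ih =>
    rw [Finset.sum_range_succ, ih]
    have : ∀ x y z : ZMod 2, x + y + (y + z) = x + z := by decide
    exact this _ _ _

theorem nViet : NViet := by
  intro J _ _ m hm C hCc hC f N hf0 hfN
  classical
  let _ : LinearOrder J := LinearOrder.lift' (Fintype.equivFin J) (Fintype.equivFin J).injective
  have hCall : ∀ ρ, bdS C ρ = 0 := by
    intro ρ
    by_cases h : ρ.card = m
    · exact hC ρ h
    · refine bdS_eq_zero fun j hj => ?_
      by_contra hne
      have := hCc _ hne
      rw [Finset.card_insert_of_notMem hj] at this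
      omega
  let Ls : Finset J → List J := fun σ => σ.sort (· ≤ ·)
  let D : Finset J → ZMod 2 := fun τ =>
    ∑ σ : Finset J, C σ * ∑ k ∈ Finset.range N, pr (f k) (f (k + 1)) (ps τ) (Ls σ)
  refine ⟨D, fun τ hτ => ?_, fun τ _ => ?_⟩
  · obtain ⟨σ, -, hσ⟩ := Finset.exists_ne_zero_of_sum_ne_zero hτ
    have hCσ : C σ ≠ 0 := left_ne_zero_of_mul hσ
    obtain ⟨k, hk, hk'⟩ := Finset.exists_ne_zero_of_sum_ne_zero (right_ne_zero_of_mul hσ)
    have hex : ∃ l₁ l₂ : List J, ∃ v : J, Ls σ = l₁ ++ v :: l₂ ∧
        ps τ (l₁.map (f k) ++ f k v :: f (k + 1) v :: l₂.map (f (k + 1))) ≠ 0 := by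
      by_contra hcon
      push Not at hcon
      exact hk' (pr_eq_zero fun l₁ l₂ v h => hcon l₁ l₂ v h)
    obtain ⟨l₁, l₂, v, hl, hne⟩ := hex
    obtain ⟨hnd, htf⟩ := ps_ne hne
    have hlen : (Ls σ).length = m + 1 := by
      rw [← hCc σ hCσ]
      exact Finset.length_sort _
    have hmem : ∀ x ∈ Ls σ, x ∈ σ := fun x hx => (Finset.mem_sort _).1 hx
    refine ⟨?_, σ, hCσ, k, Finset.mem_range.1 hk, fun x hx => ?_⟩
    · rw [← htf, List.toFinset_card_of_nodup hnd]
      rw [hl] at hlen
      simp only [List.length_append, List.length_cons, List.length_map] at hlen ⊢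
      omega
    · rw [← htf, List.mem_toFinset] at hx
      rw [hl] at hmem
      simp only [List.mem_append, List.mem_cons, List.mem_map] at hx hmem
      rw [Finset.mem_union, Finset.mem_image, Finset.mem_image]
      rcases hx with ⟨y, hy, rfl⟩ | rfl | rfl | ⟨y, hy, rfl⟩
      · exact Or.inl ⟨y, hmem y (Or.inl hy), rfl⟩
      · exact Or.inl ⟨v, hmem v (Or.inr (Or.inl rfl)), rfl⟩
      · exact Or.inr ⟨v, hmem v (Or.inr (Or.inl rfl)), rfl⟩
      · exact Or.inr ⟨y, hmem y (Or.inr (Or.inr hy)), rfl⟩
  · have e1 : bdS D τ = ∑ σ : Finset J, C σ * ∑ k ∈ Finset.range N,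
        pr (f k) (f (k + 1)) (dl (ps τ)) (Ls σ) := by
      have e0 : dl (ps τ) = fun l => ∑ j ∈ τᶜ, ps (insert j τ) l := by
        funext l
        exact dl_ps τ l
      rw [e0]
      unfold bdS
      simp only [D]
      rw [Finset.sum_comm]
      refine Finset.sum_congr rfl fun σ _ => ?_
      rw [← Finset.mul_sum, Finset.sum_comm]
      congr 1
      exact Finset.sum_congr rfl fun k _ => (pr_sum _ _ _ _ _).symm
    have e2 : ∀ σ : Finset J, ∑ k ∈ Finset.range N, pr (f k) (f (k + 1)) (dl (ps τ)) (Ls σ)
        = dl (fun l => ∑ k ∈ Finset.range N, pr (f k) (f (k + 1)) (ps τ) l) (Ls σ)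
          + (ps τ ((Ls σ).map (f 0)) + ps τ ((Ls σ).map (f N))) := by
      intro σ
      rw [dl_sum, ← telescope N fun k => ps τ ((Ls σ).map (f k)), ← Finset.sum_add_distrib]
      refine Finset.sum_congr rfl fun k _ => ?_
      rw [← dl_pr, ← add_assoc, two_add, zero_add]
    rw [e1]
    simp only [e2, mul_add]
    rw [Finset.sum_add_distrib, sum_dl_sort C hCall, zero_add]
    rw [Finset.sum_eq_single τ]
    · by_cases hτ : C τ = 0
      · rw [hτ]; ring
      · have h1 : (Ls τ).map (f 0) = Ls τ := by
          conv_rhs => rw [← List.map_id (Ls τ)]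
          exact List.map_congr_left fun x hx => hf0 τ hτ x ((Finset.mem_sort _).1 hx)
        have h2 : ps τ (Ls τ) = 1 := by
          have := ps_self (Finset.sort_nodup τ (· ≤ ·))
          rwa [Finset.sort_toFinset] at this
        have h3 : ps τ ((Ls τ).map (f N)) = 0 := by
          by_contra hne
          have hnd := (ps_ne hne).1
          have hlen : (Ls τ).length = m + 1 := by
            rw [← hCc τ hτ]
            exact Finset.length_sort _
          match hL : Ls τ with
          | [] => rw [hL] at hlen; simp at hlen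
          | [a] => rw [hL] at hlen; simp at hlen; omega
          | a :: b :: l =>
            rw [hL] at hnd
            simp only [List.map_cons, List.nodup_cons, List.mem_cons] at hnd
            exact hnd.1 (Or.inl (hfN a b))
        rw [h1, h2, h3]
        ring
    · intro σ _ hστ
      by_cases hσ : C σ = 0
      · rw [hσ]; ring
      · have h1 : (Ls σ).map (f 0) = Ls σ := by
          conv_rhs => rw [← List.map_id (Ls σ)]
          exact List.map_congr_left fun x hx => hf0 σ hσ x ((Finset.mem_sort _).1 hx)
        have h2 : ps τ (Ls σ) = 0 := by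
          by_contra hne
          have := (ps_ne hne).2
          rw [Finset.sort_toFinset] at this
          exact hστ this
        have h3 : ps τ ((Ls σ).map (f N)) = 0 := by
          by_contra hne
          have hnd := (ps_ne hne).1
          have hlen : (Ls σ).length = m + 1 := by
            rw [← hCc σ hσ]
            exact Finset.length_sort _
          match hL : Ls σ with
          | [] => rw [hL] at hlen; simp at hlen
          | [a] => rw [hL] at hlen; simp at hlen; omega
          | a :: b :: l =>
            rw [hL] at hnd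
            simp only [List.map_cons, List.nodup_cons, List.mem_cons] at hnd
            exact hnd.1 (Or.inl (hfN a b))
        rw [h1, h2, h3]
        ring
    · intro h
      exact (h (Finset.mem_univ _)).elim

end Crest.Agent.R224.AS.Viet602
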