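/- R224 / S0346, topological half: assembly from NSub and NT2L (helper276). -/
import Crest.Agent.R224.T.Top
import Crest.Agent.R224.T.Fill
import Crest.Agent.R224.T.Man
import Crest.Agent.R224.T.Lift
import Crest.Agent.R224.T.UniqM
import Crest.Agent.R224.T.Class
import Crest.Agent.R224.T.Exc
import Crest.Agent.R224.T.LocAll
import Crest.Agent.R224.T.Prism

set_option autoImplicit false

namespace Crest.Agent.R224.T

theorem nTop_final (hSub : NSub) (hT2 : NT2L) : NTop := by
  have hdd : NDD := fun X _ n c => bd_bd n c
  have hP : NPrism := nPrism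
  have hF : NFill := nFill hP
  have hE : NExc := exc_holds hSub
  have hS : NStar := nStar hdd hSub hP
  have hL : NLocAll := nLocAll hP hSub hF
  have hM : NMan := man_holds hE hS hL
  have hC : NClass := nClass hE hL hS
  have hU : NUniq := nUniq hdd hSub hP hL
  have hUM : NUniqM := nUniqM hE hU
  have hFu : NFund := nFund hdd hSub hM hC hUM
  exact nTop_of hF hM (nLift hFu hE) hT2

end Crest.Agent.R224.T
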