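/-
R224 / S0346, topological half, plan B (helper183): from the list form of the vanishing of compactly
supported Alexander-Spanier cohomology to HC1, HC2 of Transfer.lean.
-/
import Crest.Agent.R224.T.GeoAct

set_option autoImplicit false
set_option linter.unusedSectionVars false

namespace Crest.Agent.R224.Tp

open _root_.Topology Set Filter

section lst
variable {X : Type}

/-- coboundary of list cochains -/
def ldl : (List X → ZMod 2) → List X → ZMod 2
  | _, [] => 0
  | φ, v :: l => φ l + ldl (fun l' => φ (v :: l')) l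

variable [PseudoMetricSpace X]

/-- small lists -/
def LSm (ε : ℝ) (l : List X) : Prop := ∀ x ∈ l, ∀ y ∈ l, dist x y < ε

/-- the list form (node of the zigzag team) -/
def HCList (X : Type) [PseudoMetricSpace X] (q : ℕ) : Prop :=
  ∀ (b : List X → ZMod 2) (K : Set X) (ε : ℝ), IsCompact K → 0 < ε →
    (∀ l : List X, l.length = q + 1 → LSm ε l → (∃ x ∈ l, x ∉ K) → b l = 0) →
    (∀ l : List X, l.length = q + 2 → LSm ε l → ldl b l = 0) →
    ∃ K' : Set X, IsCompact K' ∧ ∃ ε' : ℝ, 0 < ε' ∧ ∃ a : List X → ZMod 2,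
      (∀ l : List X, l.length = q → (∃ x ∈ l, x ∉ K') → a l = 0) ∧
      ∀ l : List X, l.length = q + 1 → LSm ε' l → ldl a l = b l

end lst

section
variable {E : Type} [MetricSpace E] [LocallyCompactSpace E]

/-- Lebesgue number around a compact set -/
theorem exists_leb (K1 : Set E) (hK1 : IsCompact K1) (P : Set E → Prop)
    (hP : ∀ x, ∃ U ∈ 𝓝 x, P U) (hmono : ∀ U V : Set E, U ⊆ V → P V → P U) :
    ∃ δ : ℝ, 0 < δ ∧ ∀ x ∈ K1, P (Metric.ball x δ) := by
  have h : ∀ x : E, ∃ U : Set E, IsOpen U ∧ x ∈ U ∧ P U := by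
    intro x
    obtain ⟨U, hU, hPU⟩ := hP x
    obtain ⟨V, hVU, hV, hxV⟩ := mem_nhds_iff.1 hU
    exact ⟨V, hV, hxV, hmono _ _ hVU hPU⟩
  choose U hUo hUx hUP using h
  obtain ⟨δ, hδ, hL⟩ := lebesgue_number_lemma_of_metric hK1 (c := U) hUo
    (fun x _ => mem_iUnion.2 ⟨x, hUx x⟩)
  refine ⟨δ, hδ, fun x hx => ?_⟩
  obtain ⟨i, hi⟩ := hL x hx
  exact hmono _ _ hi (hUP i)

theorem hc1_of_list (h : HCList E 1) : HC1 E := by
  classical
  intro c hc hK
  obtain ⟨K, hK, hK0⟩ := hK
  obtain ⟨K1, hK1, hKK1⟩ := exists_compact_superset hK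
  let b : List E → ZMod 2 := fun l => match l with
    | [x, y] => if x ∈ K1 ∧ y ∈ K1 then c x y else 0
    | _ => 0
  have hb2 : ∀ x y, b [x, y] = if x ∈ K1 ∧ y ∈ K1 then c x y else 0 := fun _ _ => rfl
  -- near every point `b = c` or both vanish
  have hloc : ∀ x, ∃ U ∈ 𝓝 x, (∀ p ∈ U, ∀ q ∈ U, b [p, q] = c p q) ∧
      ∀ p ∈ U, ∀ q ∈ U, ∀ r ∈ U, c p q + c q r = c p r := by
    intro x
    obtain ⟨V, hV, hVc⟩ := hc x
    by_cases hx : x ∈ K
    · refine ⟨V ∩ interior K1, inter_mem hV (isOpen_interior.mem_nhds (hKK1 hx)), ?_, ?_⟩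
      · intro p hp q hq
        rw [hb2, if_pos ⟨interior_subset hp.2, interior_subset hq.2⟩]
      · exact fun p hp q hq r hr => hVc p hp.1 q hq.1 r hr.1
    · obtain ⟨W, hW, hW0⟩ := hK0 x hx
      refine ⟨V ∩ W, inter_mem hV hW, ?_, ?_⟩
      · intro p hp q hq
        rw [hb2, hW0 p hp.2 q hq.2, ite_self]
      · exact fun p hp q hq r hr => hVc p hp.1 q hq.1 r hr.1
  obtain ⟨δ, hδ, hδP⟩ := exists_leb K1 hK1
    (fun U => (∀ p ∈ U, ∀ q ∈ U, b [p, q] = c p q) ∧
      ∀ p ∈ U, ∀ q ∈ U, ∀ r ∈ U, c p q + c q r = c p r) hloc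
    (fun U V hUV hV => ⟨fun p hp q hq => hV.1 p (hUV hp) q (hUV hq),
      fun p hp q hq r hr => hV.2 p (hUV hp) q (hUV hq) r (hUV hr)⟩)
  obtain ⟨K', hK', ε', hε', a, ha0, had⟩ := h b K1 δ hK1 hδ (by
    intro l hl _ hx
    match l, hl with
    | [x, y], _ =>
      rw [hb2, if_neg]
      rintro ⟨h1, h2⟩
      obtain ⟨z, hz, hzK⟩ := hx
      simp only [List.mem_cons, List.not_mem_nil, or_false] at hz
      rcases hz with rfl | rfl
      · exact hzK h1
      · exact hzK h2) (by
    intro l hl hs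
    match l, hl with
    | [x, y, z], _ =>
      have e : ldl b [x, y, z] = b [y, z] + (b [x, z] + (b [x, y] + 0)) := rfl
      rw [e]
      have hd : ∀ p ∈ [x, y, z], ∀ q ∈ [x, y, z], dist p q < δ := hs
      by_cases hex : ∃ p ∈ [x, y, z], p ∈ K1
      · obtain ⟨p, hp, hpK⟩ := hex
        obtain ⟨g1, g2⟩ := hδP p hpK
        have m : ∀ q ∈ [x, y, z], q ∈ Metric.ball p δ := fun q hq => by
          rw [Metric.mem_ball]; exact hd q hq p hp
        have mx := m x (by simp)
        have my := m y (by simp)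
        have mz := m z (by simp)
        rw [g1 y my z mz, g1 x mx z mz, g1 x mx y my]
        have h3 := g2 x mx y my z mz
        have h4 := two_mul_z (c x z)
        linear_combination h3 + h4
      · push Not at hex
        have mx := hex x (by simp)
        have my := hex y (by simp)
        rw [hb2, hb2, hb2, if_neg (fun h => my h.1), if_neg (fun h => mx h.1),
          if_neg (fun h => mx h.1)]
        simp)
  refine ⟨fun x => a [x], ?_, K', hK', fun x hx => ha0 [x] rfl ⟨x, by simp, hx⟩⟩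
  intro x
  obtain ⟨U, hU, hUb, -⟩ := hloc x
  refine ⟨U ∩ Metric.ball x (ε' / 2), inter_mem hU (Metric.ball_mem_nhds _ (by positivity)), ?_⟩
  rintro p ⟨hp, hp'⟩ q ⟨hq, hq'⟩
  have h1 := had [p, q] rfl (by
    rw [Metric.mem_ball] at hp' hq'
    have hpq : dist p q < ε' := by
      have := dist_triangle_right p q x
      linarith
    intro u hu v hv
    simp only [List.mem_cons, List.not_mem_nil, or_false] at hu hv
    rcases hu with rfl | rfl <;> rcases hv with rfl | rfl
    · simpa using hε'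
    · exact hpq
    · rw [dist_comm]; exact hpq
    · simpa using hε')
  have e : ldl a [p, q] = a [q] + (a [p] + 0) := rfl
  rw [e, hUb p hp q hq] at h1
  rw [← h1]
  ring

theorem hc2_of_list (h : HCList E 2) : HC2 E := by
  classical
  intro c hc hK
  obtain ⟨K, hK, hK0⟩ := hK
  obtain ⟨K1, hK1, hKK1⟩ := exists_compact_superset hK
  let b : List E → ZMod 2 := fun l => match l with
    | [x, y, z] => if x ∈ K1 ∧ y ∈ K1 ∧ z ∈ K1 then c x y z else 0
    | _ => 0
  have hb2 : ∀ x y z, b [x, y, z] = if x ∈ K1 ∧ y ∈ K1 ∧ z ∈ K1 then c x y z else 0 :=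
    fun _ _ _ => rfl
  let P : Set E → Prop := fun U => (∀ p ∈ U, ∀ q ∈ U, ∀ r ∈ U, b [p, q, r] = c p q r) ∧
      ∀ p ∈ U, ∀ q ∈ U, ∀ r ∈ U, ∀ t ∈ U, c q r t + c p r t + c p q t + c p q r = 0
  have hloc : ∀ x, ∃ U ∈ 𝓝 x, P U := by
    intro x
    obtain ⟨V, hV, hVc⟩ := hc x
    by_cases hx : x ∈ K
    · refine ⟨V ∩ interior K1, inter_mem hV (isOpen_interior.mem_nhds (hKK1 hx)), ?_, ?_⟩
      · intro p hp q hq r hr
        rw [hb2, if_pos ⟨interior_subset hp.2, interior_subset hq.2, interior_subset hr.2⟩]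
      · exact fun p hp q hq r hr t ht => hVc p hp.1 q hq.1 r hr.1 t ht.1
    · obtain ⟨W, hW, hW0⟩ := hK0 x hx
      refine ⟨V ∩ W, inter_mem hV hW, ?_, ?_⟩
      · intro p hp q hq r hr
        rw [hb2, hW0 p hp.2 q hq.2 r hr.2, ite_self]
      · exact fun p hp q hq r hr t ht => hVc p hp.1 q hq.1 r hr.1 t ht.1
  obtain ⟨δ, hδ, hδP⟩ := exists_leb K1 hK1 P hloc
    (fun U V hUV hV => ⟨fun p hp q hq r hr => hV.1 p (hUV hp) q (hUV hq) r (hUV hr),
      fun p hp q hq r hr t ht => hV.2 p (hUV hp) q (hUV hq) r (hUV hr) t (hUV ht)⟩)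
  obtain ⟨K', hK', ε', hε', a, ha0, had⟩ := h b K1 δ hK1 hδ (by
    intro l hl _ hx
    match l, hl with
    | [x, y, z], _ =>
      rw [hb2, if_neg]
      rintro ⟨h1, h2, h3⟩
      obtain ⟨w, hw, hwK⟩ := hx
      simp only [List.mem_cons, List.not_mem_nil, or_false] at hw
      rcases hw with rfl | rfl | rfl
      · exact hwK h1
      · exact hwK h2
      · exact hwK h3) (by
    intro l hl hs
    match l, hl with
    | [x, y, z, w], _ =>
      have e : ldl b [x, y, z, w] =
        b [y, z, w] + (b [x, z, w] + (b [x, y, w] + (b [x, y, z] + 0))) := rfl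
      rw [e]
      have hd : ∀ p ∈ [x, y, z, w], ∀ q ∈ [x, y, z, w], dist p q < δ := hs
      by_cases hex : ∃ p ∈ [x, y, z, w], p ∈ K1
      · obtain ⟨p, hp, hpK⟩ := hex
        obtain ⟨g1, g2⟩ := hδP p hpK
        have m : ∀ q ∈ [x, y, z, w], q ∈ Metric.ball p δ := fun q hq => by
          rw [Metric.mem_ball]; exact hd q hq p hp
        have mx := m x (by simp)
        have my := m y (by simp)
        have mz := m z (by simp)
        have mw := m w (by simp)
        rw [g1 y my z mz w mw, g1 x mx z mz w mw, g1 x mx y my w mw, g1 x mx y my z mz]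
        have h3 := g2 x mx y my z mz w mw
        linear_combination h3
      · push Not at hex
        have mx := hex x (by simp)
        have my := hex y (by simp)
        rw [hb2, hb2, hb2, hb2, if_neg (fun h => my h.1), if_neg (fun h => mx h.1),
          if_neg (fun h => mx h.1), if_neg (fun h => mx h.1)]
        simp)
  refine ⟨fun x y => a [x, y], ?_, K', hK', ?_⟩
  · intro x
    obtain ⟨U, hU, hUb, -⟩ := hloc x
    refine ⟨U ∩ Metric.ball x (ε' / 2), inter_mem hU (Metric.ball_mem_nhds _ (by positivity)), ?_⟩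
    rintro p ⟨hp, hp'⟩ q ⟨hq, hq'⟩ r ⟨hr, hr'⟩
    have h1 := had [p, q, r] rfl (by
      have hall : ∀ u ∈ [p, q, r], dist u x < ε' / 2 := by
        intro u hu
        simp only [List.mem_cons, List.not_mem_nil, or_false] at hu
        rcases hu with rfl | rfl | rfl
        · exact hp'
        · exact hq'
        · exact hr'
      intro u hu v hv
      have h2 := hall u hu
      have h3 := hall v hv
      have := dist_triangle_right u v x
      linarith)
    have e : ldl a [p, q, r] = a [q, r] + (a [p, r] + (a [p, q] + 0)) := rfl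
    rw [e, hUb p hp q hq r hr] at h1
    rw [← h1]
    ring
  · intro x hx
    refine ⟨K'ᶜ, hK'.isClosed.isOpen_compl.mem_nhds hx, fun p hp q _ => ?_⟩
    exact ha0 [p, q] rfl ⟨p, by simp, hp⟩

end

/-- list form of node NHC -/
def NHCList : Prop := ∀ (E : Type) [MetricSpace E] [LocallyCompactSpace E]
  [SecondCountableTopology E] [ContractibleSpace E] [ChartedSpace (T.EE 4) E] (q : ℕ),
  1 ≤ q → q ≤ 2 → HCList E q

theorem nHC_of_list (h : NHCList) : NHC := by
  intro E _ _ _ _ _ _
  letI : MetricSpace E := TopologicalSpace.metrizableSpaceMetric E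
  exact ⟨hc1_of_list (h E 1 le_rfl (by norm_num)), hc2_of_list (h E 2 (by norm_num) le_rfl)⟩

end Crest.Agent.R224.Tp
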