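/-
R224 / S0346, topological half, plan B (helper183): from `AS.NHc` (602's zigzag theorem, germ form) to
`NHC` of GeoAct.lean, and the assembly `AS.NHc → T.NTorsFree → T.NTop`.
-/
import Crest.Agent.R224.T.HcAdapter
import Crest.Agent.R224.T.ASDefs
import Crest.Agent.R224.T.Geo

set_option autoImplicit false
set_option linter.unusedSectionVars false

namespace Crest.Agent.R224.Tp

open _root_.Topology Set Filter

theorem hc1_of_nhc (h : AS.NHc) (E : Type) [MetricSpace E] [LocallyCompactSpace E]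
    [ChartedSpace (EuclideanSpace ℝ (Fin 4)) E] [ContractibleSpace E] : HC1 E := by
  classical
  intro c hc hK
  obtain ⟨K, hK, hK0⟩ := hK
  obtain ⟨K1, hK1, hKK1⟩ := exists_compact_superset hK
  let b : List E → ZMod 2 := fun l => match l with
    | [x, y] => if x ∈ K1 ∧ y ∈ K1 then c x y else 0
    | _ => 0
  have hb2 : ∀ x y, b [x, y] = if x ∈ K1 ∧ y ∈ K1 then c x y else 0 := fun _ _ => rfl
  have hloc : ∀ x, ∃ U ∈ 𝓝 x, (∀ p ∈ U, ∀ q ∈ U, b [p, q] = c p q) ∧
      ∀ p ∈ U, ∀ q ∈ U, ∀ r ∈ U, c p q + c q r = c p r := by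
    intro x
    obtain ⟨V, hV, hVc⟩ := hc x
    by_cases hx : x ∈ K
    · refine ⟨V ∩ interior K1, inter_mem hV (isOpen_interior.mem_nhds (hKK1 hx)), ?_, ?_⟩
      · intro p hp q hq
        rw [hb2, if_pos ⟨interior_subset hp.2, interior_subset hq.2⟩]
      · exact fun p hp q hq r hr => hVc p hp.1 q hq.1 r hr.1
    · obtain ⟨W, hW, hW0⟩ := hK0 x hx
      refine ⟨V ∩ W, inter_mem hV hW, ?_, ?_⟩
      · intro p hp q hq
        rw [hb2, hW0 p hp.2 q hq.2, ite_self]
      · exact fun p hp q hq r hr => hVc p hp.1 q hq.1 r hr.1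
  obtain ⟨K', a, hK', ha0, had⟩ := h E 1 le_rfl (by norm_num) K1 hK1 b (by
    intro l hl hx
    match l, hl with
    | [x, y], _ =>
      rw [hb2, if_neg]
      rintro ⟨h1, h2⟩
      obtain ⟨z, hz, hzK⟩ := hx
      simp only [List.mem_cons, List.not_mem_nil, or_false] at hz
      rcases hz with rfl | rfl
      · exact hzK h1
      · exact hzK h2) (by
    intro x
    obtain ⟨U, hU, g1, g2⟩ := hloc x
    refine ⟨U, hU, fun l hl hs => ?_⟩
    match l, hl with
    | [x, y, z], _ =>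
      have e : AS.dl b [x, y, z] = b [y, z] + (b [x, z] + (b [x, y] + 0)) := rfl
      rw [e]
      have mx := hs x (by simp)
      have my := hs y (by simp)
      have mz := hs z (by simp)
      rw [g1 y my z mz, g1 x mx z mz, g1 x mx y my]
      have h3 := g2 x mx y my z mz
      have h4 := two_mul_z (c x z)
      linear_combination h3 + h4)
  refine ⟨fun x => a [x], ?_, K', hK', fun x hx => ha0 [x] rfl ⟨x, by simp, hx⟩⟩
  intro x
  obtain ⟨U, hU, hUb, -⟩ := hloc x
  obtain ⟨V, hV, hVa⟩ := had x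
  refine ⟨U ∩ V, inter_mem hU hV, ?_⟩
  rintro p ⟨hp, hp'⟩ q ⟨hq, hq'⟩
  have h1 := hVa [p, q] rfl (by
    intro u hu
    simp only [List.mem_cons, List.not_mem_nil, or_false] at hu
    rcases hu with rfl | rfl
    · exact hp'
    · exact hq')
  have e : AS.dl a [p, q] = a [q] + (a [p] + 0) := rfl
  rw [e, hUb p hp q hq] at h1
  rw [← h1]
  ring

theorem hc2_of_nhc (h : AS.NHc) (E : Type) [MetricSpace E] [LocallyCompactSpace E]
    [ChartedSpace (EuclideanSpace ℝ (Fin 4)) E] [ContractibleSpace E] : HC2 E := by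
  classical
  intro c hc hK
  obtain ⟨K, hK, hK0⟩ := hK
  obtain ⟨K1, hK1, hKK1⟩ := exists_compact_superset hK
  let b : List E → ZMod 2 := fun l => match l with
    | [x, y, z] => if x ∈ K1 ∧ y ∈ K1 ∧ z ∈ K1 then c x y z else 0
    | _ => 0
  have hb2 : ∀ x y z, b [x, y, z] = if x ∈ K1 ∧ y ∈ K1 ∧ z ∈ K1 then c x y z else 0 :=
    fun _ _ _ => rfl
  have hloc : ∀ x, ∃ U ∈ 𝓝 x, (∀ p ∈ U, ∀ q ∈ U, ∀ r ∈ U, b [p, q, r] = c p q r) ∧
      ∀ p ∈ U, ∀ q ∈ U, ∀ r ∈ U, ∀ t ∈ U, c q r t + c p r t + c p q t + c p q r = 0 := by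
    intro x
    obtain ⟨V, hV, hVc⟩ := hc x
    by_cases hx : x ∈ K
    · refine ⟨V ∩ interior K1, inter_mem hV (isOpen_interior.mem_nhds (hKK1 hx)), ?_, ?_⟩
      · intro p hp q hq r hr
        rw [hb2, if_pos ⟨interior_subset hp.2, interior_subset hq.2, interior_subset hr.2⟩]
      · exact fun p hp q hq r hr t ht => hVc p hp.1 q hq.1 r hr.1 t ht.1
    · obtain ⟨W, hW, hW0⟩ := hK0 x hx
      refine ⟨V ∩ W, inter_mem hV hW, ?_, ?_⟩
      · intro p hp q hq r hr
        rw [hb2, hW0 p hp.2 q hq.2 r hr.2, ite_self]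
      · exact fun p hp q hq r hr t ht => hVc p hp.1 q hq.1 r hr.1 t ht.1
  obtain ⟨K', a, hK', ha0, had⟩ := h E 2 (by norm_num) (by norm_num) K1 hK1 b (by
    intro l hl hx
    match l, hl with
    | [x, y, z], _ =>
      rw [hb2, if_neg]
      rintro ⟨h1, h2, h3⟩
      obtain ⟨w, hw, hwK⟩ := hx
      simp only [List.mem_cons, List.not_mem_nil, or_false] at hw
      rcases hw with rfl | rfl | rfl
      · exact hwK h1
      · exact hwK h2
      · exact hwK h3) (by
    intro x
    obtain ⟨U, hU, g1, g2⟩ := hloc x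
    refine ⟨U, hU, fun l hl hs => ?_⟩
    match l, hl with
    | [x, y, z, w], _ =>
      have e : AS.dl b [x, y, z, w] =
        b [y, z, w] + (b [x, z, w] + (b [x, y, w] + (b [x, y, z] + 0))) := rfl
      rw [e]
      have mx := hs x (by simp)
      have my := hs y (by simp)
      have mz := hs z (by simp)
      have mw := hs w (by simp)
      rw [g1 y my z mz w mw, g1 x mx z mz w mw, g1 x mx y my w mw, g1 x mx y my z mz]
      have h3 := g2 x mx y my z mz w mw
      linear_combination h3)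
  refine ⟨fun x y => a [x, y], ?_, K', hK', ?_⟩
  · intro x
    obtain ⟨U, hU, hUb, -⟩ := hloc x
    obtain ⟨V, hV, hVa⟩ := had x
    refine ⟨U ∩ V, inter_mem hU hV, ?_⟩
    rintro p ⟨hp, hp'⟩ q ⟨hq, hq'⟩ r ⟨hr, hr'⟩
    have h1 := hVa [p, q, r] rfl (by
      intro u hu
      simp only [List.mem_cons, List.not_mem_nil, or_false] at hu
      rcases hu with rfl | rfl | rfl
      · exact hp'
      · exact hq'
      · exact hr')
    have e : AS.dl a [p, q, r] = a [q, r] + (a [p, r] + (a [p, q] + 0)) := rfl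
    rw [e, hUb p hp q hq r hr] at h1
    rw [← h1]
    ring
  · intro x hx
    refine ⟨K'ᶜ, hK'.isClosed.isOpen_compl.mem_nhds hx, fun p hp q _ => ?_⟩
    exact ha0 [p, q] rfl ⟨p, by simp, hp⟩

theorem nHC_of_nhc (h : AS.NHc) : NHC := by
  intro E _ _ _ _ _ _
  let _ : MetricSpace E := TopologicalSpace.metrizableSpaceMetric E
  exact ⟨hc1_of_nhc h E, hc2_of_nhc h E⟩

/-- plan B: the topological half from the zigzag theorem and torsion-freeness -/
theorem nTop_of_nhc (h : AS.NHc) (hT : T.NTorsFree) : T.NTop :=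
  nTop_of T.nGeo hT (nHC_of_nhc h)

end Crest.Agent.R224.Tp
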