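/-
R224 / S0346, topological half: locally finite chains (helper36).
-/
import Crest.Agent.R224.T.Basic

set_option autoImplicit false

noncomputable section

open Topology Set Filter

namespace Crest.Agent.R224.T

variable {X Y : Type} [TopologicalSpace X] [TopologicalSpace Y]

/-! ### coefficients of the boundary -/

/-- incidence number of `σ` and `τ` -/
def inc {n : ℕ} (σ : C(Dl (n + 1), X)) (τ : C(Dl n, X)) : ZMod 2 :=
  bd n (Finsupp.single σ 1) τ

theorem inc_ne_zero {n : ℕ} {σ : C(Dl (n + 1), X)} {τ : C(Dl n, X)} (h : inc σ τ ≠ 0) :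
    ∃ i, σ.comp (face n i) = τ := by
  classical
  by_contra hc
  push Not at hc
  apply h
  rw [inc, bd_single, Finsupp.finsetSum_apply]
  refine Finset.sum_eq_zero fun i _ => ?_
  rw [Finsupp.single_apply, if_neg (hc i)]

theorem range_subset_of_inc {n : ℕ} {σ : C(Dl (n + 1), X)} {τ : C(Dl n, X)} (h : inc σ τ ≠ 0) :
    range τ ⊆ range σ := by
  obtain ⟨i, rfl⟩ := inc_ne_zero h
  exact range_face_subset σ i

theorem bd_apply {n : ℕ} (c : Ch (n + 1) X) (τ : C(Dl n, X)) :
    bd n c τ = ∑ σ ∈ c.support, c σ * inc σ τ := by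
  classical
  have h1 : c = ∑ σ ∈ c.support, c σ • Finsupp.single σ (1 : ZMod 2) := by
    conv_lhs => rw [← Finsupp.sum_single c]
    refine Finset.sum_congr rfl fun σ _ => ?_
    rw [Finsupp.smul_single, smul_eq_mul, mul_one]
  conv_lhs => rw [h1]
  rw [map_sum, Finsupp.finsetSum_apply]
  refine Finset.sum_congr rfl fun σ _ => ?_
  rw [map_smul, Finsupp.smul_apply, smul_eq_mul, inc]

/-- the boundary coefficient at `τ` only depends on the simplices containing `τ` -/
theorem bd_apply_congr {n : ℕ} {c c' : Ch (n + 1) X} {τ : C(Dl n, X)}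
    (h : ∀ σ : C(Dl (n + 1), X), range τ ⊆ range σ → c σ = c' σ) : bd n c τ = bd n c' τ := by
  classical
  rw [bd_apply, bd_apply]
  have key : ∀ (a : Ch (n + 1) X) (s : Finset C(Dl (n + 1), X)), a.support ⊆ s →
      ∑ σ ∈ a.support, a σ * inc σ τ = ∑ σ ∈ s, a σ * inc σ τ := by
    intro a s hs
    refine Finset.sum_subset hs fun σ _ hσ => ?_
    rw [Finsupp.notMem_support_iff.1 hσ, zero_mul]
  rw [key c (c.support ∪ c'.support) Finset.subset_union_left,
    key c' (c.support ∪ c'.support) Finset.subset_union_right]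
  refine Finset.sum_congr rfl fun σ _ => ?_
  by_cases hi : inc σ τ = 0
  · rw [hi, mul_zero, mul_zero]
  · rw [h σ (range_subset_of_inc hi)]

/-! ### locally finite chains -/

theorem LF.add {n : ℕ} {m m' : C(Dl n, X) → ZMod 2} (h : LF m) (h' : LF m') : LF (m + m') := by
  intro K hK
  refine ((h K hK).union (h' K hK)).subset ?_
  rintro σ ⟨hσ, hm⟩
  by_cases h0 : m σ = 0
  · right
    refine ⟨fun h1 => hσ ?_, hm⟩
    rw [Pi.add_apply, h0, h1, add_zero]
  · left; exact ⟨h0, hm⟩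

theorem LF.mono {n : ℕ} {m m' : C(Dl n, X) → ZMod 2} (h : LF m) (h' : ∀ σ, m' σ ≠ 0 → m σ ≠ 0) :
    LF m' :=
  fun K hK => (h K hK).subset fun σ hσ => ⟨h' σ hσ.1, hσ.2⟩

theorem LF_of_finite {n : ℕ} {m : C(Dl n, X) → ZMod 2} (h : {σ | m σ ≠ 0}.Finite) : LF m :=
  fun _ _ => h.subset fun _ hσ => hσ.1

theorem LF_chain {n : ℕ} (c : Ch n X) : LF (fun σ => c σ) := by
  refine LF_of_finite (c.support.finite_toSet.subset ?_)
  intro σ hσ
  exact Finsupp.mem_support_iff.2 hσ

open Classical in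
theorem cut_apply {n : ℕ} {m : C(Dl n, X) → ZMod 2} (hm : LF m) {K : Set X} (hK : IsCompact K)
    (σ : C(Dl n, X)) : cut m K σ = if (range σ ∩ K).Nonempty then m σ else 0 := by
  unfold cut
  rw [dif_pos (hm K hK)]
  rfl

theorem cut_apply_of {n : ℕ} {m : C(Dl n, X) → ZMod 2} (hm : LF m) {K : Set X} (hK : IsCompact K)
    {σ : C(Dl n, X)} (h : (range σ ∩ K).Nonempty) : cut m K σ = m σ := by
  classical
  rw [cut_apply hm hK, if_pos h]

theorem cut_apply_of_not {n : ℕ} {m : C(Dl n, X) → ZMod 2} (hm : LF m) {K : Set X}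
    (hK : IsCompact K) {σ : C(Dl n, X)} (h : ¬ (range σ ∩ K).Nonempty) : cut m K σ = 0 := by
  classical
  rw [cut_apply hm hK, if_neg h]

theorem mem_support_cut {n : ℕ} {m : C(Dl n, X) → ZMod 2} (hm : LF m) {K : Set X}
    (hK : IsCompact K) {σ : C(Dl n, X)} :
    σ ∈ (cut m K).support ↔ m σ ≠ 0 ∧ (range σ ∩ K).Nonempty := by
  classical
  rw [Finsupp.mem_support_iff, cut_apply hm hK]
  by_cases h : (range σ ∩ K).Nonempty <;> simp [h]

theorem cut_add {n : ℕ} {m m' : C(Dl n, X) → ZMod 2} (hm : LF m) (hm' : LF m') {K : Set X}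
    (hK : IsCompact K) : cut (m + m') K = cut m K + cut m' K := by
  classical
  ext σ
  rw [Finsupp.add_apply, cut_apply (hm.add hm') hK, cut_apply hm hK, cut_apply hm' hK]
  by_cases h : (range σ ∩ K).Nonempty <;> simp [h]

/-- two chains whose coefficients agree on simplices meeting `K` differ by a chain off `K` -/
theorem In_compl_add {n : ℕ} {c c' : Ch n X} {K : Set X}
    (h : ∀ σ : C(Dl n, X), (range σ ∩ K).Nonempty → c σ = c' σ) : In Kᶜ (c + c') := by
  intro σ hσ x hx hxK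
  rw [Finsupp.mem_support_iff, Finsupp.add_apply, h σ ⟨x, hx, hxK⟩] at hσ
  exact hσ (CharTwo.add_self_eq_zero _)

theorem In_cut_add_cut {n : ℕ} {m : C(Dl n, X) → ZMod 2} (hm : LF m) {K L : Set X}
    (hK : IsCompact K) (hL : IsCompact L) (h : K ⊆ L) : In Kᶜ (cut m K + cut m L) := by
  refine In_compl_add fun σ hσ => ?_
  rw [cut_apply_of hm hK hσ, cut_apply_of hm hL (hσ.mono (inter_subset_inter_right _ h))]

/-- cutting a finite chain -/
theorem In_cut_add_self {n : ℕ} (c : Ch n X) {K : Set X} (hK : IsCompact K) :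
    In Kᶜ (cut (fun σ => c σ) K + c) := by
  refine In_compl_add fun σ hσ => ?_
  rw [cut_apply_of (LF_chain c) hK hσ]

/-- boundary of a locally finite chain -/
def bdl {n : ℕ} (m : C(Dl (n + 1), X) → ZMod 2) (τ : C(Dl n, X)) : ZMod 2 :=
  bd n (cut m (range τ)) τ

theorem isCompact_range' {n : ℕ} (τ : C(Dl n, X)) : IsCompact (range τ) :=
  isCompact_range τ.continuous

theorem range_nonempty' {n : ℕ} (τ : C(Dl n, X)) : (range τ).Nonempty :=
  haveI : Nonempty (Dl n) := ⟨stdSimplex.vertex 0⟩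
  range_nonempty τ

/-- if `c` agrees with `m` on the simplices containing `τ` then `bd c` agrees with `bdl m` at `τ` -/
theorem bd_eq_bdl {n : ℕ} {m : C(Dl (n + 1), X) → ZMod 2} (hm : LF m) {c : Ch (n + 1) X}
    {τ : C(Dl n, X)} (h : ∀ σ : C(Dl (n + 1), X), range τ ⊆ range σ → c σ = m σ) :
    bd n c τ = bdl m τ := by
  refine bd_apply_congr fun σ hσ => ?_
  rw [h σ hσ, cut_apply_of hm (isCompact_range' τ)]
  rw [inter_eq_self_of_subset_right hσ]
  exact range_nonempty' τ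

theorem bd_cut_apply {n : ℕ} {m : C(Dl (n + 1), X) → ZMod 2} (hm : LF m) {K : Set X}
    (hK : IsCompact K) {τ : C(Dl n, X)} (h : (range τ ∩ K).Nonempty) :
    bd n (cut m K) τ = bdl m τ :=
  bd_eq_bdl hm fun _ hσ => cut_apply_of hm hK (h.mono (inter_subset_inter_left _ hσ))

theorem bdl_chain {n : ℕ} (c : Ch (n + 1) X) (τ : C(Dl n, X)) :
    bdl (fun σ => c σ) τ = bd n c τ :=
  (bd_eq_bdl (LF_chain c) fun _ _ => rfl).symm

theorem bdl_add {n : ℕ} {m m' : C(Dl (n + 1), X) → ZMod 2} (hm : LF m) (hm' : LF m')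
    (τ : C(Dl n, X)) : bdl (m + m') τ = bdl m τ + bdl m' τ := by
  unfold bdl
  rw [cut_add hm hm' (isCompact_range' τ), map_add, Finsupp.add_apply]

theorem bdl_congr {n : ℕ} {m m' : C(Dl (n + 1), X) → ZMod 2} (hm : LF m) (hm' : LF m')
    {τ : C(Dl n, X)} (h : ∀ σ : C(Dl (n + 1), X), range τ ⊆ range σ → m σ = m' σ) :
    bdl m τ = bdl m' τ := by
  refine bd_apply_congr fun σ hσ => ?_
  have h1 : (range σ ∩ range τ).Nonempty := by
    rw [inter_eq_self_of_subset_right hσ]; exact range_nonempty' τ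
  rw [cut_apply_of hm (isCompact_range' τ) h1, cut_apply_of hm' (isCompact_range' τ) h1, h σ hσ]

theorem LCyc_iff {n : ℕ} {m : C(Dl (n + 1), X) → ZMod 2} (hm : LF m) :
    LCyc m ↔ ∀ τ, bdl m τ = 0 := by
  constructor
  · intro h τ
    by_contra h0
    have h1 := h.cyc (range τ) (isCompact_range' τ) τ (Finsupp.mem_support_iff.2 h0)
    obtain ⟨x, hx⟩ := range_nonempty' τ
    exact h1 hx hx
  · intro h
    refine ⟨hm, fun K hK τ hτ x hx hxK => ?_⟩
    rw [Finsupp.mem_support_iff, bd_cut_apply hm hK ⟨x, hx, hxK⟩] at hτ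
    exact hτ (h τ)

theorem LCyc.bdl_eq_zero {n : ℕ} {m : C(Dl (n + 1), X) → ZMod 2} (hm : LCyc m) (τ : C(Dl n, X)) :
    bdl m τ = 0 := (LCyc_iff hm.lf).1 hm τ

theorem LCyc.add {n : ℕ} {m m' : C(Dl (n + 1), X) → ZMod 2} (hm : LCyc m) (hm' : LCyc m') :
    LCyc (m + m') := by
  rw [LCyc_iff (hm.lf.add hm'.lf)]
  intro τ
  rw [bdl_add hm.lf hm'.lf, hm.bdl_eq_zero, hm'.bdl_eq_zero, add_zero]

/-- a general criterion: `c` a finite chain agreeing with `m` on the simplices meeting `K` has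
boundary off `K` wherever `bdl m` vanishes -/
theorem RC_of_bdl {n : ℕ} {m : C(Dl (n + 1), X) → ZMod 2} (hm : LF m) {c : Ch (n + 1) X} {K : Set X}
    (hc : ∀ σ : C(Dl (n + 1), X), (range σ ∩ K).Nonempty → c σ = m σ)
    (h : ∀ τ : C(Dl n, X), (range τ ∩ K).Nonempty → bdl m τ = 0) : RC Kᶜ c := by
  intro τ hτ x hx hxK
  rw [Finsupp.mem_support_iff, bd_eq_bdl hm fun σ hσ =>
    hc σ ⟨x, hσ hx, hxK⟩] at hτ
  exact hτ (h τ ⟨x, hx, hxK⟩)

/-! ### local degree of a locally finite cycle -/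

theorem Nul_cut_iff {n : ℕ} {m : C(Dl n, X) → ZMod 2} (hm : LF m) {K : Set X}
    (hK : IsCompact K) {p : X} (hp : p ∈ K) : Nul {p}ᶜ (cut m K) ↔ Nul {p}ᶜ (cut m {p}) := by
  have h := In_cut_add_cut hm (isCompact_singleton (x := p)) hK (singleton_subset_iff.2 hp)
  exact (Nul_congr (Nul_of_In h)).symm

/-- the local degree of a locally finite cycle is locally constant -/
theorem LCyc.eventually {d : ℕ} [T2Space X] [LocallyCompactSpace X] (hX : ManHyp d X)
    {m : C(Dl (d + 1), X) → ZMod 2} (hm : LCyc m) (p : X) :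
    ∀ᶠ q in 𝓝 p, (Nul {q}ᶜ (cut m {q}) ↔ Nul {p}ᶜ (cut m {p})) := by
  obtain ⟨K, hK, hpK⟩ := exists_compact_mem_nhds p
  have h1 : RC {p}ᶜ (cut m K) := (hm.cyc K hK).mono
    (compl_subset_compl.2 (singleton_subset_iff.2 (mem_of_mem_nhds hpK)))
  filter_upwards [hX.loc (cut m K) p h1, hpK] with q hq hqK
  rw [← Nul_cut_iff hm.lf hK hqK, ← Nul_cut_iff hm.lf hK (mem_of_mem_nhds hpK)]
  exact hq.2

/-- the local degree of a locally finite cycle is constant on a connected space -/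
theorem LCyc.deg_const {d : ℕ} [T2Space X] [LocallyCompactSpace X] [PreconnectedSpace X]
    (hX : ManHyp d X) {m : C(Dl (d + 1), X) → ZMod 2} (hm : LCyc m) (p q : X) :
    Nul {p}ᶜ (cut m {p}) ↔ Nul {q}ᶜ (cut m {q}) := by
  have h : IsLocallyConstant fun p : X => Nul {p}ᶜ (cut m {p}) := by
    rw [IsLocallyConstant.iff_eventually_eq]
    intro x
    filter_upwards [hm.eventually hX x] with y hy
    exact propext hy
  have := h.apply_eq_of_preconnectedSpace p q
  exact Iff.of_eq this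

end Crest.Agent.R224.T
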