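import Crest.Agent.R224.T.Defs

/-!
Row 224, topological half, node A2 (helper912): mesh of the barycentric subdivision of an affine
simplex given by its tuple of vertices in a real normed space.
-/

set_option autoImplicit false

noncomputable section

namespace Crest.Agent.R224.T.Mesh

open Set

variable {V : Type*} [NormedAddCommGroup V] [NormedSpace ℝ V]

/-- barycentre of a tuple -/
def bary {n : ℕ} (v : Fin (n + 1) → V) : V := ((n : ℝ) + 1)⁻¹ • ∑ i, v i

/-- `w` is (the vertex tuple of) a simplex of the barycentric subdivision of `v`: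
cone with apex the barycentre over a simplex of the subdivision of a face. -/
inductive BS : (n : ℕ) → (Fin (n + 1) → V) → (Fin (n + 1) → V) → Prop
  | zero (v : Fin 1 → V) : BS 0 v v
  | succ (n : ℕ) (v : Fin (n + 2) → V) (i : Fin (n + 2)) (w : Fin (n + 1) → V) :
      BS n (fun j => v (i.succAbove j)) w → BS (n + 1) v (Fin.cons (bary v) w)

theorem bary_sub {n : ℕ} (v : Fin (n + 1) → V) (x : V) :
    bary v - x = ((n : ℝ) + 1)⁻¹ • ∑ i, (v i - x) := by
  have hn : ((n : ℝ) + 1) ≠ 0 := by positivity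
  rw [Finset.sum_sub_distrib, smul_sub]
  unfold bary
  congr 1
  simp only [Finset.sum_const, Finset.card_univ, Fintype.card_fin]
  rw [← Nat.cast_smul_eq_nsmul ℝ, smul_smul]
  push_cast
  rw [inv_mul_cancel₀ hn, one_smul]

theorem bary_mem {n : ℕ} (v : Fin (n + 1) → V) : bary v ∈ convexHull ℝ (range v) := by
  unfold bary
  rw [Finset.smul_sum]
  refine (convex_convexHull ℝ (range v)).sum_mem (fun _ _ => by positivity) ?_
    (fun i _ => subset_convexHull ℝ _ ⟨i, rfl⟩)
  simp only [Finset.sum_const, Finset.card_univ, Fintype.card_fin, nsmul_eq_mul]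
  push_cast
  exact mul_inv_cancel₀ (by positivity)

theorem norm_bary_sub_le {n : ℕ} (v : Fin (n + 1) → V) {d : ℝ}
    (h : ∀ i j, ‖v i - v j‖ ≤ d) (j : Fin (n + 1)) :
    ‖bary v - v j‖ ≤ (n : ℝ) / (n + 1) * d := by
  rw [bary_sub, norm_smul, Real.norm_of_nonneg (by positivity)]
  have h1 : ‖∑ i, (v i - v j)‖ ≤ ∑ i : Fin (n + 1), (if i = j then 0 else d) := by
    refine (norm_sum_le _ _).trans (Finset.sum_le_sum fun i _ => ?_)
    by_cases hij : i = j
    · simp [hij]
    · rw [if_neg hij]; exact h i j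
  have h2 : ∑ i : Fin (n + 1), (if i = j then (0 : ℝ) else d) = n * d := by
    rw [← Finset.add_sum_erase Finset.univ _ (Finset.mem_univ j)]
    rw [if_pos rfl, zero_add]
    rw [Finset.sum_congr rfl (fun i hi => if_neg (Finset.ne_of_mem_erase hi))]
    simp [Finset.card_erase_of_mem]
  rw [h2] at h1
  calc ((n : ℝ) + 1)⁻¹ * ‖∑ i, (v i - v j)‖ ≤ ((n : ℝ) + 1)⁻¹ * (n * d) :=
        mul_le_mul_of_nonneg_left h1 (by positivity)
    _ = (n : ℝ) / (n + 1) * d := by rw [div_eq_mul_inv]; ring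

/-- all vertices of the subdivision are in the convex hull -/
theorem BS.mem {n : ℕ} {v w : Fin (n + 1) → V} (h : BS n v w) :
    ∀ i, w i ∈ convexHull ℝ (range v) := by
  induction h with
  | zero v => intro i; exact subset_convexHull ℝ _ ⟨i, rfl⟩
  | succ n v i w _ ih =>
      intro j
      refine Fin.cases ?_ (fun k => ?_) j
      · rw [Fin.cons_zero]; exact bary_mem v
      · rw [Fin.cons_succ]
        refine convexHull_mono ?_ (ih k)
        rintro _ ⟨l, rfl⟩
        exact ⟨_, rfl⟩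

/-- distance of the points of a convex hull -/
theorem norm_sub_le_of_mem_hull {s : Set V} {x y : V} {r : ℝ} (h : ∀ z ∈ s, ‖z - x‖ ≤ r)
    (hy : y ∈ convexHull ℝ s) : ‖y - x‖ ≤ r := by
  have hsub : s ⊆ Metric.closedBall x r := fun z hz => by
    rw [mem_closedBall_iff_norm]; exact h z hz
  have := convexHull_min hsub (convex_closedBall x r) hy
  rwa [mem_closedBall_iff_norm] at this

theorem norm_sub_le_of_mem_hull₂ {s t : Set V} {x y : V} {r : ℝ}
    (h : ∀ z ∈ s, ∀ z' ∈ t, ‖z - z'‖ ≤ r)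
    (hx : x ∈ convexHull ℝ s) (hy : y ∈ convexHull ℝ t) : ‖x - y‖ ≤ r := by
  refine norm_sub_le_of_mem_hull (fun z hz => ?_) hx
  rw [norm_sub_rev]
  refine norm_sub_le_of_mem_hull (fun z' hz' => ?_) hy
  rw [norm_sub_rev]
  exact h z hz z' hz'

/-- mesh estimate -/
theorem BS.mesh {n : ℕ} {v w : Fin (n + 1) → V} (h : BS n v w) {d : ℝ} (hd : 0 ≤ d)
    (hv : ∀ i j, ‖v i - v j‖ ≤ d) : ∀ i j, ‖w i - w j‖ ≤ (n : ℝ) / (n + 1) * d := by
  induction h with
  | zero v =>
      intro i j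
      have : i = j := Fin.ext (by omega)
      subst this
      simp
  | succ n v i w hw ih =>
      have ih' := ih (fun a b => hv _ _)
      have hmono : (n : ℝ) / (n + 1) * d ≤ ((n + 1 : ℕ) : ℝ) / ((n + 1 : ℕ) + 1) * d := by
        refine mul_le_mul_of_nonneg_right ?_ hd
        push_cast
        rw [div_le_div_iff₀ (by positivity) (by positivity)]
        nlinarith
      have hapex : ∀ k, ‖bary v - w k‖ ≤ ((n + 1 : ℕ) : ℝ) / ((n + 1 : ℕ) + 1) * d := by
        intro k
        rw [norm_sub_rev]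
        refine norm_sub_le_of_mem_hull (fun z hz => ?_) (hw.mem k)
        obtain ⟨l, rfl⟩ := hz
        rw [norm_sub_rev]
        exact norm_bary_sub_le v hv _
      have hnn : 0 ≤ ((n + 1 : ℕ) : ℝ) / ((n + 1 : ℕ) + 1) * d := by positivity
      intro a b
      refine Fin.cases ?_ (fun k => ?_) a <;> refine Fin.cases ?_ (fun l => ?_) b
      · simpa using hnn
      · rw [Fin.cons_zero, Fin.cons_succ]; exact hapex l
      · rw [Fin.cons_zero, Fin.cons_succ, norm_sub_rev]; exact hapex k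
      · rw [Fin.cons_succ, Fin.cons_succ]; exact (ih' k l).trans hmono

/-- `k`-fold subdivision -/
inductive BSI : ℕ → (n : ℕ) → (Fin (n + 1) → V) → (Fin (n + 1) → V) → Prop
  | zero (n : ℕ) (v : Fin (n + 1) → V) : BSI 0 n v v
  | succ (k n : ℕ) (u v w : Fin (n + 1) → V) : BSI k n u v → BS n v w → BSI (k + 1) n u w

theorem BSI.mem {k n : ℕ} {v w : Fin (n + 1) → V} (h : BSI k n v w) :
    ∀ i, w i ∈ convexHull ℝ (range v) := by
  induction h with
  | zero n v => intro i; exact subset_convexHull ℝ _ ⟨i, rfl⟩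
  | succ k n u v w _ h2 ih =>
      intro i
      have h3 := h2.mem i
      refine convexHull_min ?_ (convex_convexHull ℝ (range u)) h3
      rintro _ ⟨j, rfl⟩
      exact ih j

theorem BSI.mesh {k n : ℕ} {v w : Fin (n + 1) → V} (h : BSI k n v w) {d : ℝ} (hd : 0 ≤ d)
    (hv : ∀ i j, ‖v i - v j‖ ≤ d) : ∀ i j, ‖w i - w j‖ ≤ ((n : ℝ) / (n + 1)) ^ k * d := by
  induction h with
  | zero n v => simpa using hv
  | succ k n u v w _ h2 ih =>
      have ih' := ih hv
      have h0 : 0 ≤ ((n : ℝ) / (n + 1)) ^ k * d := by positivity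
      intro i j
      refine (h2.mesh h0 ih' i j).trans (le_of_eq ?_)
      rw [pow_succ]; ring

theorem tendsto_mesh (n : ℕ) (d : ℝ) :
    Filter.Tendsto (fun k : ℕ => ((n : ℝ) / (n + 1)) ^ k * d) Filter.atTop (nhds 0) := by
  have h1 : (n : ℝ) / (n + 1) < 1 := by
    rw [div_lt_one (by positivity)]; linarith
  have h0 : 0 ≤ (n : ℝ) / (n + 1) := by positivity
  simpa using (tendsto_pow_atTop_nhds_zero_of_lt_one h0 h1).mul_const d

/-! ### smallness in the standard simplex -/

theorem dist_Dl_le_one {n : ℕ} (p q : Dl n) : dist p q ≤ 1 := by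
  rw [Subtype.dist_eq, dist_pi_le_iff zero_le_one]
  intro i
  rw [Real.dist_eq, abs_le]
  have h1 : ∀ r : Dl n, 0 ≤ r.1 i ∧ r.1 i ≤ 1 := by
    intro r
    refine ⟨r.2.1 i, ?_⟩
    rw [← r.2.2]
    exact Finset.single_le_sum (fun j _ => r.2.1 j) (Finset.mem_univ i)
  constructor <;> linarith [(h1 p).1, (h1 p).2, (h1 q).1, (h1 q).2]

/-- Lebesgue number argument: for `k` large every affine simplex of mesh `≤ (n/(n+1))^k`
inside the standard simplex is mapped into a member of the cover. -/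
theorem eventually_small {X : Type} [TopologicalSpace X] {m : ℕ} (n : ℕ) (σ : C(Dl m, X))
    (𝒰 : Set (Set X)) (hU : ∀ U ∈ 𝒰, IsOpen U) (hcov : range σ ⊆ ⋃₀ 𝒰) :
    ∀ᶠ k in Filter.atTop, ∀ w : Fin (n + 1) → Dl m,
      (∀ i j, ‖(w i).1 - (w j).1‖ ≤ ((n : ℝ) / (n + 1)) ^ k) →
      ∃ U ∈ 𝒰, ∀ x : Dl m, x.1 ∈ convexHull ℝ (range fun i => (w i).1) → σ x ∈ U := by
  have hcomp : IsCompact (univ : Set (Dl m)) := isCompact_univ
  obtain ⟨δ, hδ, hleb⟩ := lebesgue_number_lemma_of_metric (c := fun U : 𝒰 => σ ⁻¹' U.1) hcomp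
    (fun U => (hU U.1 U.2).preimage σ.continuous) (by
      intro x _
      obtain ⟨U, hU1, hx⟩ := hcov ⟨x, rfl⟩
      exact mem_iUnion.2 ⟨⟨U, hU1⟩, hx⟩)
  have h1 : ∀ᶠ k in Filter.atTop, ((n : ℝ) / (n + 1)) ^ k < δ := by
    have := (tendsto_mesh n 1).eventually (gt_mem_nhds hδ)
    filter_upwards [this] with k hk
    simpa using hk
  filter_upwards [h1] with k hk w hw
  obtain ⟨U, hUb⟩ := hleb (w 0) trivial
  refine ⟨U.1, U.2, fun x hx => hUb ?_⟩
  rw [Metric.mem_ball, Subtype.dist_eq, dist_eq_norm]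
  refine lt_of_le_of_lt (norm_sub_le_of_mem_hull (fun z hz => ?_) hx) hk
  obtain ⟨i, rfl⟩ := hz
  exact hw i 0

end Crest.Agent.R224.T.Mesh
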