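import Crest.Agent.R224.T.Basic
import Crest.Agent.R224.T.Iface

/-!
# R224 topological half, node B2 (NStar): star-shaped compact sets (helper543)
-/

set_option autoImplicit false

noncomputable section

open Topology Set Filter

namespace Crest.Agent.R224.T

/-- Node B2. -/
theorem nStar (hP : NPrism) : NStar := by
  intro m q K p hK hpK hstar c hc hnul
  obtain ⟨b, e, he, hce⟩ := hnul
  -- a ball around `p` missing `e`
  have hdisj : p ∉ car e := fun h => (In_iff_car.1 he h) rfl
  have hclosed : IsClosed (car e) := (isCompact_car e).isClosed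
  obtain ⟨r, hr, hball⟩ := Metric.isOpen_iff.1 hclosed.isOpen_compl p hdisj
  obtain ⟨R, hR⟩ := hK.isBounded.subset_closedBall p
  have hR0 : 0 ≤ R := by
    have := hR hpK
    rw [Metric.mem_closedBall, dist_self] at this
    exact this
  -- the dilation
  set L : ℝ := R / r with hL
  have hL0 : 0 ≤ L := div_nonneg hR0 hr.le
  let H : C(EE m × unitInterval, EE m) :=
    ⟨fun x => p + (1 + (x.2 : ℝ) * L) • (x.1 - p), by fun_prop⟩
  obtain ⟨P, -, hP1, hPs⟩ := hP (EE m) (EE m) H
  have h0 : (H.comp ⟨fun x => (x, 0), by fun_prop⟩ : C(EE m, EE m)) = ContinuousMap.id _ := by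
    ext1 x
    show p + (1 + ((0 : unitInterval) : ℝ) * L) • (x - p) = x
    simp
  have h2 := hP1 q e
  rw [h0, push_id] at h2
  set H1 : C(EE m, EE m) := H.comp ⟨fun x => (x, 1), by fun_prop⟩ with hH1
  have h3 : bd q e = bd q c := by
    rw [hce, map_add, bd_bd, zero_add]
  -- push of `e` misses `K`
  have h4 : In Kᶜ (push H1 (q + 1) e) := by
    refine In.push_of_mapsTo (In_car e) fun x hx hxK => ?_
    have h5 : r ≤ dist x p := by
      by_contra hcon
      exact hball (Metric.mem_ball.2 (not_le.1 hcon)) hx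
    have h6 := hR hxK
    rw [Metric.mem_closedBall] at h6
    have h7 : dist (H1 x) p = (1 + L) * dist x p := by
      have h8 : H1 x = p + (1 + L) • (x - p) := by
        show p + (1 + ((1 : unitInterval) : ℝ) * L) • (x - p) = _
        rw [show ((1 : unitInterval) : ℝ) = 1 from rfl, one_mul]
      rw [h8, dist_eq_norm, add_sub_cancel_left, norm_smul, dist_eq_norm, Real.norm_eq_abs,
        abs_of_nonneg (by linarith)]
    rw [h7] at h6
    have h8 : L * r = R := by rw [hL]; field_simp
    nlinarith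
  -- the homotopy keeps the complement of `K`
  have h5 : In Kᶜ (P q (bd q e)) := by
    rw [h3]
    refine In.map_lin (A := Kᶜ) (P q) (fun σ hσ τ hτ => ?_) hc
    refine (hPs q σ τ hτ).trans ?_
    rintro _ ⟨⟨x, t⟩, ⟨hx, -⟩, rfl⟩ hxK
    refine hσ hx ?_
    have h6 : 0 ≤ (t : ℝ) * L := mul_nonneg t.2.1 hL0
    have h7 : (0 : ℝ) < 1 + (t : ℝ) * L := by linarith
    have h8 := hstar.add_smul_sub_mem hxK (t := (1 + (t : ℝ) * L)⁻¹) (inv_nonneg.2 h7.le)
      (inv_le_one_of_one_le₀ (by linarith))
    have h9 : p + (1 + (t : ℝ) * L)⁻¹ • (H (x, t) - p) = x := by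
      show p + (1 + (t : ℝ) * L)⁻¹ • (p + (1 + (t : ℝ) * L) • (x - p) - p) = x
      rw [add_sub_cancel_left, smul_smul, inv_mul_cancel₀ h7.ne', one_smul]
      abel
    rwa [h9] at h8
  refine ⟨b + P (q + 1) e, push H1 (q + 1) e + P q (bd q e), h4.add h5, ?_⟩
  rw [map_add, h2, hce]
  have e1 := add_self (push H1 (q + 1) e)
  have e2 := add_self (P q (bd q e))
  calc bd (q + 1) b + e = bd (q + 1) b + e + (push H1 (q + 1) e + push H1 (q + 1) e) +
        (P q (bd q e) + P q (bd q e)) := by rw [e1, e2, add_zero, add_zero]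
    _ = _ := by abel

end Crest.Agent.R224.T
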