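/-
R224 / topological half, node A2 (NSub): definitions (helper886).
Mod 2 chains of tuples of points of the simplex `Dl n`, barycentric subdivision.
-/
import Crest.Agent.R224.T.Basic

set_option autoImplicit false

noncomputable section

open Topology Set Filter

namespace Crest.Agent.R224.T.Sub

/-- mod 2 chains of `k`-tuples -/
abbrev LC (k : ℕ) (A : Type) : Type := (Fin k → A) →₀ ZMod 2

variable {A : Type}

/-- boundary of tuples (including the augmentation) -/
def lbd (k : ℕ) : LC (k + 1) A →ₗ[ZMod 2] LC k A :=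
  Finsupp.linearCombination (ZMod 2) fun v : Fin (k + 1) → A =>
    ∑ i : Fin (k + 1), Finsupp.single (v ∘ i.succAbove) (1 : ZMod 2)

/-- cone -/
def cone (a : A) (k : ℕ) : LC k A →ₗ[ZMod 2] LC (k + 1) A :=
  Finsupp.lmapDomain (ZMod 2) (ZMod 2) fun v : Fin k → A => (Fin.cons a v : Fin (k + 1) → A)

/-- the affine simplex spanned by a tuple of points of `Dl n` -/
def aff {n k : ℕ} (v : Fin (k + 1) → Dl n) : C(Dl k, Dl n) where
  toFun t := ⟨fun j => ∑ i, t i * v i j, by
    constructor
    · intro j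
      exact Finset.sum_nonneg fun i _ => mul_nonneg (stdSimplex.zero_le t i)
        (stdSimplex.zero_le (v i) j)
    · rw [Finset.sum_comm]
      have : ∀ i, ∑ j, t i * v i j = t i := by
        intro i
        rw [← Finset.mul_sum, stdSimplex.sum_eq_one, mul_one]
      rw [Finset.sum_congr rfl fun i _ => this i]
      exact stdSimplex.sum_eq_one t⟩
  continuous_toFun := by
    refine Continuous.subtype_mk (continuous_pi fun j => continuous_finsetSum _ fun i _ => ?_) _
    exact ((continuous_apply i).comp continuous_subtype_val).mul continuous_const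

lemma aff_apply {n k : ℕ} (v : Fin (k + 1) → Dl n) (t : Dl k) (j : Fin (n + 1)) :
    aff v t j = ∑ i, t i * v i j := rfl

/-- barycenter of the standard simplex -/
def bc (k : ℕ) : Dl k :=
  ⟨fun _ => ((k : ℝ) + 1)⁻¹, by
    constructor
    · intro _; positivity
    · simp only [Finset.sum_const, Finset.card_univ, Fintype.card_fin, nsmul_eq_mul]
      push_cast
      field_simp⟩

lemma bc_apply (k : ℕ) (i : Fin (k + 1)) : bc k i = ((k : ℝ) + 1)⁻¹ := rfl

/-- barycenter of a tuple -/
def bary {n k : ℕ} (v : Fin (k + 1) → Dl n) : Dl n := aff v (bc k)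

/-- barycentric subdivision of chains of tuples -/
def Sd (n : ℕ) : ∀ k : ℕ, LC k (Dl n) →ₗ[ZMod 2] LC k (Dl n)
  | 0 => LinearMap.id
  | k + 1 => Finsupp.linearCombination (ZMod 2) fun v : Fin (k + 1) → Dl n =>
      cone (bary v) k (Sd n k (lbd k (Finsupp.single v 1)))

/-- homotopy -/
def Tt (n : ℕ) : ∀ k : ℕ, LC k (Dl n) →ₗ[ZMod 2] LC (k + 1) (Dl n)
  | 0 => 0
  | k + 1 => Finsupp.linearCombination (ZMod 2) fun v : Fin (k + 1) → Dl n =>
      cone (bary v) (k + 1) (Finsupp.single v 1 + Tt n k (lbd k (Finsupp.single v 1)))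

lemma Sd_single (n k : ℕ) (v : Fin (k + 1) → Dl n) :
    Sd n (k + 1) (Finsupp.single v 1) = cone (bary v) k (Sd n k (lbd k (Finsupp.single v 1))) := by
  simp [Sd]

lemma Tt_single (n k : ℕ) (v : Fin (k + 1) → Dl n) :
    Tt n (k + 1) (Finsupp.single v 1)
      = cone (bary v) (k + 1) (Finsupp.single v 1 + Tt n k (lbd k (Finsupp.single v 1))) := by
  simp [Tt]

lemma lbd_single (k : ℕ) (v : Fin (k + 1) → A) :
    lbd k (Finsupp.single v 1) = ∑ i : Fin (k + 1), Finsupp.single (v ∘ i.succAbove) (1 : ZMod 2) := by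
  simp [lbd]

lemma cone_single (a : A) (k : ℕ) (v : Fin k → A) :
    cone a k (Finsupp.single v 1) = Finsupp.single (Fin.cons a v : Fin (k + 1) → A) 1 := by
  simp [cone]

/-- all tuples of `c` satisfy `P` -/
def All {k : ℕ} (P : (Fin k → A) → Prop) (c : LC k A) : Prop := ∀ v ∈ c.support, P v

end Crest.Agent.R224.T.Sub
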