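/-
R224 / T / TorsFreeNode (helper247): node D5 of the topological half.
-/
import Crest.Agent.R224.T.TorsFree
import Crest.Agent.R224.T.Iface

set_option autoImplicit false

namespace Crest.Agent.R224.T

theorem nTorsFree : NTorsFree := by
  intro d M _ _ _ _ _ x hM
  have _ : LocallyPathConnectedSpace M :=
    ChartedSpace.locallyPathConnectedSpace (EE (d + 1)) M
  exact Crest.Agent.R224.TF.torsion_free M hM x

end Crest.Agent.R224.T
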